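import Vale.Agent.P205.Chart
import Vale.Agent.P205.Iter.Atlas

/-!
A compact surface has a smooth function with finitely many critical points.

The functions are sums over an atlas of cut-off quadratic polynomials in the chart coordinates. A
degenerate critical point in a chart determines that chart's five coefficients from the other
coefficients, the point and one vector of the plane, so the bad parameters are covered by images
of smooth maps from a space of one dimension less.
-/

noncomputable section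

open Set Filter Metric Function Module
open scoped Topology ContDiff Manifold

namespace Vale.Agent.P205.Global

/-- Countably many `C¹` images of convex sets of smaller dimension have dense complement. -/
theorem dense_compl_iUnion_image {ι : Type*} [Countable ι] {E P : Type*} [NormedAddCommGroup E]
    [NormedSpace ℝ E] [FiniteDimensional ℝ E] [NormedAddCommGroup P] [NormedSpace ℝ P]
    [FiniteDimensional ℝ P] (f : ι → E → P) (U : ι → Set E) (hc : ∀ i, Convex ℝ (U i))
    (hf : ∀ i, ContDiffOn ℝ 1 (f i) (U i)) (hd : finrank ℝ E < finrank ℝ P) :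
    Dense (⋃ i, f i '' U i)ᶜ := by
  refine dense_compl_of_dimH_lt_finrank ?_
  rw [dimH_iUnion]
  refine lt_of_le_of_lt (iSup_le fun i => ?_) (Nat.cast_lt.2 hd)
  calc dimH (f i '' U i) ≤ dimH (U i) := (hf i).dimH_image_le (hc i) subset_rfl
    _ ≤ dimH (univ : Set E) := dimH_mono (subset_univ _)
    _ = finrank ℝ E := Real.dimH_univ_eq_finrank E

/-- A symmetric degenerate two by two matrix is plus or minus a square. -/
theorem degenerate_square {a b c : ℝ} (h : a * c = b * b) :
    ∃ (s : Bool) (w : R2), a = (if s then 1 else -1) * (w 0 * w 0) ∧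
      b = (if s then 1 else -1) * (w 0 * w 1) ∧ c = (if s then 1 else -1) * (w 1 * w 1) := by
  rcases lt_trichotomy a 0 with ha | ha | ha
  · have hs : Real.sqrt (-a) ≠ 0 := (Real.sqrt_pos.2 (by linarith)).ne'
    have hm : Real.sqrt (-a) * Real.sqrt (-a) = -a := Real.mul_self_sqrt (by linarith)
    refine ⟨false, pt (Real.sqrt (-a)) (-b / Real.sqrt (-a)), ?_, ?_, ?_⟩ <;>
      simp only [pt, Bool.false_eq_true, if_false, Matrix.cons_val_zero, Matrix.cons_val_one,
        PiLp.toLp_apply]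
    · linarith
    · field_simp
    · field_simp
      nlinarith [hm]
  · have hb : b = 0 := mul_self_eq_zero.1 (by rw [← h, ha, zero_mul])
    rcases le_total 0 c with hc | hc
    · exact ⟨true, pt 0 (Real.sqrt c), by simp [pt, ha], by simp [pt, hb],
        by simp [pt, Real.mul_self_sqrt hc]⟩
    · exact ⟨false, pt 0 (Real.sqrt (-c)), by simp [pt, ha], by simp [pt, hb],
        by simp [pt, Real.mul_self_sqrt (neg_nonneg.2 hc)]⟩
  · have hs : Real.sqrt a ≠ 0 := (Real.sqrt_pos.2 ha).ne'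
    have hm : Real.sqrt a * Real.sqrt a = a := Real.mul_self_sqrt ha.le
    refine ⟨true, pt (Real.sqrt a) (b / Real.sqrt a), ?_, ?_, ?_⟩ <;>
      simp only [pt, if_true, Matrix.cons_val_zero, Matrix.cons_val_one, PiLp.toLp_apply]
    · linarith
    · field_simp
    · field_simp
      nlinarith [hm]

/-- The five monomials of degree one and two. -/
def mono (m : Fin 5) (z : R2) : ℝ :=
  ![z 0, z 1, z 0 * z 0 / 2, z 0 * z 1, z 1 * z 1 / 2] m

theorem mono_smooth (m : Fin 5) : ContDiff ℝ ∞ (mono m) := by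
  have h0 : ContDiff ℝ ∞ (fun z : R2 => z 0) :=
    (EuclideanSpace.proj (𝕜 := ℝ) (0 : Fin 2)).contDiff
  have h1 : ContDiff ℝ ∞ (fun z : R2 => z 1) :=
    (EuclideanSpace.proj (𝕜 := ℝ) (1 : Fin 2)).contDiff
  fin_cases m
  · exact h0
  · exact h1
  · exact (h0.mul h0).div_const 2
  · exact h0.mul h1
  · exact (h1.mul h1).div_const 2

/-- First derivatives of a quadratic polynomial. -/
theorem fderiv_poly (c : Fin 5 → ℝ) (z v : R2) :
    fderiv ℝ (fun y => ∑ m, c m * mono m y) z v =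
      (c 0 + c 2 * z 0 + c 3 * z 1) * v 0 + (c 1 + c 3 * z 0 + c 4 * z 1) * v 1 := by
  have h0 := (EuclideanSpace.proj (𝕜 := ℝ) (0 : Fin 2)).hasFDerivAt (x := z)
  have h1 := (EuclideanSpace.proj (𝕜 := ℝ) (1 : Fin 2)).hasFDerivAt (x := z)
  have he : (fun y => ∑ m, c m * mono m y) = fun y : R2 =>
      c 0 * y 0 + c 1 * y 1 + (c 2 / 2) * (y 0 * y 0) + c 3 * (y 0 * y 1)
        + (c 4 / 2) * (y 1 * y 1) := by
    funext y
    simp [mono, Fin.sum_univ_five]
    ring
  have h := ((((h0.const_mul (c 0)).fun_add (h1.const_mul (c 1))).fun_add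
      ((h0.fun_mul h0).const_mul (c 2 / 2))).fun_add ((h0.fun_mul h1).const_mul (c 3))).fun_add
      ((h1.fun_mul h1).const_mul (c 4 / 2))
  rw [he]
  refine (congrArg (fun T : R2 →L[ℝ] ℝ => T v) h.fderiv).trans ?_
  simp
  ring

/-- A zero of the gradient with invertible derivative is isolated. -/
theorem eventually_fderiv_ne {f : R2 → ℝ} {U : Set R2} (hU : IsOpen U) (hf : ContDiffOn ℝ 2 f U)
    {z : R2} (hz : z ∈ U)
    (hd : fderiv ℝ f z = 0 →
      fderiv ℝ (fun y => fderiv ℝ f y (pt 1 0)) z (pt 1 0) *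
          fderiv ℝ (fun y => fderiv ℝ f y (pt 0 1)) z (pt 0 1) -
        fderiv ℝ (fun y => fderiv ℝ f y (pt 0 1)) z (pt 1 0) *
          fderiv ℝ (fun y => fderiv ℝ f y (pt 1 0)) z (pt 0 1) ≠ 0) :
    ∀ᶠ y in 𝓝[≠] z, fderiv ℝ f y ≠ 0 := by
  by_cases h0 : fderiv ℝ f z = 0
  swap
  · exact nhdsWithin_le_nhds (((hf.continuousOn_fderiv_of_isOpen hU (by norm_num)).continuousAt
      (hU.mem_nhds hz)).eventually_ne h0)
  have hdf := hf.fderiv_of_isOpen hU (m := 1) (by norm_num)
  have hg : ∀ v : R2, HasFDerivAt (fun y => fderiv ℝ f y v)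
      (fderiv ℝ (fun y => fderiv ℝ f y v) z) z := fun v =>
    (((hdf.clm_apply contDiffOn_const).differentiableOn one_ne_zero z hz).differentiableAt
      (hU.mem_nhds hz)).hasFDerivAt
  have hG := (hg (pt 1 0)).prodMk (hg (pt 0 1))
  set T := (fderiv ℝ (fun y => fderiv ℝ f y (pt 1 0)) z).prod
    (fderiv ℝ (fun y => fderiv ℝ f y (pt 0 1)) z) with hT
  have hinj : Injective T := by
    refine (injective_iff_map_eq_zero T).2 fun v hv => ?_
    have hve : v = v 0 • pt 1 0 + v 1 • pt 0 1 := by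
      ext i; fin_cases i <;> simp [pt]
    rw [hve, hT] at hv
    simp only [ContinuousLinearMap.prod_apply, map_add, map_smul, Prod.smul_mk, Prod.mk_add_mk,
      Prod.mk_eq_zero, smul_eq_mul] at hv
    have a0 : v 0 = 0 := by
      refine (mul_eq_zero.1 ?_).resolve_right (hd h0)
      linear_combination (fderiv ℝ (fun y => fderiv ℝ f y (pt 0 1)) z (pt 0 1)) * hv.1 -
        (fderiv ℝ (fun y => fderiv ℝ f y (pt 1 0)) z (pt 0 1)) * hv.2
    have a1 : v 1 = 0 := by
      refine (mul_eq_zero.1 ?_).resolve_right (hd h0)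
      linear_combination (fderiv ℝ (fun y => fderiv ℝ f y (pt 1 0)) z (pt 1 0)) * hv.2 -
        (fderiv ℝ (fun y => fderiv ℝ f y (pt 0 1)) z (pt 1 0)) * hv.1
    rw [hve, a0, a1, zero_smul, zero_smul, add_zero]
  obtain ⟨K, -, hK⟩ := T.toLinearMap.exists_antilipschitzWith (LinearMap.ker_eq_bot.2 hinj)
  filter_upwards [hG.eventually_ne (c := (0, 0)) ⟨K, hK⟩] with y hy h
  exact hy (by simp [h])

variable {M : Type} [TopologicalSpace M] [ChartedSpace R2 M] [IsManifold 𝓘(ℝ, R2) ∞ M]
  [CompactSpace M] [T2Space M]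

/-- **Every compact surface has a smooth function with finitely many critical points.** -/
theorem exists_finite_critical :
    ∃ h : M → ℝ, ContMDiff 𝓘(ℝ, R2) 𝓘(ℝ) ∞ h ∧
      {p | mfderiv 𝓘(ℝ, R2) 𝓘(ℝ) h p = 0}.Finite := by
  classical
  obtain ⟨A⟩ := Iter.nonempty_atlas (E := R2) (I := 𝓘(ℝ, R2)) (M := M)
    (ContinuousLinearEquiv.refl ℝ R2)
  let φ : ContDiffBump (0 : R2) := ⟨1, 2, one_pos, one_lt_two⟩
  set e : A.ι → Fin 5 → M → ℝ := fun k m => A.glue k (fun z => φ z * mono m z) with he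
  have hes : ∀ k m, ContMDiff 𝓘(ℝ, R2) 𝓘(ℝ) ∞ (e k m) := fun k m =>
    A.glue_smooth k (φ.contDiff.mul (mono_smooth m))
      ((support_mul_subset_left _ _).trans (φ.support_eq.subset.trans ball_subset_closedBall))
  have hown : ∀ j m, ∀ z ∈ ball (0 : R2) 1, e j m (A.par j z) = mono m z := by
    intro j m z hz
    have h3 : z ∈ ball (0 : R2) 3 := ball_subset_ball (by norm_num) hz
    rw [he]
    simp only [Iter.Atlas.glue]
    rw [if_pos (A.par_mem j h3), A.inv_par j z h3,
      φ.one_of_mem_closedBall (ball_subset_closedBall hz), one_mul]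
  have hu : ∀ j k m, ContDiffOn ℝ ∞ (fun z => e k m (A.par j z)) (ball 0 1) := fun j k m =>
    (((hes k m).comp_contMDiffOn (A.par_smooth j)).contDiffOn).mono
      (ball_subset_ball (by norm_num))
  -- the part of the other charts
  set rest : (j : A.ι) → ({k // k ≠ j} → Fin 5 → ℝ) → R2 → ℝ :=
    fun j Q z => ∑ k : {k // k ≠ j}, ∑ m, Q k m * e k m (A.par j z) with hrest
  have hrs : ∀ j, ContDiffOn ℝ ∞ (fun x : ({k // k ≠ j} → Fin 5 → ℝ) × R2 => rest j x.1 x.2)
      (univ ×ˢ ball 0 1) := by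
    intro j
    refine ContDiffOn.sum fun k _ => ContDiffOn.sum fun m _ => ?_
    refine ((contDiff_apply_apply ℝ ℝ k m).comp contDiff_fst).contDiffOn.mul ?_
    exact (hu j k m).comp contDiffOn_snd fun x hx => hx.2
  -- first and second derivatives
  set g1 : (j : A.ι) → ({k // k ≠ j} → Fin 5 → ℝ) → R2 → R2 → ℝ :=
    fun j Q a z => fderiv ℝ (rest j Q) z a with hg1
  set g2 : (j : A.ι) → ({k // k ≠ j} → Fin 5 → ℝ) → R2 → R2 → R2 → ℝ :=
    fun j Q b a z => fderiv ℝ (g1 j Q a) z b with hg2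
  have hopen : ∀ j : A.ι, IsOpen ((univ : Set ({k // k ≠ j} → Fin 5 → ℝ)) ×ˢ ball (0 : R2) 1) :=
    fun j => isOpen_univ.prod isOpen_ball
  have partial_ : ∀ (j : A.ι) (F : ({k // k ≠ j} → Fin 5 → ℝ) → R2 → ℝ),
      ContDiffOn ℝ ∞ (fun x : ({k // k ≠ j} → Fin 5 → ℝ) × R2 => F x.1 x.2)
        (univ ×ˢ ball 0 1) → ∀ a : R2,
      ContDiffOn ℝ ∞ (fun x : ({k // k ≠ j} → Fin 5 → ℝ) × R2 => fderiv ℝ (F x.1) x.2 a)
        (univ ×ˢ ball 0 1) := by
    intro j F hF a
    have h := (hF.fderiv_of_isOpen (hopen j) (m := ∞) le_rfl).clm_apply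
      (contDiffOn_const (c := ((0 : {k // k ≠ j} → Fin 5 → ℝ), a)))
    refine h.congr fun x hx => ?_
    have hd : HasFDerivAt (fun x : ({k // k ≠ j} → Fin 5 → ℝ) × R2 => F x.1 x.2)
        (fderiv ℝ (fun x : ({k // k ≠ j} → Fin 5 → ℝ) × R2 => F x.1 x.2) x) x :=
      ((hF x hx).differentiableWithinAt (by simp)).differentiableAt
        ((hopen j).mem_nhds hx) |>.hasFDerivAt
    have hs := HasFDerivAt.comp (f := fun y => (x.1, y)) x.2 hd
      ((hasFDerivAt_const x.1 x.2).prodMk (hasFDerivAt_id x.2))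
    rw [show fderiv ℝ (F x.1) x.2 = _ from hs.fderiv]
    simp
  have hg1s := fun (j : A.ι) (a : R2) => partial_ j (rest j) (hrs j) a
  have hg2s := fun (j : A.ι) (b a : R2) => partial_ j (fun Q z => g1 j Q a z) (hg1s j a) b
  -- the maps covering the bad parameters
  let P := A.ι → Fin 5 → ℝ
  set co : (j : A.ι) → Bool → (({k // k ≠ j} → Fin 5 → ℝ) × R2) × R2 → Fin 5 → ℝ :=
    fun j s x =>
      let Q := x.1.1
      let z := x.1.2
      let w := x.2
      let σ : ℝ := if s then 1 else -1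
      let p2 := σ * (w 0 * w 0) - g2 j Q (pt 1 0) (pt 1 0) z
      let p3 := σ * (w 0 * w 1) - g2 j Q (pt 0 1) (pt 1 0) z
      let p4 := σ * (w 1 * w 1) - g2 j Q (pt 0 1) (pt 0 1) z
      ![-g1 j Q (pt 1 0) z - p2 * z 0 - p3 * z 1, -g1 j Q (pt 0 1) z - p3 * z 0 - p4 * z 1,
        p2, p3, p4] with hco
  set bad : (j : A.ι) → Bool → (({k // k ≠ j} → Fin 5 → ℝ) × R2) × R2 → P :=
    fun j s x k => if hk : k = j then co j s x else x.1.1 ⟨k, hk⟩ with hbad
  set D : (j : A.ι) → Set ((({k // k ≠ j} → Fin 5 → ℝ) × R2) × R2) :=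
    fun j => (univ ×ˢ ball 0 1) ×ˢ univ with hD
  have hbads : ∀ j s, ContDiffOn ℝ 1 (bad j s) (D j) := by
    intro j s
    refine contDiffOn_pi.2 fun k => ?_
    rw [hbad]
    by_cases hk : k = j
    swap
    · simp only [hk, dite_false]
      exact ((contDiff_apply ℝ _ _).comp (contDiff_fst.comp contDiff_fst)).contDiffOn
    simp only [hk, dite_true]
    have hz : ∀ i : Fin 2, ContDiffOn ℝ 1
        (fun x : (({k // k ≠ j} → Fin 5 → ℝ) × R2) × R2 => x.1.2 i) (D j) := fun i =>
      ((EuclideanSpace.proj (𝕜 := ℝ) i).contDiff.comp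
        (contDiff_snd.comp contDiff_fst)).contDiffOn
    have hw : ∀ i : Fin 2, ContDiffOn ℝ 1
        (fun x : (({k // k ≠ j} → Fin 5 → ℝ) × R2) × R2 => x.2 i) (D j) := fun i =>
      ((EuclideanSpace.proj (𝕜 := ℝ) i).contDiff.comp contDiff_snd).contDiffOn
    have h1 : ∀ a, ContDiffOn ℝ 1
        (fun x : (({k // k ≠ j} → Fin 5 → ℝ) × R2) × R2 => g1 j x.1.1 a x.1.2) (D j) := fun a =>
      ((hg1s j a).of_le (by simp)).comp contDiffOn_fst fun x hx => hx.1
    have h2 : ∀ b a, ContDiffOn ℝ 1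
        (fun x : (({k // k ≠ j} → Fin 5 → ℝ) × R2) × R2 => g2 j x.1.1 b a x.1.2) (D j) :=
      fun b a => ((hg2s j b a).of_le (by simp)).comp contDiffOn_fst fun x hx => hx.1
    set σ : ℝ := if s then 1 else -1
    have p2 := ((hw 0).mul (hw 0)).const_smul σ |>.sub (h2 (pt 1 0) (pt 1 0))
    have p3 := ((hw 0).mul (hw 1)).const_smul σ |>.sub (h2 (pt 0 1) (pt 1 0))
    have p4 := ((hw 1).mul (hw 1)).const_smul σ |>.sub (h2 (pt 0 1) (pt 0 1))
    refine contDiffOn_pi.2 fun m => ?_
    fin_cases m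
    · exact ((h1 (pt 1 0)).neg.sub (p2.mul (hz 0))).sub (p3.mul (hz 1))
    · exact ((h1 (pt 0 1)).neg.sub (p3.mul (hz 0))).sub (p4.mul (hz 1))
    · exact p2
    · exact p3
    · exact p4
  -- a good parameter
  have hdense : ∀ j : A.ι, ∀ s, dimH (bad j s '' D j) < (finrank ℝ P : ℕ) := by
    intro j s
    refine lt_of_le_of_lt (((hbads j s).dimH_image_le
      ((convex_univ.prod (convex_ball 0 1)).prod convex_univ) subset_rfl).trans
      ((dimH_mono (subset_univ _)).trans_eq (Real.dimH_univ_eq_finrank _))) ?_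
    rw [Nat.cast_lt]
    have hc : Fintype.card {k // k ≠ j} = Fintype.card A.ι - 1 := by
      simp [Fintype.card_subtype_compl]
    have hpos : 0 < Fintype.card A.ι := Fintype.card_pos_iff.2 ⟨j⟩
    simp only [finrank_prod, finrank_pi_fintype, finrank_self, finrank_euclideanSpace_fin,
      Finset.sum_const, Finset.card_univ, Fintype.card_fin, smul_eq_mul, P, hc]
    omega
  obtain ⟨c, hc⟩ : ∃ c : P, ∀ j s, c ∉ bad j s '' D j := by
    have hdim : dimH (⋃ j, ⋃ s, bad j s '' D j) < (finrank ℝ P : ℕ) ∨ IsEmpty A.ι := by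
      rcases isEmpty_or_nonempty A.ι with hι | ⟨⟨j₀⟩⟩
      · exact Or.inr hι
      have : Nonempty A.ι := ⟨j₀⟩
      refine Or.inl ?_
      simp only [dimH_iUnion]
      obtain ⟨j, hj⟩ := Finite.exists_max fun x : A.ι × Bool => dimH (bad x.1 x.2 '' D x.1)
      exact lt_of_le_of_lt (iSup_le fun k => iSup_le fun s => hj (k, s)) (hdense j.1 j.2)
    rcases hdim with h | h
    · obtain ⟨c, hc⟩ := (dense_compl_of_dimH_lt_finrank h).nonempty
      simp only [mem_compl_iff, mem_iUnion, not_exists] at hc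
      exact ⟨c, hc⟩
    · exact ⟨0, fun j => (h.false j).elim⟩
  set h : M → ℝ := fun p => ∑ k, ∑ m, c k m * e k m p with hh
  have hhs : ContMDiff 𝓘(ℝ, R2) 𝓘(ℝ) ∞ h :=
    contMDiff_finsetSum fun k _ => contMDiff_finsetSum fun m _ => contMDiff_const.mul (hes k m)
  refine ⟨h, hhs, ?_⟩
  -- near every point of a chart the critical points are isolated
  have hsep : ∀ j : A.ι, ∀ z ∈ ball (0 : R2) 1,
      ∀ᶠ y in 𝓝[≠] z, fderiv ℝ (fun y => h (A.par j y)) y ≠ 0 := by
    intro j z hz
    set Q : {k // k ≠ j} → Fin 5 → ℝ := fun k => c k with hQ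
    have hRs : ContDiffOn ℝ ∞ (rest j Q) (ball 0 1) :=
      (hrs j).comp (contDiffOn_const.prodMk contDiffOn_id) fun y hy => ⟨mem_univ _, hy⟩
    have hsplit : ∀ y ∈ ball (0 : R2) 1,
        h (A.par j y) = rest j Q y + ∑ m, c j m * mono m y := by
      intro y hy
      rw [hh, hrest]
      simp only
      rw [Fintype.sum_eq_add_sum_compl j, add_comm]
      congr 1
      · rw [← Finset.sum_subtype ({j}ᶜ : Finset A.ι) (fun k => by simp)
          (fun k => ∑ m, c k m * e k m (A.par j y))]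
      · exact Finset.sum_congr rfl fun m _ => by rw [hown j m y hy]
    have hpoly : ContDiff ℝ ∞ (fun y => ∑ m, c j m * mono m y) :=
      ContDiff.sum fun m _ => contDiff_const.mul (mono_smooth m)
    have hfd : ∀ y ∈ ball (0 : R2) 1, ∀ a : R2, fderiv ℝ (fun y => h (A.par j y)) y a =
        g1 j Q a y + ((c j 0 + c j 2 * y 0 + c j 3 * y 1) * a 0 +
          (c j 1 + c j 3 * y 0 + c j 4 * y 1) * a 1) := by
      intro y hy a
      rw [Filter.EventuallyEq.fderiv_eq (eventually_of_mem (isOpen_ball.mem_nhds hy) hsplit :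
        (fun y => h (A.par j y)) =ᶠ[𝓝 y] fun y => rest j Q y + ∑ m, c j m * mono m y),
        fderiv_fun_add
        (((hRs y hy).differentiableWithinAt (by simp)).differentiableAt (isOpen_ball.mem_nhds hy))
        (hpoly.differentiable (by simp) y)]
      rw [add_apply, fderiv_poly]
    have hdd : ∀ b a : R2, fderiv ℝ (fun y => fderiv ℝ (fun y => h (A.par j y)) y a) z b =
        g2 j Q b a z + ((c j 2 * b 0 + c j 3 * b 1) * a 0 +
          (c j 3 * b 0 + c j 4 * b 1) * a 1) := by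
      intro b a
      have h0 := (EuclideanSpace.proj (𝕜 := ℝ) (0 : Fin 2)).hasFDerivAt (x := z)
      have h1 := (EuclideanSpace.proj (𝕜 := ℝ) (1 : Fin 2)).hasFDerivAt (x := z)
      have hl : HasFDerivAt (fun y : R2 => (c j 0 + c j 2 * y 0 + c j 3 * y 1) * a 0 +
          (c j 1 + c j 3 * y 0 + c j 4 * y 1) * a 1) _ z :=
        ((((h0.const_mul (c j 2)).const_add (c j 0)).add (h1.const_mul (c j 3))).mul_const
          (a 0)).add ((((h0.const_mul (c j 3)).const_add (c j 1)).add
            (h1.const_mul (c j 4))).mul_const (a 1))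
      have hR : DifferentiableAt ℝ (g1 j Q a) z :=
        (((((hg1s j a).comp (contDiffOn_const.prodMk contDiffOn_id) fun y hy => ⟨mem_univ _, hy⟩)
          z hz).differentiableWithinAt (by simp)).differentiableAt (isOpen_ball.mem_nhds hz))
      rw [Filter.EventuallyEq.fderiv_eq (eventually_of_mem (isOpen_ball.mem_nhds hz) fun y hy => hfd y hy a :
        (fun y => fderiv ℝ (fun y => h (A.par j y)) y a) =ᶠ[𝓝 z] fun y => g1 j Q a y +
          ((c j 0 + c j 2 * y 0 + c j 3 * y 1) * a 0 +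
            (c j 1 + c j 3 * y 0 + c j 4 * y 1) * a 1)),
        (hR.hasFDerivAt.fun_add hl).fderiv]
      simp [hg2]
      ring
    have hj : ContDiffOn ℝ 2 (fun y => h (A.par j y)) (ball 0 1) :=
      ((hhs.comp_contMDiffOn (A.par_smooth j)).contDiffOn.mono
        (ball_subset_ball (by norm_num))).of_le (by norm_cast)
    refine eventually_fderiv_ne isOpen_ball hj hz fun h0 hdet => ?_
    have hsym : g2 j Q (pt 1 0) (pt 0 1) z = g2 j Q (pt 0 1) (pt 1 0) z := by
      have hat : ContDiffAt ℝ 2 (rest j Q) z :=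
        ((hRs z hz).contDiffAt (isOpen_ball.mem_nhds hz)).of_le (by norm_cast)
      have hdiff : DifferentiableAt ℝ (fderiv ℝ (rest j Q)) z :=
        (hat.fderiv_right (m := 1) le_rfl).differentiableAt one_ne_zero
      have key : ∀ b a, g2 j Q b a z = fderiv ℝ (fderiv ℝ (rest j Q)) z b a := fun b a => by
        simp only [hg2, hg1]
        rw [fderiv_clm_apply hdiff (differentiableAt_const a)]
        simp
      rw [key, key]
      exact (hat.isSymmSndFDerivAt (by simp)).eq _ _
    have e0 := hfd z hz (pt 1 0)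
    have e1 := hfd z hz (pt 0 1)
    simp only [h0, zero_apply] at e0 e1
    simp only [hdd, hsym] at hdet
    simp [pt] at e0 e1 hdet
    obtain ⟨s, w, ha, hb, hcc⟩ := degenerate_square
      (a := g2 j Q (pt 1 0) (pt 1 0) z + c j 2) (b := g2 j Q (pt 0 1) (pt 1 0) z + c j 3)
      (c := g2 j Q (pt 0 1) (pt 0 1) z + c j 4) (by simp only [pt]; linarith)
    refine hc j s ⟨((Q, z), w), ⟨⟨mem_univ _, hz⟩, mem_univ _⟩, ?_⟩
    funext k
    rw [hbad]
    by_cases hk : k = j
    swap
    · simp [hk, hQ]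
    subst hk
    simp only [dite_true, hco]
    rw [← ha, ← hb, ← hcc]
    funext m
    fin_cases m <;> simp [pt] <;> linarith
  -- finitely many in each compact piece
  have hfin : ∀ j : A.ι, {p | mfderiv 𝓘(ℝ, R2) 𝓘(ℝ) h p = 0 ∧
      p ∈ tsupport (A.weight j)}.Finite := by
    intro j
    set K := A.inv j '' tsupport (A.weight j) with hK
    have hKc : IsCompact K := (isClosed_tsupport _).isCompact.image_of_continuousOn
      ((A.inv_smooth j).continuousOn.mono fun p hp => (A.weight_supp j hp).1)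
    have hK1 : K ⊆ ball 0 1 := by
      rintro z ⟨p, hp, rfl⟩
      exact (A.weight_supp j hp).2
    obtain ⟨t, -, ht⟩ := hKc.elim_nhds_subcover
      (fun z => {y | y ≠ z → fderiv ℝ (fun y => h (A.par j y)) y ≠ 0}) fun z hz =>
      (eventually_nhdsWithin_iff.1 (hsep j z (hK1 hz)))
    refine (t.finite_toSet.image (A.par j)).subset fun p hp => ?_
    have hpK : A.inv j p ∈ K := ⟨p, hp.2, rfl⟩
    obtain ⟨z, hzt, hzy⟩ := mem_iUnion₂.1 (ht hpK)
    refine ⟨z, hzt, ?_⟩
    suffices A.inv j p = z by rw [← this, A.par_inv j p (A.weight_supp j hp.2).1]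
    by_contra hne
    refine hzy hne ?_
    have h3 : A.inv j p ∈ ball (0 : R2) 3 := ball_subset_ball (by norm_num) (hK1 hpK)
    have hmd : MDifferentiableAt 𝓘(ℝ, R2) 𝓘(ℝ, R2) (A.par j) (A.inv j p) :=
      ((A.par_smooth j).contMDiffAt (isOpen_ball.mem_nhds h3)).mdifferentiableAt (by simp)
    rw [← mfderiv_eq_fderiv, show (fun y => h (A.par j y)) = h ∘ A.par j from rfl,
      mfderiv_comp _ ((hhs _).mdifferentiableAt (by simp)) hmd,
      A.par_inv j p (A.weight_supp j hp.2).1, hp.1]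
    exact ContinuousLinearMap.zero_comp _
  refine (finite_iUnion hfin).subset fun p hp => ?_
  obtain ⟨j, -, hj⟩ := Finset.exists_ne_zero_of_sum_ne_zero
    (by rw [A.weight_sum p]; exact one_ne_zero : (∑ j, A.weight j p) ≠ 0)
  exact mem_iUnion.2 ⟨j, hp, subset_tsupport _ hj⟩

end Vale.Agent.P205.Global
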