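import Mathlib

/-!
Smooth one-forms with values in a vector space, written as finite sums `a • dm` of global smooth
functions.
-/

noncomputable section

open Set Filter Topology
open scoped ContDiff Manifold

namespace Vale.Agent.P205.Global

variable {E : Type} [NormedAddCommGroup E] [NormedSpace ℝ E]
  {M : Type} [TopologicalSpace M] [ChartedSpace E M]
  {V : Type} [NormedAddCommGroup V] [NormedSpace ℝ V]

/-- A family of functions on the tangent spaces given by a finite sum `∑ a i • dm i`. -/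
def IsOneForm (σ : (p : M) → TangentSpace 𝓘(ℝ, E) p → V) : Prop :=
  ∃ (n : ℕ) (a : Fin n → M → V) (m : Fin n → M → ℝ),
    (∀ i, ContMDiff 𝓘(ℝ, E) 𝓘(ℝ, V) ∞ (a i)) ∧ (∀ i, ContMDiff 𝓘(ℝ, E) 𝓘(ℝ) ∞ (m i)) ∧
      ∀ p v, σ p v = ∑ i,
        (show ℝ from mfderiv 𝓘(ℝ, E) 𝓘(ℝ) (m i) p v) • a i p

theorem IsOneForm.single {a : M → V} {m : M → ℝ} (ha : ContMDiff 𝓘(ℝ, E) 𝓘(ℝ, V) ∞ a)
    (hm : ContMDiff 𝓘(ℝ, E) 𝓘(ℝ) ∞ m) :
    IsOneForm fun p (v : TangentSpace 𝓘(ℝ, E) p) =>
      (show ℝ from mfderiv 𝓘(ℝ, E) 𝓘(ℝ) m p v) • a p :=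
  ⟨1, fun _ => a, fun _ => m, fun _ => ha, fun _ => hm, fun p v => by simp⟩

theorem IsOneForm.add {σ τ : (p : M) → TangentSpace 𝓘(ℝ, E) p → V} (hσ : IsOneForm σ)
    (hτ : IsOneForm τ) : IsOneForm fun p v => σ p v + τ p v := by
  obtain ⟨n, a, m, ha, hm, hσ⟩ := hσ
  obtain ⟨n', a', m', ha', hm', hτ⟩ := hτ
  refine ⟨n + n', Fin.addCases a a', Fin.addCases m m', fun i => ?_, fun i => ?_, fun p v => ?_⟩
  · induction i using Fin.addCases with
    | left i => simpa using ha i
    | right i => simpa using ha' i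
  · induction i using Fin.addCases with
    | left i => simpa using hm i
    | right i => simpa using hm' i
  · rw [Fin.sum_univ_add]
    refine congrArg₂ (· + ·) ((hσ p v).trans (Finset.sum_congr rfl fun i _ => ?_))
      ((hτ p v).trans (Finset.sum_congr rfl fun i _ => ?_))
    · beta_reduce
      rw [show Fin.addCases (motive := fun _ => M → ℝ) m m' (Fin.castAdd n' i) = m i from
        Fin.addCases_left i, Fin.addCases_left]
    · beta_reduce
      rw [show Fin.addCases (motive := fun _ => M → ℝ) m m' (Fin.natAdd n i) = m' i from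
        Fin.addCases_right i, Fin.addCases_right]

end Vale.Agent.P205.Global
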