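import Vale.Agent.P205.Chart
import Vale.Agent.P205.Iter.Atlas
import Vale.Agent.P205.Global.OneForm

/-!
Convex integration by corrugation: an injective one-form with values in `ℝ³` on a compact surface
gives an immersion of the surface in `ℝ³`.

The state is a map `f` and a one-form `E` with `df + E` injective. A step in one coordinate
direction of a chart adds `N⁻¹ R (sin 2s / 2 • a - cos s • n)`, `s = N x`, to `f` and removes
that component of `E`; here `a, b` are the components of `df + E` and `n = b × a`.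
-/

noncomputable section

open Set Filter Metric Function
open scoped Topology ContDiff Manifold

namespace Vale.Agent.P205.Global

/-- Euclidean three-space. -/
abbrev V3 := EuclideanSpace ℝ (Fin 3)

/-- The cross product. -/
def cr (u v : V3) : V3 := !₂[u 1 * v 2 - u 2 * v 1, u 2 * v 0 - u 0 * v 2, u 0 * v 1 - u 1 * v 0]

theorem inner_three (u v : V3) : inner ℝ u v = u 0 * v 0 + u 1 * v 1 + u 2 * v 2 := by
  simp [PiLp.inner_apply, Fin.sum_univ_three]
  ring

theorem inner_cr_perm (u v w : V3) : inner ℝ (cr u v) w = inner ℝ u (cr v w) := by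
  simp only [inner_three]
  simp [cr]
  ring

theorem inner_cr_self_left (u v : V3) : inner ℝ u (cr u v) = 0 := by
  simp only [inner_three]
  simp [cr]
  ring

theorem inner_cr_self_right (u v : V3) : inner ℝ v (cr u v) = 0 := by
  simp only [inner_three]
  simp [cr]
  ring

theorem cr_swap (u v : V3) : cr v u = -cr u v := by
  ext i; fin_cases i <;> simp [cr] <;> ring

theorem cr_lin (x y : ℝ) (u v : V3) : cr (x • u + y • v) v = x • cr u v := by
  ext i; fin_cases i <;> simp [cr] <;> ring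

theorem norm_lagrange (u v : V3) :
    ‖inner ℝ v v • u - inner ℝ u v • v‖ ^ 2 = inner ℝ v v * ‖cr u v‖ ^ 2 := by
  rw [← real_inner_self_eq_norm_sq, ← real_inner_self_eq_norm_sq]
  simp only [inner_three]
  simp [cr]
  ring

theorem cr_smooth : ContDiff ℝ ∞ (fun p : V3 × V3 => cr p.1 p.2) := by
  have h : ∀ i : Fin 3, ContDiff ℝ ∞ (fun p : V3 × V3 => p.1 i) := fun i =>
    (EuclideanSpace.proj (𝕜 := ℝ) i).contDiff.comp contDiff_fst
  have k : ∀ i : Fin 3, ContDiff ℝ ∞ (fun p : V3 × V3 => p.2 i) := fun i =>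
    (EuclideanSpace.proj (𝕜 := ℝ) i).contDiff.comp contDiff_snd
  refine (contDiff_piLp 2).2 fun i => ?_
  fin_cases i
  · exact ((h 1).mul (k 2)).sub ((h 2).mul (k 1))
  · exact ((h 2).mul (k 0)).sub ((h 0).mul (k 2))
  · exact ((h 0).mul (k 1)).sub ((h 1).mul (k 0))

/-- Amplitude of a corrugation. -/
def ampl (a b T : V3) : ℝ :=
  2 * (1 + (inner ℝ T (cr (cr b a) b) / inner ℝ (cr b a) (cr b a)) ^ 2 +
    (inner ℝ T (cr b a) / inner ℝ (cr b a) (cr b a)) ^ 2)

/-- The corrugated component stays independent of the other one. -/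
theorem indep_wave {a b T : V3} (h : cr b a ≠ 0) {w D : ℝ} (hw0 : 0 ≤ w) (hw1 : w ≤ 1) :
    cr ((1 - w) • a + w • (T + ampl a b T • ((1 - 2 * D ^ 2) • a + D • cr b a))) b ≠ 0 := by
  intro h0
  set n := cr b a with hn
  set c := cr n b with hc
  set q := inner ℝ n n with hq
  have hq0 : 0 < q := real_inner_self_pos.2 h
  set α := inner ℝ T c / q with hα
  set τ := inner ℝ T n / q with hτ
  have hR : ampl a b T = 2 * (1 + α ^ 2 + τ ^ 2) := rfl
  set R := ampl a b T with hRdef
  set P := (1 - w) • a + w • (T + R • ((1 - 2 * D ^ 2) • a + D • n)) with hP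
  have ean : inner ℝ a n = 0 := inner_cr_self_right b a
  have eac : inner ℝ a c = q := by
    rw [hc, real_inner_comm, inner_cr_perm, ← hn]
  have enc : inner ℝ n c = 0 := inner_cr_self_left n b
  have p1 : inner ℝ P n = 0 := by
    rw [hn, ← inner_cr_perm, h0, inner_zero_left]
  have p2 : inner ℝ P c = 0 := by
    rw [hc, cr_swap b n, inner_neg_right, ← inner_cr_perm, h0, inner_zero_left, neg_zero]
  simp only [hP, inner_add_left, real_inner_smul_left, ean, eac, enc, ← hq, mul_zero, zero_add,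
    add_zero] at p1 p2
  have e1 : inner ℝ T n = τ * q := by rw [hτ, div_mul_cancel₀ _ hq0.ne']
  have e2 : inner ℝ T c = α * q := by rw [hα, div_mul_cancel₀ _ hq0.ne']
  rw [e1] at p1
  rw [e2] at p2
  have f1 : w * (τ + R * D) = 0 := (mul_eq_zero.1 (by linear_combination p1 :
    (w * (τ + R * D)) * q = 0)).resolve_right hq0.ne'
  have f2 : (1 - w) + w * (α + R * (1 - 2 * D ^ 2)) = 0 := (mul_eq_zero.1 (by linear_combination p2 :
    ((1 - w) + w * (α + R * (1 - 2 * D ^ 2))) * q = 0)).resolve_right hq0.ne'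
  rcases hw0.eq_or_lt with hw | hw
  · rw [← hw] at f2; norm_num at f2
  have g1 : τ + R * D = 0 := (mul_eq_zero.1 f1).resolve_left hw.ne'
  have hR0 : 0 < R := by rw [hR]; positivity
  have g2 : 2 * (R * D ^ 2) ≤ 1 := by
    have : R * (R * D ^ 2) = τ ^ 2 := by linear_combination (R * D - τ) * g1
    nlinarith [sq_nonneg α]
  have g3 : 0 < α + R * (1 - 2 * D ^ 2) := by nlinarith [sq_nonneg (α + 1), sq_nonneg τ]
  nlinarith

variable {M : Type} [TopologicalSpace M] [ChartedSpace R2 M] [IsManifold 𝓘(ℝ, R2) ∞ M]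
  [CompactSpace M] [T2Space M]

/-- The coordinate vectors of the plane. -/
def bas (k : Fin 2) : R2 := EuclideanSpace.single k 1

theorem bas_sum (u : R2) : u = u 0 • bas 0 + u 1 • bas 1 := by
  ext i; fin_cases i <;> simp [bas]

/-- The differential as a one-form. -/
def dForm (f : M → V3) (p : M) (v : TangentSpace 𝓘(ℝ, R2) p) : V3 :=
  mfderiv 𝓘(ℝ, R2) 𝓘(ℝ, V3) f p v

/-- The differential of a function. -/
def dScal (m : M → ℝ) (p : M) (v : TangentSpace 𝓘(ℝ, R2) p) : ℝ :=
  mfderiv 𝓘(ℝ, R2) 𝓘(ℝ) m p v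

omit [IsManifold 𝓘(ℝ, R2) ∞ M] [CompactSpace M] [T2Space M] in
theorem dScal_lin (m : M → ℝ) (p : M) (x y : ℝ) (v w : TangentSpace 𝓘(ℝ, R2) p) :
    dScal m p (x • v + y • w) = x * dScal m p v + y * dScal m p w :=
  (map_add _ _ _).trans (congrArg₂ (· + ·) (map_smul _ _ _) (map_smul _ _ _))

omit [IsManifold 𝓘(ℝ, R2) ∞ M] [CompactSpace M] [T2Space M] in
theorem dForm_lin (f : M → V3) (p : M) (x y : ℝ) (v w : TangentSpace 𝓘(ℝ, R2) p) :
    dForm f p (x • v + y • w) = x • dForm f p v + y • dForm f p w :=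
  (map_add _ _ _).trans (congrArg₂ (· + ·) (map_smul _ _ _) (map_smul _ _ _))

/-- The maps allowed in the corrugation. -/
structure State (f : M → V3) (E : (p : M) → TangentSpace 𝓘(ℝ, R2) p → V3) : Prop where
  smooth : ContMDiff 𝓘(ℝ, R2) 𝓘(ℝ, V3) ∞ f
  form : IsOneForm E
  inj : ∀ p v, dForm f p v + E p v = 0 → v = 0

variable (A : Iter.Atlas (E := R2) (I := 𝓘(ℝ, R2)) (M := M))

/-- Components of a one-form in a parametrisation. -/
def comp1 (j : A.ι) (σ : (p : M) → TangentSpace 𝓘(ℝ, R2) p → V3) (z : R2) (k : Fin 2) : V3 :=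
  σ (A.par j z) (mfderiv 𝓘(ℝ, R2) 𝓘(ℝ, R2) (A.par j) z (bas k))

variable {A}

omit [CompactSpace M] [T2Space M] [IsManifold 𝓘(ℝ, R2) ∞ M] in
theorem IsOneForm.lin {σ : (p : M) → TangentSpace 𝓘(ℝ, R2) p → V3} (hσ : IsOneForm σ) (p : M)
    (x y : ℝ) (v w : TangentSpace 𝓘(ℝ, R2) p) :
    σ p (x • v + y • w) = x • σ p v + y • σ p w := by
  obtain ⟨n, a, m, -, -, h⟩ := hσ
  rw [h, h, h, Finset.smul_sum, Finset.smul_sum, ← Finset.sum_add_distrib]
  refine Finset.sum_congr rfl fun i _ => ?_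
  show dScal (m i) p (x • v + y • w) • a i p =
    x • dScal (m i) p v • a i p + y • dScal (m i) p w • a i p
  rw [dScal_lin, add_smul, mul_smul, mul_smul]

omit [IsManifold 𝓘(ℝ, R2) ∞ M] [CompactSpace M] [T2Space M] in
theorem par_mdiff (j : A.ι) {z : R2} (hz : z ∈ ball (0 : R2) 3) :
    MDifferentiableAt 𝓘(ℝ, R2) 𝓘(ℝ, R2) (A.par j) z :=
  ((A.par_smooth j).contMDiffAt (isOpen_ball.mem_nhds hz)).mdifferentiableAt (by simp)

omit [IsManifold 𝓘(ℝ, R2) ∞ M] [CompactSpace M] [T2Space M] in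
theorem comp_fderiv {W : Type} [NormedAddCommGroup W] [NormedSpace ℝ W] (j : A.ι) {f : M → W}
    (hf : ContMDiff 𝓘(ℝ, R2) 𝓘(ℝ, W) ∞ f) {z : R2} (hz : z ∈ ball (0 : R2) 3) (u : R2) :
    fderiv ℝ (fun y => f (A.par j y)) z u =
      mfderiv 𝓘(ℝ, R2) 𝓘(ℝ, W) f (A.par j z)
        (mfderiv 𝓘(ℝ, R2) 𝓘(ℝ, R2) (A.par j) z u) := by
  rw [← mfderiv_eq_fderiv, show (fun y => f (A.par j y)) = f ∘ A.par j from rfl,
    mfderiv_comp z ((hf _).mdifferentiableAt (by simp)) (par_mdiff j hz)]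
  rfl

omit [CompactSpace M] [T2Space M] in
theorem comp1_smooth (j : A.ι) {σ : (p : M) → TangentSpace 𝓘(ℝ, R2) p → V3} (hσ : IsOneForm σ)
    (k : Fin 2) : ContDiffOn ℝ ∞ (fun z => comp1 A j σ z k) (ball 0 3) := by
  obtain ⟨n, a, m, ha, hm, h⟩ := hσ
  refine ContDiffOn.congr (f := fun z => ∑ i,
    fderiv ℝ (fun y => m i (A.par j y)) z (bas k) • a i (A.par j z)) ?_ fun z hz => ?_
  · refine ContDiffOn.sum fun i _ => ?_
    have h1 : ContDiffOn ℝ ∞ (fun z => fderiv ℝ (fun y => m i (A.par j y)) z (bas k)) (ball 0 3) :=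
      (((hm i).comp_contMDiffOn (A.par_smooth j)).contDiffOn.fderiv_of_isOpen isOpen_ball
        le_rfl).clm_apply contDiffOn_const
    exact h1.smul ((ha i).comp_contMDiffOn (A.par_smooth j)).contDiffOn
  · simp only [comp1, h]
    exact Finset.sum_congr rfl fun i _ => by rw [comp_fderiv j (hm i) hz]

omit [IsManifold 𝓘(ℝ, R2) ∞ M] [CompactSpace M] [T2Space M] in
theorem tangent_eq (j : A.ι) {z : R2} (hz : z ∈ ball (0 : R2) 3)
    (v : TangentSpace 𝓘(ℝ, R2) (A.par j z)) :
    ∃ u : R2, v = u 0 • mfderiv 𝓘(ℝ, R2) 𝓘(ℝ, R2) (A.par j) z (bas 0) +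
      u 1 • mfderiv 𝓘(ℝ, R2) 𝓘(ℝ, R2) (A.par j) z (bas 1) := by
  have hp := A.par_mem j hz
  have hq : MDifferentiableAt 𝓘(ℝ, R2) 𝓘(ℝ, R2) (A.inv j) (A.par j z) :=
    ((A.inv_smooth j).contMDiffAt ((A.src_open j).mem_nhds hp)).mdifferentiableAt (by simp)
  have e := mfderiv_comp (A.par j z) (by rw [A.inv_par j z hz]; exact par_mdiff j hz) hq
  have e' : A.par j ∘ A.inv j =ᶠ[𝓝 (A.par j z)] id :=
    eventually_of_mem ((A.src_open j).mem_nhds hp) (A.par_inv j)
  rw [e'.mfderiv_eq, mfderiv_id, A.inv_par j z hz] at e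
  set u : R2 := mfderiv 𝓘(ℝ, R2) 𝓘(ℝ, R2) (A.inv j) (A.par j z) v
  refine ⟨u, ?_⟩
  calc v = mfderiv 𝓘(ℝ, R2) 𝓘(ℝ, R2) (A.par j) z u := congrArg (fun T => T v) e
    _ = _ := by
      conv_lhs => rw [bas_sum u]
      exact (map_add _ _ _).trans (congrArg₂ (· + ·) (map_smul _ _ _) (map_smul _ _ _))

omit [IsManifold 𝓘(ℝ, R2) ∞ M] [CompactSpace M] [T2Space M] in
theorem par_injective (j : A.ι) {z : R2} (hz : z ∈ ball (0 : R2) 3) {u : R2}
    (h : mfderiv 𝓘(ℝ, R2) 𝓘(ℝ, R2) (A.par j) z u = 0) : u = 0 := by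
  have hp := A.par_mem j hz
  have hq : MDifferentiableAt 𝓘(ℝ, R2) 𝓘(ℝ, R2) (A.inv j) (A.par j z) :=
    ((A.inv_smooth j).contMDiffAt ((A.src_open j).mem_nhds hp)).mdifferentiableAt (by simp)
  have e := mfderiv_comp z hq (par_mdiff j hz)
  have e' : A.inv j ∘ A.par j =ᶠ[𝓝 z] id :=
    eventually_of_mem (isOpen_ball.mem_nhds hz) (A.inv_par j)
  rw [e'.mfderiv_eq, mfderiv_id] at e
  exact (congrArg (fun T => T u) e).trans ((congrArg
    (mfderiv 𝓘(ℝ, R2) 𝓘(ℝ, R2) (A.inv j) (A.par j z)) h).trans (map_zero _))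

omit [CompactSpace M] [T2Space M] in
/-- In a parametrisation the state has independent components. -/
theorem State.cr_ne {f : M → V3} {E : (p : M) → TangentSpace 𝓘(ℝ, R2) p → V3} (h : State f E)
    (j : A.ι) {z : R2} (hz : z ∈ ball (0 : R2) 3) :
    cr (fderiv ℝ (fun y => f (A.par j y)) z (bas 0) + comp1 A j E z 0)
      (fderiv ℝ (fun y => f (A.par j y)) z (bas 1) + comp1 A j E z 1) ≠ 0 := by
  intro h0
  set U := fderiv ℝ (fun y => f (A.par j y)) z (bas 0) + comp1 A j E z 0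
  set W := fderiv ℝ (fun y => f (A.par j y)) z (bas 1) + comp1 A j E z 1
  have key : ∀ x y : ℝ, x • U + y • W = 0 → x = 0 ∧ y = 0 := by
    intro x y hxy
    set d := mfderiv 𝓘(ℝ, R2) 𝓘(ℝ, R2) (A.par j) z
    have h2 : dForm f (A.par j z) (x • d (bas 0) + y • d (bas 1)) +
        E (A.par j z) (x • d (bas 0) + y • d (bas 1)) = 0 := by
      refine Eq.trans ?_ hxy
      have e : ∀ k, fderiv ℝ (fun y => f (A.par j y)) z (bas k) =
          dForm f (A.par j z) (d (bas k)) := fun k => comp_fderiv j h.smooth hz _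
      simp only [U, W, e, h.form.lin, dForm_lin, smul_add]
      show _ = x • dForm f (A.par j z) (d (bas 0)) + x • E (A.par j z) (d (bas 0)) +
        (y • dForm f (A.par j z) (d (bas 1)) + y • E (A.par j z) (d (bas 1)))
      abel
    have h3 := par_injective j hz (u := x • bas 0 + y • bas 1)
      (((map_add d _ _).trans (congrArg₂ (· + ·) (map_smul d _ _) (map_smul d _ _))).trans
        (h.inj _ _ h2))
    have hx := congrArg (fun u : R2 => u 0) h3
    have hy := congrArg (fun u : R2 => u 1) h3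
    simp [bas] at hx hy
    exact ⟨hx, hy⟩
  have hn : ‖inner ℝ W W • U - inner ℝ U W • W‖ ^ 2 = 0 := by
    rw [norm_lagrange, h0]; simp
  have hW : inner ℝ W W = 0 := (key (inner ℝ W W) (-inner ℝ U W) (by
    rw [neg_smul, ← sub_eq_add_neg]; simpa using hn)).1
  refine absurd (key 0 1 ?_).2 one_ne_zero
  rw [zero_smul, one_smul, zero_add]
  exact inner_self_eq_zero.1 hW

omit [CompactSpace M] [T2Space M] [IsManifold 𝓘(ℝ, R2) ∞ M] in
/-- A cut-off product is smooth. -/
theorem cut_smooth {W : Type} [NormedAddCommGroup W] [NormedSpace ℝ W] {φ : R2 → ℝ} {g : R2 → W}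
    (hφ : ContDiff ℝ ∞ φ) (hs : support φ ⊆ closedBall 0 2) (hg : ContDiffOn ℝ ∞ g (ball 0 3)) :
    ContDiff ℝ ∞ fun z => φ z • g z := by
  refine contDiff_iff_contDiffAt.2 fun z => ?_
  by_cases hz : z ∈ closedBall (0 : R2) 2
  · have h3 : z ∈ ball (0 : R2) 3 := closedBall_subset_ball (by norm_num) hz
    exact hφ.contDiffAt.smul (hg.contDiffAt (isOpen_ball.mem_nhds h3))
  · refine (contDiffAt_const (c := (0 : W))).congr_of_eventuallyEq ?_
    exact eventually_of_mem (isClosed_closedBall.isOpen_compl.mem_nhds hz) fun y hy => by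
      simp [notMem_support.1 fun h => hy (hs h)]

omit [CompactSpace M] in
/-- One coordinate direction of one chart. -/
theorem exists_step (j : A.ι) (i o : Fin 2) (hio : i ≠ o) (φ : ContDiffBump (0 : R2))
    (hφ : φ.rOut = 3 / 2) {f : M → V3} {E : (p : M) → TangentSpace 𝓘(ℝ, R2) p → V3}
    (h : State f E) :
    ∃ (f' : M → V3) (E' : (p : M) → TangentSpace 𝓘(ℝ, R2) p → V3), State f' E' ∧
      (∀ p, p ∉ A.par j '' closedBall 0 (3 / 2) → ∀ v, E' p v = E p v) ∧
      ∀ z ∈ closedBall (0 : R2) (3 / 2),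
        comp1 A j E' z i = (1 - φ z) • comp1 A j E z i ∧ comp1 A j E' z o = comp1 A j E z o := by
  have hK3 : closedBall (0 : R2) (3 / 2) ⊆ ball 0 3 := closedBall_subset_ball (by norm_num)
  let φ₂ : ContDiffBump (0 : R2) := ⟨7 / 4, 2, by norm_num, by norm_num⟩
  have hφs : support φ ⊆ closedBall (0 : R2) 2 := by
    rw [φ.support_eq, hφ]
    exact ball_subset_closedBall.trans (closedBall_subset_closedBall (by norm_num))
  set T : Fin 2 → R2 → V3 := fun k z => fderiv ℝ (fun y => f (A.par j y)) z (bas k) with hT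
  set a : R2 → V3 := fun z => T i z + comp1 A j E z i with ha
  set b : R2 → V3 := fun z => T o z + comp1 A j E z o with hb
  have hTs : ∀ k, ContDiffOn ℝ ∞ (T k) (ball 0 3) := fun k =>
    (((h.smooth.comp_contMDiffOn (A.par_smooth j)).contDiffOn).fderiv_of_isOpen isOpen_ball
      le_rfl).clm_apply contDiffOn_const
  have has : ContDiffOn ℝ ∞ a (ball 0 3) := (hTs i).add (comp1_smooth j h.form i)
  have hbs : ContDiffOn ℝ ∞ b (ball 0 3) := (hTs o).add (comp1_smooth j h.form o)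
  have hn : ∀ z ∈ ball (0 : R2) 3, cr (b z) (a z) ≠ 0 := by
    intro z hz
    have hne := h.cr_ne j hz
    fin_cases i <;> fin_cases o <;> first | exact absurd rfl hio | skip
    · rw [cr_swap]; exact neg_ne_zero.2 hne
    · exact hne
  have hns : ContDiffOn ℝ ∞ (fun z => cr (b z) (a z)) (ball 0 3) :=
    cr_smooth.comp_contDiffOn (hbs.prodMk has)
  have hRs : ContDiffOn ℝ ∞ (fun z => ampl (a z) (b z) (T i z)) (ball 0 3) := by
    have hq : ∀ z ∈ ball (0 : R2) 3, inner ℝ (cr (b z) (a z)) (cr (b z) (a z)) ≠ 0 := fun z hz =>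
      (real_inner_self_pos.2 (hn z hz)).ne'
    exact contDiffOn_const.mul ((contDiffOn_const.add
      ((((hTs i).inner ℝ (cr_smooth.comp_contDiffOn (hns.prodMk hbs))).div
        (hns.inner ℝ hns) hq).pow 2)).add ((((hTs i).inner ℝ hns).div (hns.inner ℝ hns) hq).pow 2))
  set G1 : R2 → V3 := fun z => φ z • (ampl (a z) (b z) (T i z) • a z) with hG1
  set G2 : R2 → V3 := fun z => φ z • (ampl (a z) (b z) (T i z) • cr (b z) (a z)) with hG2
  have hG1s : ContDiff ℝ ∞ G1 := cut_smooth φ.contDiff hφs (hRs.smul has)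
  have hG2s : ContDiff ℝ ∞ G2 := cut_smooth φ.contDiff hφs (hRs.smul hns)
  -- the new form
  set C : M → V3 := A.glue j (fun z => φ z • comp1 A j E z i) with hC
  set X : M → ℝ := A.glue j (fun z => φ₂ z * z i) with hX
  have hCs : ContMDiff 𝓘(ℝ, R2) 𝓘(ℝ, V3) ∞ C := A.glue_smooth j
    (cut_smooth φ.contDiff hφs (comp1_smooth j h.form i)) ((support_smul_subset_left _ _).trans hφs)
  have hXs : ContMDiff 𝓘(ℝ, R2) 𝓘(ℝ) ∞ X := A.glue_smooth j
    (φ₂.contDiff.mul (EuclideanSpace.proj (𝕜 := ℝ) i).contDiff)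
    ((support_mul_subset_left _ _).trans (φ₂.support_eq.subset.trans ball_subset_closedBall))
  set E' : (p : M) → TangentSpace 𝓘(ℝ, R2) p → V3 :=
    fun p v => E p v + dScal X p v • (-C) p with hE'
  have hform : IsOneForm E' := h.form.add (IsOneForm.single hCs.neg hXs)
  have hC0 : ∀ p, p ∉ A.par j '' closedBall 0 (3 / 2) → C p = 0 := by
    intro p hp
    simp only [hC, Iter.Atlas.glue]
    split_ifs with hs
    · rw [φ.zero_of_le_dist, zero_smul]
      rw [hφ]
      by_contra hd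
      exact hp ⟨_, mem_closedBall.2 (not_le.1 hd).le, A.par_inv j p hs⟩
    · rfl
  have hcomp : ∀ z ∈ closedBall (0 : R2) (3 / 2), ∀ k,
      comp1 A j E' z k = comp1 A j E z k - (bas k i * φ z) • comp1 A j E z i := by
    intro z hz k
    have h3 := hK3 hz
    have hev : (fun y => X (A.par j y)) =ᶠ[𝓝 z] fun y : R2 => y i := by
      filter_upwards [isOpen_ball.mem_nhds h3, (isOpen_ball (x := (0 : R2)) (ε := 7 / 4)).mem_nhds
        (closedBall_subset_ball (by norm_num) hz)] with y hy hy'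
      simp only [hX, Iter.Atlas.glue]
      rw [if_pos (A.par_mem j hy), A.inv_par j y hy, φ₂.one_of_mem_closedBall
        (ball_subset_closedBall hy'), one_mul]
    have hdX : dScal X (A.par j z)
        (mfderiv 𝓘(ℝ, R2) 𝓘(ℝ, R2) (A.par j) z (bas k)) = bas k i := by
      refine (comp_fderiv j hXs h3 (bas k)).symm.trans ?_
      rw [hev.fderiv_eq, show (fun y : R2 => y i) = ⇑(EuclideanSpace.proj (𝕜 := ℝ) i) from rfl,
        ContinuousLinearMap.fderiv]
      rfl
    have hCz : C (A.par j z) = φ z • comp1 A j E z i := by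
      simp only [hC, Iter.Atlas.glue]
      rw [if_pos (A.par_mem j h3), A.inv_par j z h3]
    simp only [comp1, hE', Pi.neg_apply, hdX, hCz]
    rw [smul_neg, smul_smul, ← sub_eq_add_neg]
  -- the choice of the frequency
  let main : R2 × ℝ → V3 × V3 := fun x =>
    ((1 - φ x.1) • a x.1 + φ x.1 • (T i x.1 + ampl (a x.1) (b x.1) (T i x.1) •
      ((1 - 2 * x.2 ^ 2) • a x.1 + x.2 • cr (b x.1) (a x.1))), b x.1)
  set S := main '' (closedBall (0 : R2) (3 / 2) ×ˢ Icc (-1 : ℝ) 1) with hS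
  have hSc : IsCompact S := by
    refine ((isCompact_closedBall _ _).prod isCompact_Icc).image_of_continuousOn ?_
    have c1 : ∀ {g : R2 → V3}, ContDiffOn ℝ ∞ g (ball 0 3) → ContinuousOn (fun x : R2 × ℝ => g x.1)
        (closedBall 0 (3 / 2) ×ˢ Icc (-1) 1) := fun hg =>
      (hg.continuousOn.mono hK3).comp continuousOn_fst fun x hx => hx.1
    have cφ : ContinuousOn (fun x : R2 × ℝ => φ x.1) (closedBall 0 (3 / 2) ×ˢ Icc (-1) 1) :=
      (φ.continuous.comp continuous_fst).continuousOn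
    have cR : ContinuousOn (fun x : R2 × ℝ => ampl (a x.1) (b x.1) (T i x.1))
        (closedBall 0 (3 / 2) ×ˢ Icc (-1) 1) :=
      (hRs.continuousOn.mono hK3).comp continuousOn_fst fun x hx => hx.1
    have cD : ContinuousOn (fun x : R2 × ℝ => x.2) (closedBall 0 (3 / 2) ×ˢ Icc (-1) 1) :=
      continuousOn_snd
    exact (((continuousOn_const.sub cφ).smul (c1 has)).add (cφ.smul ((c1 (hTs i)).add
      (cR.smul (((continuousOn_const.sub (continuousOn_const.mul (cD.pow 2))).smul (c1 has)).add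
        (cD.smul (c1 hns))))))).prodMk (c1 hbs)
  have hSU : S ⊆ {x | cr x.1 x.2 ≠ 0} := by
    rintro _ ⟨⟨z, D⟩, ⟨hz, -⟩, rfl⟩
    exact indep_wave (hn z (hK3 hz)) φ.nonneg φ.le_one
  obtain ⟨δ, hδ, hδU⟩ := hSc.exists_thickening_subset_open
    (isOpen_ne_fun cr_smooth.continuous continuous_const) hSU
  obtain ⟨B, hB⟩ := (isCompact_closedBall (0 : R2) (3 / 2)).exists_bound_of_continuousOn
    (f := fun z => ‖fderiv ℝ G1 z‖ + ‖fderiv ℝ G2 z‖)
    ((hG1s.continuous_fderiv (by simp)).norm.add (hG2s.continuous_fderiv (by simp)).norm).continuousOn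
  obtain ⟨N, hN0, hN⟩ : ∃ N : ℝ, 0 < N ∧ B / N < δ :=
    ⟨(|B| + 1) / δ, by positivity, by
      rw [div_div_eq_mul_div, div_lt_iff₀ (by positivity)]; nlinarith [le_abs_self B]⟩
  set G : R2 → V3 := fun z =>
    (N⁻¹ * (Real.sin (2 * (N * z i)) / 2)) • G1 z + (-(N⁻¹ * Real.cos (N * z i))) • G2 z with hG
  have hzi : ContDiff ℝ ∞ (fun z : R2 => z i) := (EuclideanSpace.proj (𝕜 := ℝ) i).contDiff
  have hGs : ContDiff ℝ ∞ G :=
    ((contDiff_const.mul ((Real.contDiff_sin.comp (contDiff_const.mul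
      (contDiff_const.mul hzi))).div_const 2)).smul hG1s).add
      ((contDiff_const.mul (Real.contDiff_cos.comp (contDiff_const.mul hzi))).neg.smul hG2s)
  have hG0 : ∀ z, φ z = 0 → G z = 0 := fun z hz => by simp [hG, hG1, hG2, hz]
  have hGsupp : support G ⊆ closedBall (0 : R2) 2 := fun z hz =>
    hφs fun h0 => hz (hG0 z h0)
  set f' : M → V3 := fun p => f p + A.glue j G p with hf'
  have hf's : ContMDiff 𝓘(ℝ, R2) 𝓘(ℝ, V3) ∞ f' := h.smooth.add (A.glue_smooth j hGs hGsupp)
  have hdG : ∀ (z : R2) (k : Fin 2), fderiv ℝ G z (bas k) =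
      (N⁻¹ * (Real.sin (2 * (N * z i)) / 2)) • fderiv ℝ G1 z (bas k) +
      (-(N⁻¹ * Real.cos (N * z i))) • fderiv ℝ G2 z (bas k) +
      (bas k i) • (Real.cos (2 * (N * z i)) • G1 z + Real.sin (N * z i) • G2 z) := by
    intro z k
    have hp := (EuclideanSpace.proj (𝕜 := ℝ) i).hasFDerivAt (x := z)
    have h1 := ((((hp.const_mul N).const_mul 2).sin).const_mul (N⁻¹ * (1 / 2))).fun_smul
      ((hG1s.differentiable (by simp) z).hasFDerivAt)
    have h2 := (((hp.const_mul N).cos).const_mul (-N⁻¹)).fun_smul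
      ((hG2s.differentiable (by simp) z).hasFDerivAt)
    have he : G = fun y => (N⁻¹ * (1 / 2) * Real.sin (2 * (N * EuclideanSpace.proj (𝕜 := ℝ) i y))) •
        G1 y + (-N⁻¹ * Real.cos (N * EuclideanSpace.proj (𝕜 := ℝ) i y)) • G2 y := by
      funext y
      simp only [hG, PiLp.proj_apply]
      congr 2 <;> ring
    rw [he, (h1.fun_add h2).fderiv]
    simp only [add_apply, smul_apply, ContinuousLinearMap.smulRight_apply, PiLp.proj_apply,
      smul_eq_mul, smul_add, smul_smul]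
    match_scalars <;> field_simp
  refine ⟨f', E', ⟨hf's, hform, ?_⟩, ?_, fun z hz => ?_⟩
  · intro p v hv
    by_cases hp : p ∈ A.par j '' closedBall 0 (3 / 2)
    swap
    · refine h.inj p v ?_
      have hK : IsClosed (A.par j '' closedBall (0 : R2) (3 / 2)) :=
        ((isCompact_closedBall 0 _).image_of_continuousOn
          ((A.par_smooth j).continuousOn.mono hK3)).isClosed
      have hev : f' =ᶠ[𝓝 p] f := by
        filter_upwards [hK.isOpen_compl.mem_nhds hp] with y hy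
        simp only [hf', Iter.Atlas.glue]
        split_ifs with hs
        · rw [hG0 _ (φ.zero_of_le_dist (by
            rw [hφ]; by_contra hd
            exact hy ⟨_, mem_closedBall.2 (not_le.1 hd).le, A.par_inv j y hs⟩)), add_zero]
        · rw [add_zero]
      simp only [dForm, hE', Pi.neg_apply, hC0 p hp, neg_zero, smul_zero, add_zero] at hv ⊢
      rw [hev.mfderiv_eq] at hv
      exact hv
    obtain ⟨z, hz, rfl⟩ := hp
    have h3 := hK3 hz
    obtain ⟨u, rfl⟩ := tangent_eq j h3 v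
    have hfz : ∀ k, fderiv ℝ (fun y => f' (A.par j y)) z (bas k) =
        T k z + fderiv ℝ G z (bas k) := by
      intro k
      have hev : (fun y => f' (A.par j y)) =ᶠ[𝓝 z] fun y => f (A.par j y) + G y := by
        filter_upwards [isOpen_ball.mem_nhds h3] with y hy
        simp only [hf', Iter.Atlas.glue]
        rw [if_pos (A.par_mem j hy), A.inv_par j y hy]
      have hd : DifferentiableAt ℝ (fun y => f (A.par j y)) z :=
        ((((h.smooth.comp_contMDiffOn (A.par_smooth j)).contDiffOn).differentiableOn (by simp))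
          z h3).differentiableAt (isOpen_ball.mem_nhds h3)
      rw [hev.fderiv_eq, fderiv_fun_add hd (hGs.differentiable (by simp) z)]
      rfl
    set P : Fin 2 → V3 := fun k => fderiv ℝ (fun y => f' (A.par j y)) z (bas k) + comp1 A j E' z k
      with hP
    set s := N * z i with hs
    have hii : bas i i = 1 := by simp [bas]
    have hoi : bas o i = 0 := by simp [bas, hio]
    have hgood : cr (P i) (P o) ≠ 0 := by
      show (P i, P o) ∈ {x : V3 × V3 | cr x.1 x.2 ≠ 0}
      refine hδU (mem_thickening_iff.2 ⟨main (z, Real.sin s), ⟨(z, Real.sin s), ⟨hz,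
        Real.neg_one_le_sin s, Real.sin_le_one s⟩, rfl⟩, ?_⟩)
      have hsmall : ∀ k, ‖(N⁻¹ * (Real.sin (2 * s) / 2)) • fderiv ℝ G1 z (bas k) +
          (-(N⁻¹ * Real.cos s)) • fderiv ℝ G2 z (bas k)‖ ≤ B / N := by
        intro k
        have hbk : ‖bas k‖ = 1 := by simp [bas]
        have l : ∀ L : R2 →L[ℝ] V3, ‖L (bas k)‖ ≤ ‖L‖ := fun L =>
          (L.le_opNorm _).trans (by rw [hbk, mul_one])
        have hx := (le_abs_self _).trans ((Real.norm_eq_abs _).symm.trans_le (hB z hz))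
        refine (norm_add_le _ _).trans ?_
        rw [norm_smul, norm_smul, Real.norm_eq_abs, Real.norm_eq_abs, abs_neg, abs_mul, abs_mul,
          abs_of_pos (inv_pos.2 hN0), abs_div, abs_two, div_eq_inv_mul B N]
        have m1 : |Real.sin (2 * s)| / 2 ≤ 1 := by linarith [Real.abs_sin_le_one (2 * s)]
        calc N⁻¹ * (|Real.sin (2 * s)| / 2) * ‖fderiv ℝ G1 z (bas k)‖ +
              N⁻¹ * |Real.cos s| * ‖fderiv ℝ G2 z (bas k)‖
            ≤ N⁻¹ * 1 * ‖fderiv ℝ G1 z‖ + N⁻¹ * 1 * ‖fderiv ℝ G2 z‖ := by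
              have := Real.abs_cos_le_one s
              gcongr <;> exact l _
          _ ≤ N⁻¹ * B := by
              rw [mul_one, ← mul_add]
              exact mul_le_mul_of_nonneg_left hx (inv_pos.2 hN0).le
      rw [Prod.dist_eq, max_lt_iff, dist_eq_norm, dist_eq_norm]
      refine ⟨lt_of_eq_of_lt (congrArg norm ?_) ((hsmall i).trans_lt hN),
        lt_of_eq_of_lt (congrArg norm ?_) ((hsmall o).trans_lt hN)⟩
      · simp only [hP, main, hfz, hcomp z hz, hdG, ← hs, hii, one_mul, one_smul, hG1, hG2,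
          Real.cos_two_mul', ha]
        rw [Real.cos_sq', smul_smul, smul_smul]
        module
      · simp only [hP, main, hfz, hcomp z hz, hdG, ← hs, hoi, zero_mul, zero_smul, hb]
        module
    rw [dForm_lin, hform.lin] at hv
    have hsum : u i • P i + u o • P o = 0 := by
      have e : ∀ k, P k = dForm f' (A.par j z)
          (mfderiv 𝓘(ℝ, R2) 𝓘(ℝ, R2) (A.par j) z (bas k)) + comp1 A j E' z k := fun k => by
        simp only [hP]; rw [comp_fderiv j hf's h3]; rfl
      rw [e, e]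
      have m1 : ∀ (x y : ℝ) (a b c d : V3),
          x • (a + c) + y • (b + d) = x • a + y • b + (x • c + y • d) := fun _ _ _ _ _ _ => by module
      have m2 : ∀ (x y : ℝ) (a b c d : V3),
          y • (b + d) + x • (a + c) = x • a + y • b + (x • c + y • d) := fun _ _ _ _ _ _ => by module
      fin_cases i <;> fin_cases o <;> first | exact absurd rfl hio | skip
      exacts [(m1 _ _ _ _ _ _).trans hv, (m2 _ _ _ _ _ _).trans hv]
    have hui : u i = 0 := by
      have h4 := cr_lin (u i) (u o) (P i) (P o)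
      rw [hsum] at h4
      have h5 : cr 0 (P o) = 0 := by ext r; fin_cases r <;> simp [cr]
      exact (smul_eq_zero.1 (h4.symm.trans h5)).resolve_right hgood
    have huo : u o = 0 := by
      rw [hui, zero_smul, zero_add] at hsum
      refine (smul_eq_zero.1 hsum).resolve_right fun h0 => hgood ?_
      rw [h0]; ext r; fin_cases r <;> simp [cr]
    have h01 : u 0 = 0 ∧ u 1 = 0 := by
      fin_cases i <;> fin_cases o <;> first | exact absurd rfl hio | skip
      exacts [⟨hui, huo⟩, ⟨huo, hui⟩]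
    rw [h01.1, h01.2, zero_smul, zero_smul, add_zero]
  · intro p hp v
    simp [hE', hC0 p hp]
  · constructor <;> rw [hcomp z hz]
    · simp [bas, sub_smul]
    · simp [bas, hio]

/-- One chart: the form is multiplied by one minus the bump. -/
theorem exists_chart_step (j : A.ι) {f : M → V3} {E : (p : M) → TangentSpace 𝓘(ℝ, R2) p → V3}
    (h : State f E) :
    ∃ (f' : M → V3) (E' : (p : M) → TangentSpace 𝓘(ℝ, R2) p → V3), State f' E' ∧
      ∀ p, ((∀ v, E p v = 0) ∨ (p ∈ A.src j ∧ A.inv j p ∈ ball (0 : R2) 1)) →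
        ∀ v, E' p v = 0 := by
  let φ : ContDiffBump (0 : R2) := ⟨1, 3 / 2, one_pos, by norm_num⟩
  obtain ⟨f1, E1, h1, o1, c1⟩ := exists_step j 0 1 (by decide) φ rfl h
  obtain ⟨f2, E2, h2, o2, c2⟩ := exists_step j 1 0 (by decide) φ rfl h1
  refine ⟨f2, E2, h2, fun p hp v => ?_⟩
  by_cases hK : p ∈ A.par j '' closedBall 0 (3 / 2)
  swap
  · rcases hp with hp | ⟨hs, hb⟩
    · rw [o2 p hK, o1 p hK, hp]
    · exact absurd ⟨_, ball_subset_closedBall.trans (closedBall_subset_closedBall (by norm_num)) hb,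
        A.par_inv j p hs⟩ hK
  obtain ⟨z, hz, rfl⟩ := hK
  have h3 : z ∈ ball (0 : R2) 3 := closedBall_subset_ball (by norm_num) hz
  have e0 : comp1 A j E2 z 0 = (1 - φ z) • comp1 A j E z 0 := by
    rw [(c2 z hz).2, (c1 z hz).1]
  have e1 : comp1 A j E2 z 1 = (1 - φ z) • comp1 A j E z 1 := by
    rw [(c2 z hz).1, (c1 z hz).2]
  obtain ⟨u, rfl⟩ := tangent_eq j h3 v
  rw [h2.form.lin]
  show u 0 • comp1 A j E2 z 0 + u 1 • comp1 A j E2 z 1 = 0
  rcases hp with hp | ⟨-, hb⟩
  · have z0 : ∀ k, comp1 A j E z k = 0 := fun k => hp _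
    rw [e0, e1, z0, z0]
    simp
  · rw [A.inv_par j z h3] at hb
    simp [e0, e1, φ.one_of_mem_closedBall (ball_subset_closedBall hb)]

/-- **An injective one-form with values in `ℝ³` gives an immersion in `ℝ³`.** -/
theorem exists_immersion_of_monomorphism {σ : (p : M) → TangentSpace 𝓘(ℝ, R2) p → V3}
    (hσ : IsOneForm σ) (hinj : ∀ p, Injective (σ p)) :
    ∃ f : M → EuclideanSpace ℝ (Fin 3),
      ContMDiff 𝓘(ℝ, R2) 𝓘(ℝ, EuclideanSpace ℝ (Fin 3)) ∞ f ∧
      ∀ p, Injective (mfderiv 𝓘(ℝ, R2) 𝓘(ℝ, EuclideanSpace ℝ (Fin 3)) f p) := by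
  classical
  obtain ⟨A⟩ := Iter.nonempty_atlas (E := R2) (I := 𝓘(ℝ, R2)) (M := M)
    (ContinuousLinearEquiv.refl ℝ R2)
  have hall : ∀ s : Finset A.ι, ∃ (f : M → V3) (E : (p : M) → TangentSpace 𝓘(ℝ, R2) p → V3),
      State f E ∧ ∀ j ∈ s, ∀ p ∈ A.src j, A.inv j p ∈ ball (0 : R2) 1 → ∀ v, E p v = 0 := by
    intro s
    induction s using Finset.induction with
    | empty =>
        refine ⟨fun _ => 0, σ, ⟨contMDiff_const, hσ, fun p v hv => hinj p ?_⟩, by simp⟩
        have h0 : σ p 0 = 0 := by simpa using hσ.lin p 0 0 0 0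
        rw [h0]
        have hz : dForm (fun _ : M => (0 : V3)) p v = 0 := by
          simp [dForm]
          rfl
        rwa [hz, zero_add] at hv
    | @insert j s hj ih =>
        obtain ⟨f, E, hS, hz⟩ := ih
        obtain ⟨f', E', hS', hz'⟩ := exists_chart_step j hS
        refine ⟨f', E', hS', fun k hk p hp hb => hz' p ?_⟩
        rcases Finset.mem_insert.1 hk with rfl | hk
        · exact Or.inr ⟨hp, hb⟩
        · exact Or.inl (hz k hk p hp hb)
  obtain ⟨f, E, hS, hE⟩ := hall Finset.univ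
  refine ⟨f, hS.smooth, fun p => (injective_iff_map_eq_zero _).2 fun v hv => hS.inj p v ?_⟩
  obtain ⟨j, -, hj⟩ := Finset.exists_ne_zero_of_sum_ne_zero
    (by rw [A.weight_sum p]; exact one_ne_zero : (∑ j, A.weight j p) ≠ 0)
  have hw := A.weight_supp j (subset_tsupport _ hj)
  rw [hE j (Finset.mem_univ _) p hw.1 hw.2 v, add_zero]
  exact hv

end Vale.Agent.P205.Global
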