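import Vale.Agent.P205.Global.Formal
import Vale.Agent.P205.Global.Corrugate

/-!
Every compact surface, orientable or not, immerses in three-space.
-/

noncomputable section

open Function
open scoped ContDiff Manifold

namespace Vale.Agent.P205.Global

/-- **Every compact surface immerses in `ℝ³`.** -/
theorem exists_immersion_R3 {M : Type} [TopologicalSpace M] [ChartedSpace R2 M]
    [IsManifold 𝓘(ℝ, R2) ∞ M] [CompactSpace M] [T2Space M] :
    ∃ f : M → EuclideanSpace ℝ (Fin 3),
      ContMDiff 𝓘(ℝ, R2) 𝓘(ℝ, EuclideanSpace ℝ (Fin 3)) ∞ f ∧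
      ∀ p, Injective (mfderiv 𝓘(ℝ, R2) 𝓘(ℝ, EuclideanSpace ℝ (Fin 3)) f p) := by
  obtain ⟨σ, hσ, hi⟩ := exists_monomorphism (M := M)
  exact exists_immersion_of_monomorphism hσ hi

end Vale.Agent.P205.Global
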