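import Mathlib

/-!
Perturbations avoiding countably many images of spaces of smaller dimension.
-/

noncomputable section

open Set Filter Topology Module
open scoped ContDiff NNReal ENNReal

namespace Vale.Agent.P205.Global

variable {Q P R : Type*} [NormedAddCommGroup Q] [NormedSpace ℝ Q] [FiniteDimensional ℝ Q]
  [NormedAddCommGroup P] [NormedSpace ℝ P] [FiniteDimensional ℝ P]
  [NormedAddCommGroup R] [NormedSpace ℝ R] [FiniteDimensional ℝ R]

omit [FiniteDimensional ℝ P] in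
/-- A smooth image of an open set does not raise the dimension. -/
theorem dimH_smooth_image {f : Q → P} {U : Set Q} (hf : ∀ q ∈ U, ContDiffAt ℝ 1 f q) :
    dimH (f '' U) ≤ finrank ℝ Q := by
  refine (dimH_image_le_of_locally_lipschitzOn fun q hq => ?_).trans
    ((dimH_mono (subset_univ U)).trans (Real.dimH_univ_eq_finrank Q).le)
  obtain ⟨K, t, ht, hL⟩ := (hf q hq).exists_lipschitzOnWith
  exact ⟨K, t, nhdsWithin_le_nhds ht, hL⟩

/-- The parameters with a solution of an affine system of more equations than unknowns, which is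
solvable in fixed slots, form a set of small dimension. -/
theorem dimH_affine_bad {U : Set Q} {c : Q → R} {Λ : Q → P →L[ℝ] R} (ι : R →L[ℝ] P)
    (hc : ∀ q ∈ U, ContDiffAt ℝ 1 c q) (hΛ : ∀ q ∈ U, ContDiffAt ℝ 1 Λ q)
    (hinj : ∀ q ∈ U, ∀ z, Λ q (ι z) = 0 → z = 0) (hdim : finrank ℝ Q < finrank ℝ R) :
    dimH {A | ∃ q ∈ U, c q + Λ q A = 0} ≤ ((finrank ℝ P - 1 : ℕ) : ℝ≥0∞) := by
  rcases U.eq_empty_or_nonempty with rfl | ⟨q₀, hq₀⟩
  · simp
  have hι : Function.Injective ι := (injective_iff_map_eq_zero _).2 fun z hz =>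
    hinj q₀ hq₀ z (by rw [hz, map_zero])
  obtain ⟨Y, hY⟩ := Submodule.exists_isCompl (LinearMap.range (ι : R →ₗ[ℝ] P))
  have hYdim : finrank ℝ Y + finrank ℝ R = finrank ℝ P := by
    rw [← LinearMap.finrank_range_of_inj (f := (ι : R →ₗ[ℝ] P)) hι, add_comm]
    exact Submodule.finrank_add_eq_of_isCompl hY
  set f : Q × Y → P := fun x =>
    (x.2 : P) + ι (((Λ x.1).comp ι).inverse (-(c x.1) - Λ x.1 (x.2 : P))) with hf
  have hsub : {A | ∃ q ∈ U, c q + Λ q A = 0} ⊆ f '' (U ×ˢ univ) := by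
    rintro A ⟨q, hq, hA⟩
    obtain ⟨a, ⟨z, rfl⟩, y, hy, rfl⟩ := Submodule.mem_sup.1
      (hY.sup_eq_top.symm ▸ Submodule.mem_top (x := A))
    have hbij : Function.Injective ((Λ q).comp ι) :=
      (injective_iff_map_eq_zero _).2 fun w hw => hinj q hq w hw
    set e : R ≃L[ℝ] R :=
      (LinearEquiv.ofInjectiveEndo ((Λ q).comp ι : R →ₗ[ℝ] R) hbij).toContinuousLinearEquiv
    have he : (Λ q).comp ι = (e : R →L[ℝ] R) := ContinuousLinearMap.ext fun w => rfl
    refine ⟨(q, ⟨y, hy⟩), ⟨hq, mem_univ _⟩, ?_⟩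
    have h1 : -(c q) - Λ q y = e z := by
      have h2 : Λ q (ι z) = e z := rfl
      simp only [ContinuousLinearMap.coe_coe, map_add, h2] at hA
      have h3 := eq_neg_of_add_eq_zero_left hA
      rw [h3]
      abel
    simp only [hf, he, ContinuousLinearMap.inverse_equiv, ContinuousLinearEquiv.coe_coe, h1,
      ContinuousLinearEquiv.symm_apply_apply]
    exact add_comm _ _
  have hsm : ∀ x ∈ U ×ˢ (univ : Set Y), ContDiffAt ℝ 1 f x := by
    rintro ⟨q, y⟩ ⟨hq, -⟩
    have hbij : Function.Injective ((Λ q).comp ι) :=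
      (injective_iff_map_eq_zero _).2 fun w hw => hinj q hq w hw
    set e : R ≃L[ℝ] R :=
      (LinearEquiv.ofInjectiveEndo ((Λ q).comp ι : R →ₗ[ℝ] R) hbij).toContinuousLinearEquiv
    have he : (Λ q).comp ι = (e : R →L[ℝ] R) := ContinuousLinearMap.ext fun w => rfl
    have hy : ContDiffAt ℝ 1 (fun x : Q × Y => (x.2 : P)) (q, y) :=
      Y.subtypeL.contDiff.contDiffAt.comp (q, y) contDiffAt_snd
    have hl : ContDiffAt ℝ 1 (fun x : Q × Y => Λ x.1) (q, y) := (hΛ q hq).comp (q, y) contDiffAt_fst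
    have hinv : ContDiffAt ℝ 1 ContinuousLinearMap.inverse ((Λ q).comp ι) := by
      rw [he]; exact contDiffAt_map_inverse e
    have h1 : ContDiffAt ℝ 1 (fun x : Q × Y => ((Λ x.1).comp ι).inverse) (q, y) :=
      ContDiffAt.comp (g := ContinuousLinearMap.inverse) (f := fun x : Q × Y => (Λ x.1).comp ι)
        (q, y) hinv (hl.clm_comp contDiffAt_const)
    have h2 : ContDiffAt ℝ 1 (fun x : Q × Y => c x.1) (q, y) := (hc q hq).comp (q, y) contDiffAt_fst
    have h3 : ContDiffAt ℝ 1 (fun x : Q × Y => -(c x.1) - Λ x.1 (x.2 : P)) (q, y) :=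
      h2.neg.sub (hl.clm_apply hy)
    have h4 : ContDiffAt ℝ 1
        (fun x : Q × Y => ((Λ x.1).comp ι).inverse (-(c x.1) - Λ x.1 (x.2 : P))) (q, y) :=
      h1.clm_apply h3
    exact hy.add (ContDiffAt.comp (g := ι) (q, y) ι.contDiff.contDiffAt h4)
  calc dimH {A | ∃ q ∈ U, c q + Λ q A = 0} ≤ dimH (f '' (U ×ˢ univ)) := dimH_mono hsub
    _ ≤ finrank ℝ (Q × Y) := dimH_smooth_image hsm
    _ ≤ ((finrank ℝ P - 1 : ℕ) : ℝ≥0∞) := by
        rw [finrank_prod]
        exact Nat.cast_le.2 (by omega)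

/-- Countably many sets of smaller dimension are avoided arbitrarily close to any parameter. -/
theorem dense_avoid [Nontrivial P] {J : Type*} [Countable J] {bad : J → Set P}
    (h : ∀ j, dimH (bad j) ≤ ((finrank ℝ P - 1 : ℕ) : ℝ≥0∞)) : Dense (⋃ j, bad j)ᶜ := by
  refine dense_compl_of_dimH_lt_finrank ?_
  rw [dimH_iUnion]
  have := finrank_pos (R := ℝ) (M := P)
  exact (iSup_le h).trans_lt (Nat.cast_lt.2 (by omega))

end Vale.Agent.P205.Global
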