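import Mathlib

/-!
The generic data of a surface: an immersion into the quaternions with transversal double points
and a normal field with regular zeros.
-/

noncomputable section

open Set
open scoped ContDiff Manifold Quaternion

namespace Vale.Agent.P205.Global

/-- The plane. -/
abbrev Plane := EuclideanSpace ℝ (Fin 2)

variable {M : Type} [TopologicalSpace M] [ChartedSpace Plane M]

/-- The differential of a map to the quaternions. -/
def dQ (F : M → ℍ[ℝ]) (p : M) (v : TangentSpace 𝓘(ℝ, Plane) p) : ℍ[ℝ] :=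
  mfderiv 𝓘(ℝ, Plane) 𝓘(ℝ, ℍ[ℝ]) F p v

/-- Generic immersion with a generic normal field. -/
structure IsGeneric (F L : M → ℍ[ℝ]) : Prop where
  smoothF : ContMDiff 𝓘(ℝ, Plane) 𝓘(ℝ, ℍ[ℝ]) ∞ F
  smoothL : ContMDiff 𝓘(ℝ, Plane) 𝓘(ℝ, ℍ[ℝ]) ∞ L
  imm : ∀ p, Function.Injective (dQ F p)
  normal : ∀ p v, inner ℝ (L p) (dQ F p v) = 0
  finite : {p | L p = 0}.Finite
  regular : ∀ p, L p = 0 → Function.Injective (dQ L p)
  transversal : ∀ p q, p ≠ q → F p = F q → ∀ v w, dQ F p v = dQ F q w → v = 0 ∧ w = 0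

end Vale.Agent.P205.Global
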