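import Mathlib

/-!
Regular zeros of a smooth map from a disc to the plane: one zero moves anywhere inside the disc
keeping its sign, two zeros of opposite sign cancel. The map is unchanged near the circle.
-/

noncomputable section

open Complex Metric Set Filter
open scoped ContDiff Topology ComplexConjugate

namespace Vale.Agent.P205.Disc

/-- The oriented area spanned by the images of `1` and `I`. -/
def cross (L : ℂ →L[ℝ] ℂ) : ℝ := (conj (L 1) * L I).im

/-- The identity or the conjugation. -/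
def model (σ : Bool) : ℂ →L[ℝ] ℂ :=
  if σ then ContinuousLinearMap.id ℝ ℂ else conjCLE.toContinuousLinearMap

theorem norm_model (σ : Bool) (w : ℂ) : ‖model σ w‖ = ‖w‖ := by
  cases σ <;> simp [model]

theorem model_ne {σ : Bool} {w : ℂ} (hw : w ≠ 0) : model σ w ≠ 0 := fun h =>
  hw (norm_eq_zero.1 (by rw [← norm_model σ, h, norm_zero]))

theorem cross_sum {L : ℂ →L[ℝ] ℂ} {σ : Bool} {α β : ℂ}
    (h : ∀ w, L w = α * model σ w + β * model (!σ) w) :
    cross L = (‖α‖ ^ 2 - ‖β‖ ^ 2) * (if σ then 1 else -1) := by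
  simp only [cross, h, Complex.sq_norm, normSq_apply]
  cases σ <;> simp [model] <;> ring

/-- A regular linear map is a model with a smaller perturbation. -/
theorem exists_model {L : ℂ →L[ℝ] ℂ} (hL : cross L ≠ 0) :
    ∃ (σ : Bool) (α β : ℂ), ‖β‖ < ‖α‖ ∧ (σ = true ↔ 0 < cross L) ∧
      ∀ w, L w = α * model σ w + β * model (!σ) w := by
  set α := (L 1 - I * L I) / 2
  set β := (L 1 + I * L I) / 2
  have e : ∀ w, L w = α * model true w + β * model (!true) w := by
    intro w
    conv_lhs => rw [show w = w.re • (1 : ℂ) + w.im • I by simp [Complex.ext_iff]]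
    rw [map_add, map_smul, map_smul]
    simp [Complex.ext_iff, model, α, β]
    constructor <;> ring
  have ec := cross_sum e
  rw [if_pos rfl, mul_one] at ec
  rcases lt_trichotomy ‖β‖ ‖α‖ with h | h | h
  · refine ⟨true, α, β, h, ⟨fun _ => ?_, fun _ => rfl⟩, e⟩
    nlinarith [norm_nonneg β]
  · exact absurd (by rw [ec, h, sub_self]) hL
  · refine ⟨false, β, α, h, ⟨fun h' => by simp at h', fun h' => ?_⟩, fun w => ?_⟩
    · nlinarith [norm_nonneg α]
    · rw [e w]; simp [add_comm]

/-- A smooth radial step from `0` to `1`. -/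
def step (c : ℂ) (r₁ r₂ : ℝ) (z : ℂ) : ℝ :=
  Real.smoothTransition ((‖z - c‖ ^ 2 - r₁ ^ 2) / (r₂ ^ 2 - r₁ ^ 2))

theorem contDiff_step (c : ℂ) (r₁ r₂ : ℝ) : ContDiff ℝ ∞ (step c r₁ r₂) :=
  Real.smoothTransition.contDiff.comp
    (((((contDiff_norm_sq ℝ).comp (contDiff_id.sub contDiff_const)).sub contDiff_const)).div_const _)

theorem step_zero {c z : ℂ} {r₁ r₂ : ℝ} (h0 : 0 ≤ r₁) (h : r₁ < r₂) (hz : ‖z - c‖ ≤ r₁) :
    step c r₁ r₂ z = 0 := by
  refine Real.smoothTransition.zero_of_nonpos (div_nonpos_of_nonpos_of_nonneg ?_ ?_)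
  · nlinarith [norm_nonneg (z - c)]
  · nlinarith

theorem step_one {c z : ℂ} {r₁ r₂ : ℝ} (h0 : 0 ≤ r₁) (h : r₁ < r₂) (hz : r₂ ≤ ‖z - c‖) :
    step c r₁ r₂ z = 1 := by
  refine Real.smoothTransition.one_of_one_le ?_
  rw [le_div_iff₀ (by nlinarith)]
  nlinarith

theorem step_mem (c z : ℂ) (r₁ r₂ : ℝ) : step c r₁ r₂ z ∈ Icc (0 : ℝ) 1 :=
  ⟨Real.smoothTransition.nonneg _, Real.smoothTransition.le_one _⟩

theorem eventually_ball {a : ℂ} {r : ℝ} {z : ℂ} (h : ‖z - a‖ < r) :
    ∀ᶠ w in 𝓝 z, ‖w - a‖ < r :=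
  ((continuous_id.sub continuous_const).norm.tendsto z).eventually (eventually_lt_nhds h)

/-- Near a regular zero the map can be replaced by its model without new zeros. -/
theorem linearize {U : Set ℂ} (hU : IsOpen U) {s : ℂ → ℂ} (hs : ContDiffOn ℝ ∞ s U) {a : ℂ}
    (ha : a ∈ U) (h0 : s a = 0) (hreg : cross (fderiv ℝ s a) ≠ 0) {ρ₀ : ℝ} (hρ₀ : 0 < ρ₀) :
    ∃ (ρ : ℝ) (σ : Bool) (α : ℂ) (s₁ : ℂ → ℂ), 0 < ρ ∧ ρ ≤ ρ₀ ∧ α ≠ 0 ∧
      (σ = true ↔ 0 < cross (fderiv ℝ s a)) ∧ ContDiffOn ℝ ∞ s₁ U ∧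
      (∀ z, ρ ≤ ‖z - a‖ → s₁ z = s z) ∧
      (∀ z, ‖z - a‖ < ρ / 2 → s₁ z = α * model σ (z - a)) ∧
      ∀ z, ‖z - a‖ ≤ ρ → z ≠ a → s₁ z ≠ 0 := by
  obtain ⟨σ, α, β, hlt, hσ, hL⟩ := exists_model hreg
  have hd : HasFDerivAt s (fderiv ℝ s a) a :=
    ((hs.differentiableOn (by simp)).differentiableAt (hU.mem_nhds ha)).hasFDerivAt
  have he : 0 < (‖α‖ - ‖β‖) / 2 := by linarith
  obtain ⟨δ, hδ, hb⟩ := Metric.eventually_nhds_iff.1 (hd.isLittleO.bound he)
  set ρ := min ρ₀ (δ / 2) with hρdef
  have hρ : 0 < ρ := lt_min hρ₀ (by linarith)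
  have h12 : ρ / 2 < ρ := by linarith
  set θ := step a (ρ / 2) ρ
  refine ⟨ρ, σ, α, fun z => θ z • s z + (1 - θ z) • (α * model σ (z - a)), hρ, min_le_left _ _,
    fun hα => ?_, hσ, ?_, fun z hz => ?_, fun z hz => ?_, fun z hz hne => ?_⟩
  · rw [hα, norm_zero] at hlt; linarith [norm_nonneg β]
  · exact ((contDiff_step a _ _).contDiffOn.smul hs).add
      ((contDiff_const.sub (contDiff_step a _ _)).smul (contDiff_const.mul
        ((model σ).contDiff.comp (contDiff_id.sub contDiff_const)))).contDiffOn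
  · simp [θ, step_one (by linarith) h12 hz]
  · simp [θ, step_zero (by linarith) h12 hz.le]
  · have hb' := @hb z (by
      rw [dist_eq_norm]
      exact lt_of_le_of_lt (hz.trans (min_le_right _ _)) (by linarith))
    rw [h0, sub_zero] at hb'
    obtain ⟨t0, t1⟩ := step_mem a z (ρ / 2) ρ
    set w := z - a with hw
    have hw0 : 0 < ‖w‖ := norm_pos_iff.2 (sub_ne_zero.2 hne)
    set rest := β * model (!σ) w + (s z - fderiv ℝ s a w) with hrest
    have hsplit : θ z • s z + (1 - θ z) • (α * model σ w) = α * model σ w + θ z • rest := by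
      rw [hrest, hL w]
      simp only [Complex.real_smul, Complex.ofReal_sub, Complex.ofReal_one]
      ring
    intro hzero
    dsimp only at hzero
    rw [← hw, hsplit] at hzero
    have e1 : ‖α * model σ w‖ = ‖θ z • rest‖ := by
      rw [eq_neg_of_add_eq_zero_left hzero, norm_neg]
    rw [norm_mul, norm_model, norm_smul, Real.norm_eq_abs, abs_of_nonneg t0] at e1
    have e2 : θ z * ‖rest‖ ≤ ‖β‖ * ‖w‖ + (‖α‖ - ‖β‖) / 2 * ‖w‖ := by
      refine (mul_le_of_le_one_left (norm_nonneg _) t1).trans ((norm_add_le _ _).trans ?_)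
      rw [norm_mul, norm_model]
      exact add_le_add le_rfl hb'
    nlinarith

/-- A function with a model factor near `a`, divided by the model. -/
def divide (s : ℂ → ℂ) (g : ℂ) (σ : Bool) (a z : ℂ) : ℂ :=
  if z = a then g else s z / model σ (z - a)

theorem contDiffOn_divide {U : Set ℂ} (hU : IsOpen U) {s g : ℂ → ℂ} (hs : ContDiffOn ℝ ∞ s U)
    {σ : Bool} {a : ℂ} (hg : a ∈ U → ContDiffAt ℝ ∞ g a)
    (he : ∀ᶠ z in 𝓝 a, s z = g z * model σ (z - a)) :
    ContDiffOn ℝ ∞ (divide s (g a) σ a) U := by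
  intro z hz
  refine ContDiffAt.contDiffWithinAt ?_
  rcases eq_or_ne z a with rfl | hne
  · refine (hg hz).congr_of_eventuallyEq ?_
    filter_upwards [he] with w hw
    rcases eq_or_ne w z with rfl | hwz
    · simp [divide]
    · rw [divide, if_neg hwz, hw, mul_div_cancel_right₀ _ (model_ne (sub_ne_zero.2 hwz))]
  · refine ((hs.contDiffAt (hU.mem_nhds hz)).mul
      (((model σ).contDiff.comp (contDiff_id.sub contDiff_const)).contDiffAt.inv
        (model_ne (sub_ne_zero.2 hne)))).congr_of_eventuallyEq ?_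
    filter_upwards [isOpen_ne.mem_nhds hne] with w hw
    rw [divide, if_neg hw, div_eq_mul_inv]
    rfl

theorem divide_mul (s : ℂ → ℂ) (g : ℂ) (σ : Bool) {a : ℂ} (h : s a = 0) (z : ℂ) :
    divide s g σ a z * model σ (z - a) = s z := by
  rcases eq_or_ne z a with rfl | hne
  · simp [h]
  · rw [divide, if_neg hne, div_mul_cancel₀ _ (model_ne (sub_ne_zero.2 hne))]

theorem norm_convex {p q : ℂ} {t A : ℝ} (ht : t ∈ Icc (0 : ℝ) 1) (hp : ‖p‖ ≤ A) (hq : ‖q‖ ≤ A) :
    ‖p + t • (q - p)‖ ≤ A := by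
  have : p + t • (q - p) = (1 - t) • p + t • q := by module
  rw [this]
  refine (norm_add_le _ _).trans ?_
  rw [norm_smul, norm_smul, Real.norm_eq_abs, Real.norm_eq_abs, abs_of_nonneg ht.1,
    abs_of_nonneg (by linarith [ht.2])]
  nlinarith [mul_le_mul_of_nonneg_left hp (by linarith [ht.2] : 0 ≤ 1 - t),
    mul_le_mul_of_nonneg_left hq ht.1]

variable {U : Set ℂ} {s : ℂ → ℂ} {c : ℂ} {R : ℝ}

/-- A single regular zero moves to any point of the disc, keeping its sign. -/
theorem move (hU : IsOpen U) (hsub : closedBall c R ⊆ U) (hs : ContDiffOn ℝ ∞ s U) {a q : ℂ}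
    (ha : a ∈ ball c R) (hq : q ∈ ball c R) (hzero : ∀ z ∈ closedBall c R, s z = 0 ↔ z = a)
    (hreg : cross (fderiv ℝ s a) ≠ 0) :
    ∃ (s' : ℂ → ℂ) (r : ℝ), r < R ∧ ContDiffOn ℝ ∞ s' U ∧
      (∀ z, z ∉ closedBall c r → s' z = s z) ∧
      (∀ z ∈ closedBall c R, s' z = 0 ↔ z = q) ∧
      0 < cross (fderiv ℝ s' q) * cross (fderiv ℝ s a) := by
  have haK := ball_subset_closedBall ha
  rw [mem_ball, dist_eq_norm] at ha hq
  obtain ⟨ρ, σ, α, s₁, hρ, hρle, hα, hσ, hs₁, hout, hin, hnz⟩ :=
    linearize hU hs (hsub haK) ((hzero a haK).2 rfl) hreg (ρ₀ := (R - ‖a - c‖) / 2) (by linarith)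
  set A := max (‖a - c‖ + ρ) ‖q - c‖
  have hA : A < R := max_lt (by linarith) hq
  set r₁ := (A + R) / 2 with hr₁
  set r₂ := (r₁ + R) / 2 with hr₂
  have hA0 : 0 ≤ A := le_max_of_le_right (norm_nonneg _)
  have h12 : r₁ < r₂ := by linarith
  have h1a : s₁ a = 0 := by rw [hin a (by rw [sub_self, norm_zero]; linarith)]; simp
  set u := divide s₁ α σ a
  have hu : ContDiffOn ℝ ∞ u U := contDiffOn_divide (g := fun _ => α) hU hs₁
    (fun _ => contDiffAt_const)
    (by filter_upwards [eventually_ball (a := a) (z := a) (r := ρ / 2) (by rw [sub_self, norm_zero]; linarith)] with z hz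
        using hin z hz)
  have hune : ∀ z ∈ closedBall c R, u z ≠ 0 := by
    intro z hz
    rcases eq_or_ne z a with rfl | hne
    · simpa [u, divide] using hα
    · simp only [u, divide, if_neg hne]
      refine div_ne_zero ?_ (model_ne (sub_ne_zero.2 hne))
      rcases le_or_gt ‖z - a‖ ρ with h | h
      · exact hnz z h hne
      · rw [hout z h.le]; exact fun h' => hne ((hzero z hz).1 h')
  set θ := step c r₁ r₂
  refine ⟨fun z => u z * model σ (z - (q + θ z • (a - q))), r₂, by linarith,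
    hu.mul ((model σ).contDiff.comp (contDiff_id.sub
      (contDiff_const.add ((contDiff_step c _ _).smul contDiff_const)))).contDiffOn, ?_, ?_, ?_⟩
  · intro z hz
    rw [mem_closedBall, dist_eq_norm, not_le] at hz
    have hfar : ρ ≤ ‖z - a‖ := by
      have h1 := norm_sub_le_norm_sub_add_norm_sub z a c
      have h2 : ‖a - c‖ + ρ ≤ A := le_max_left _ _
      linarith
    dsimp only [θ]
    rw [step_one (by linarith) h12 hz.le, one_smul, add_sub_cancel, divide_mul _ _ _ h1a,
      hout z hfar]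
  · intro z hz
    constructor
    · intro h
      have h' : z - (q + θ z • (a - q)) = 0 := by
        by_contra h''
        exact mul_ne_zero (hune z hz) (model_ne h'') h
      rw [sub_eq_zero] at h'
      have hzA : ‖z - c‖ ≤ A := by
        have e : z - c = (q - c) + θ z • ((a - c) - (q - c)) := by
          rw [Complex.real_smul] at h' ⊢
          linear_combination h'
        rw [e]
        exact norm_convex (step_mem c z r₁ r₂) (le_max_right _ _)
          (le_trans (by linarith) (le_max_left _ _))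
      rw [h']
      simp [θ, step_zero (by linarith) h12 (hzA.trans (by linarith : A ≤ r₁))]
    · rintro rfl
      simp [θ, step_zero (c := c) (z := z) (by linarith) h12
        ((le_max_right _ _).trans (by linarith : A ≤ r₁))]
  · have hqU : q ∈ U := hsub (mem_closedBall.2 (by rw [dist_eq_norm]; exact hq.le))
    have hev : (fun z => u z * model σ (z - (q + θ z • (a - q)))) =ᶠ[𝓝 q]
        fun z => u z * model σ (z - q) := by
      filter_upwards [eventually_ball (a := c) (z := q) (r := r₁)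
        (lt_of_le_of_lt (le_max_right _ _) (by linarith : A < r₁))] with z hz
      simp [θ, step_zero (by linarith) h12 hz.le]
    have hd := ((hu.differentiableOn (by simp)).differentiableAt (hU.mem_nhds hqU)).hasFDerivAt.mul
      ((model σ).hasFDerivAt.comp q ((hasFDerivAt_id q).sub_const q))
    have hd' : HasFDerivAt (fun z => u z * model σ (z - q)) _ q := hd
    rw [hev.fderiv_eq, hd'.fderiv]
    have e1 := cross_sum (σ := σ) (α := u q) (β := 0)
      (L := u q • (model σ).comp (ContinuousLinearMap.id ℝ ℂ) +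
        (model σ (q - q)) • fderiv ℝ u q) (fun w => by simp)
    have hp : 0 < ‖u q‖ ^ 2 :=
      pow_pos (norm_pos_iff.2 (hune q (mem_closedBall.2 (by rw [dist_eq_norm]; exact hq.le)))) 2
    cases σ
    · have : cross (fderiv ℝ s a) < 0 :=
        lt_of_le_of_ne (not_lt.1 fun h => by simpa using hσ.2 h) hreg
      simp at e1 ⊢
      nlinarith
    · have := hσ.1 rfl
      simp at e1 ⊢
      nlinarith

/-- Two regular zeros of opposite sign cancel. -/
theorem cancel (hU : IsOpen U) (hsub : closedBall c R ⊆ U) (hs : ContDiffOn ℝ ∞ s U) {a b : ℂ}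
    (ha : a ∈ ball c R) (hb : b ∈ ball c R)
    (hzero : ∀ z ∈ closedBall c R, s z = 0 ↔ z = a ∨ z = b)
    (hsign : cross (fderiv ℝ s a) * cross (fderiv ℝ s b) < 0) :
    ∃ (s' : ℂ → ℂ) (r : ℝ), r < R ∧ ContDiffOn ℝ ∞ s' U ∧
      (∀ z, z ∉ closedBall c r → s' z = s z) ∧ ∀ z ∈ closedBall c R, s' z ≠ 0 := by
  have haK := ball_subset_closedBall ha
  have hbK := ball_subset_closedBall hb
  have hne : a ≠ b := fun h => by
    rw [h] at hsign; nlinarith [mul_self_nonneg (cross (fderiv ℝ s b))]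
  have hga : cross (fderiv ℝ s a) ≠ 0 := fun h => by simp [h] at hsign
  have hgb : cross (fderiv ℝ s b) ≠ 0 := fun h => by simp [h] at hsign
  rw [mem_ball, dist_eq_norm] at ha hb
  have hd : 0 < ‖b - a‖ := norm_pos_iff.2 (sub_ne_zero.2 hne.symm)
  obtain ⟨ρ, σ, α, s₁, hρ, hρle, hα, hσ, hs₁, hout₁, hin₁, hnz₁⟩ :=
    linearize hU hs (hsub haK) ((hzero a haK).2 (Or.inl rfl)) hga
      (ρ₀ := min ((R - ‖a - c‖) / 2) (‖b - a‖ / 3)) (lt_min (by linarith) (by linarith))
  have hρb : ρ ≤ ‖b - a‖ / 3 := hρle.trans (min_le_right _ _)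
  have hρa : ρ ≤ (R - ‖a - c‖) / 2 := hρle.trans (min_le_left _ _)
  have hev : s₁ =ᶠ[𝓝 b] s := by
    filter_upwards [eventually_ball (a := b) (z := b) (r := ‖b - a‖ / 3) (by rw [sub_self, norm_zero]; linarith)]
      with z hz
    refine hout₁ z ?_
    have h1 := norm_sub_le_norm_sub_add_norm_sub b z a
    rw [norm_sub_rev b z] at h1
    linarith
  have hgb₁ : fderiv ℝ s₁ b = fderiv ℝ s b := hev.fderiv_eq
  obtain ⟨ρ', τ, β, s₂, hρ', hρle', hβ, hτ, hs₂, hout₂, hin₂, hnz₂⟩ :=
    linearize hU hs₁ (hsub hbK) (hev.eq_of_nhds.trans ((hzero b hbK).2 (Or.inr rfl)))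
      (by rw [hgb₁]; exact hgb)
      (ρ₀ := min ((R - ‖b - c‖) / 2) (‖b - a‖ / 3)) (lt_min (by linarith) (by linarith))
  have hρb' : ρ' ≤ ‖b - a‖ / 3 := hρle'.trans (min_le_right _ _)
  have hρa' : ρ' ≤ (R - ‖b - c‖) / 2 := hρle'.trans (min_le_left _ _)
  have hστ : τ = !σ := by
    rw [hgb₁] at hτ
    rcases lt_or_gt_of_ne hga with h | h
    · have h1 : σ = false := Bool.eq_false_iff.2 fun hh => absurd (hσ.1 hh) (not_lt.2 h.le)
      have h2 : 0 < cross (fderiv ℝ s b) := by nlinarith
      rw [h1, hτ.2 h2]; rfl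
    · have h2 : ¬ 0 < cross (fderiv ℝ s b) := fun hh => by nlinarith
      rw [hσ.2 h, Bool.eq_false_iff.2 fun hh => h2 (hτ.1 hh)]; rfl
  set A := max (‖a - c‖ + ρ) (‖b - c‖ + ρ')
  have hA : A < R := max_lt (by linarith) (by linarith)
  have hAa : ‖a - c‖ + ρ ≤ A := le_max_left _ _
  have hAb : ‖b - c‖ + ρ' ≤ A := le_max_right _ _
  set r₁ := (A + R) / 2 with hr₁
  set r₂ := (r₁ + R) / 2 with hr₂
  have hA0 : 0 ≤ A := le_trans (by positivity) hAa
  have h12 : r₁ < r₂ := by linarith
  have hAr : A ≤ r₁ := by linarith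
  -- near `a` the second modification does nothing
  have hea : ∀ᶠ z in 𝓝 a, s₂ z = α * model σ (z - a) := by
    filter_upwards [eventually_ball (a := a) (z := a) (r := ρ / 2) (by rw [sub_self, norm_zero]; linarith)] with z hz
    rw [hout₂ z ?_, hin₁ z hz]
    have h1 := norm_sub_le_norm_sub_add_norm_sub b z a
    rw [norm_sub_rev b z] at h1
    linarith
  have h2a : s₂ a = 0 := by simpa using hea.self_of_nhds
  set v := divide s₂ α σ a
  have hv : ContDiffOn ℝ ∞ v U :=
    contDiffOn_divide (g := fun _ => α) hU hs₂ (fun _ => contDiffAt_const) hea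
  have hmb : model σ (b - a) ≠ 0 := model_ne (sub_ne_zero.2 hne.symm)
  have hbv : ∀ᶠ z in 𝓝 b, v z = β / model σ (z - a) * model τ (z - b) := by
    filter_upwards [eventually_ball (a := b) (z := b) (r := ρ' / 2) (by rw [sub_self, norm_zero]; linarith)] with z hz
    have hza : z ≠ a := fun h => by
      rw [h, norm_sub_rev] at hz; linarith
    simp only [v, divide, if_neg hza, hin₂ z hz]
    ring
  set u := divide v (β / model σ (b - a)) τ b
  have hu : ContDiffOn ℝ ∞ u U := contDiffOn_divide (g := fun z => β / model σ (z - a)) hU hv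
    (fun _ => by
      simp only [div_eq_mul_inv]
      exact contDiffAt_const.mul
        (((model σ).contDiff.comp (contDiff_id.sub contDiff_const)).contDiffAt.inv hmb)) hbv
  have hune : ∀ z ∈ closedBall c R, u z ≠ 0 := by
    intro z hz
    rcases eq_or_ne z b with rfl | hzb
    · simp only [u, divide, if_true]; exact div_ne_zero hβ hmb
    · simp only [u, divide, if_neg hzb]
      refine div_ne_zero ?_ (model_ne (sub_ne_zero.2 hzb))
      rcases eq_or_ne z a with rfl | hza
      · simpa [v, divide] using hα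
      · simp only [v, divide, if_neg hza]
        refine div_ne_zero ?_ (model_ne (sub_ne_zero.2 hza))
        rcases le_or_gt ‖z - b‖ ρ' with h | h
        · exact hnz₂ z h hzb
        · rw [hout₂ z h.le]
          rcases le_or_gt ‖z - a‖ ρ with h' | h'
          · exact hnz₁ z h' hza
          · rw [hout₁ z h'.le]
            exact fun h0 => by rcases (hzero z hz).1 h0 with e | e <;> contradiction
  set θ := step c r₁ r₂
  set η : ℂ → ℝ := fun z => 1 - step c 0 r₁ z
  set P : ℂ → ℂ := fun z =>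
    model σ (z - (c + θ z • (a - c))) * model τ (z - (c + θ z • (b - c))) + (η z : ℂ)
  refine ⟨fun z => u z * P z, r₂, by linarith, hu.mul (ContDiff.contDiffOn ?_), fun z hz => ?_,
    fun z hz => mul_ne_zero (hune z hz) fun hP => ?_⟩
  · refine (((model σ).contDiff.comp (contDiff_id.sub
      (contDiff_const.add ((contDiff_step c _ _).smul contDiff_const)))).mul
      ((model τ).contDiff.comp (contDiff_id.sub
      (contDiff_const.add ((contDiff_step c _ _).smul contDiff_const))))).add
      (ofRealCLM.contDiff.comp (contDiff_const.sub (contDiff_step c _ _)))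
  · rw [mem_closedBall, dist_eq_norm, not_le] at hz
    have h1 := norm_sub_le_norm_sub_add_norm_sub z a c
    have h2 := norm_sub_le_norm_sub_add_norm_sub z b c
    have e : P z = model σ (z - a) * model τ (z - b) := by
      simp [P, η, θ, step_one (by linarith) h12 hz.le,
        step_one (c := c) (z := z) (r₁ := 0) (r₂ := r₁) le_rfl (by linarith) (by linarith)]
    dsimp only
    rw [e, mul_comm (model σ (z - a)), ← mul_assoc]
    simp only [u, divide_mul _ _ _ (by simpa using hbv.self_of_nhds)]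
    simp only [v, divide_mul _ _ _ h2a]
    rw [hout₂ z (by linarith), hout₁ z (by linarith)]
  · obtain ⟨t0, t1⟩ := step_mem c z r₁ r₂
    by_cases hin : ‖z - c‖ < r₁
    · have e : P z = ((‖z - c‖ ^ 2 + η z : ℝ) : ℂ) := by
        simp only [P, θ, step_zero (by linarith) h12 hin.le, zero_smul, add_zero, hστ]
        push_cast
        rw [← Complex.mul_conj' (z - c)]
        cases σ <;> simp [model] <;> ring
      rw [e, Complex.ofReal_eq_zero] at hP
      have hη : 0 ≤ η z := sub_nonneg.2 (step_mem c z 0 r₁).2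
      have hz0 : ‖z - c‖ = 0 := by nlinarith [norm_nonneg (z - c)]
      rw [hz0] at hP
      simp [η, step_zero le_rfl (by linarith : 0 < r₁) hz0.le] at hP
    · rw [not_lt] at hin
      simp only [P, η, step_one (c := c) (z := z) (r₁ := 0) (r₂ := r₁) le_rfl (by linarith) hin,
        sub_self, Complex.ofReal_zero, add_zero, mul_eq_zero] at hP
      have key : ∀ p : ℂ, ‖p - c‖ ≤ A → ∀ {ν : Bool}, model ν (z - (c + θ z • (p - c))) = 0 →
          False := by
        intro p hp ν hm
        have h' : z - (c + θ z • (p - c)) = 0 := by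
          by_contra h''; exact model_ne h'' hm
        rw [sub_eq_zero] at h'
        have hn : ‖z - c‖ ≤ A := by
          rw [h', add_sub_cancel_left, norm_smul, Real.norm_eq_abs, abs_of_nonneg t0]
          exact (mul_le_of_le_one_left (norm_nonneg _) t1).trans hp
        linarith
      rcases hP with h | h
      · exact key a (by linarith) h
      · exact key b (by linarith) h

end Vale.Agent.P205.Disc
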