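import Vale.Agent.P205.Global.Moves

/-!
A double zero of a normal field: the one-form `Im (conj L dF)` is corrected near it to an injective
one, replacing `c w conj c` by `q w conj q` with a nonvanishing quaternion `q`.
-/

noncomputable section

open Set Filter Metric Function
open scoped Topology ContDiff Manifold Quaternion ComplexConjugate

namespace Vale.Agent.P205.Global

variable {M : Type} [TopologicalSpace M] [ChartedSpace Plane M]

/-- The one-form of the field can be corrected near `p` to an injective one. -/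
def Fix (F L : M → ℍ[ℝ]) (p : M) : Prop :=
  ∀ N ∈ 𝓝 p, (∀ x ∈ N, L x = 0 → x = p) →
    ∃ δ : (x : M) → TangentSpace 𝓘(ℝ, Plane) x → EuclideanSpace ℝ (Fin 3), IsOneForm δ ∧
      (∀ x, x ∉ N → ∀ v, δ x v = 0) ∧ ∀ x ∈ N, ∀ v, sigma F L x v + δ x v = 0 → v = 0

theorem sigma_eq_zero {F L : M → ℍ[ℝ]} (hi : ∀ p, Injective (dQ F p)) (h : IsNormal F L) {p : M}
    (hp : L p ≠ 0) {v : TangentSpace 𝓘(ℝ, Plane) p} (hv : sigma F L p v = 0) : v = 0 := by
  have h2 : star (L p) * dQ F p v = 0 := Quat.imV_eq_zero (by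
    have := h.ortho p v
    simp [Quat.inner_eq] at this
    simp
    linarith) hv
  have h3 : dQ F p v = 0 := (mul_eq_zero.1 h2).resolve_left (star_ne_zero.2 hp)
  exact hi p (h3.trans (map_zero (mfderiv 𝓘(ℝ, Plane) 𝓘(ℝ, ℍ[ℝ]) F p)).symm)

theorem Fix.congr {F L L' : M → ℍ[ℝ]} (hi : ∀ p, Injective (dQ F p)) (h' : IsNormal F L') {p : M}
    (hfix : Fix F L p) (he : L' =ᶠ[𝓝 p] L) : Fix F L' p := by
  intro N hN hz
  obtain ⟨δ, hδ, hout, hinj⟩ := hfix (N ∩ {x | L' x = L x}) (inter_mem hN he)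
    fun x hx h0 => hz x hx.1 (hx.2.trans h0)
  refine ⟨δ, hδ, fun x hx => hout x fun h => hx h.1, fun x hx v hv => ?_⟩
  by_cases hxe : L' x = L x
  · refine hinj x ⟨hx, hxe⟩ v ?_
    rw [← hv, sigma, sigma, hxe]
  · rw [hout x (fun h => hxe h.2), add_zero] at hv
    refine sigma_eq_zero hi h' (fun h0 => hxe ?_) hv
    rw [hz x hx h0]
    exact he.self_of_nhds

theorem conj_model (σ : Bool) (w : ℂ) : conj (Disc.model σ w) = Disc.model (!σ) w := by
  cases σ <;> simp [Disc.model]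

/-- The corrected quaternion. -/
def dq (μ j : ℍ[ℝ]) (a : ℂ) (χ : ℝ) : ℍ[ℝ] := Quat.cq μ a + χ • j

theorem dq_ne {μ j : ℍ[ℝ]} (hμ : μ.re = 0) (hμ0 : μ ≠ 0) (hj : j.re = 0) (hj0 : j ≠ 0)
    (hμj : inner ℝ μ j = 0) {a : ℂ} {χ : ℝ} (h : a = 0 → χ ≠ 0) : dq μ j a χ ≠ 0 := by
  intro h0
  have h1 := congrArg (fun q : ℍ[ℝ] => inner ℝ (1 : ℍ[ℝ]) q) h0
  have h2 := congrArg (fun q : ℍ[ℝ] => inner ℝ μ q) h0
  have ha1 : inner ℝ (1 : ℍ[ℝ]) j = 0 := by simp [Quat.inner_eq, hj]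
  have ha2 : inner ℝ (1 : ℍ[ℝ]) μ = 0 := by simp [Quat.inner_eq, hμ]
  have hμ1 : inner ℝ μ (1 : ℍ[ℝ]) = 0 := by simp [Quat.inner_eq, hμ]
  simp only [dq, Quat.cq, inner_add_right, real_inner_smul_right, inner_zero_right, ha1, ha2,
    hμj, hμ1, mul_zero, add_zero, zero_add] at h1 h2
  have hre : a.re = 0 := by simpa [Quat.inner_eq] using h1
  have him : a.im = 0 := (mul_eq_zero.1 h2).resolve_right fun h => hμ0 (inner_self_eq_zero.1 h)
  have ha : a = 0 := Complex.ext hre him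
  subst ha
  simp [dq, Quat.cq_zero, h rfl, hj0] at h0

theorem sandwich_zero {μ X : ℍ[ℝ]} (hμ : μ.re = 0) (hμ2 : μ * μ = -1) (hX : X.re = 0)
    (h : inner ℝ μ X = 0) (b a : ℂ) (j : ℍ[ℝ]) :
    dq μ j a 0 * (Quat.cq μ b * X) * star (dq μ j a 0) = Quat.cq μ (a * a * b) * X := by
  simp only [dq, zero_smul, add_zero]
  rw [Quat.star_cq hμ, mul_assoc, mul_assoc, Quat.mul_cq hμ hX h, Complex.conj_conj, ← mul_assoc,
    ← mul_assoc, ← Quat.cq_mul hμ2, ← Quat.cq_mul hμ2]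
  congr 1
  ring_nf

namespace Patch

variable {F : M → ℍ[ℝ]} (P : Patch F)

/-- The correcting form at a double zero in coordinates. -/
def fixA (u : ℂ → ℂ) (σ : Bool) (d : ℂ) (χ : ℂ → ℝ) (z : ℂ) : ℂ →L[ℝ] EuclideanSpace ℝ (Fin 3) :=
  Quat.imV.comp
    ((((ContinuousLinearMap.mul ℝ ℍ[ℝ]).flip
        (star (dq (P.μ z) (star (P.ν z) * P.t₁ z) (Disc.model (!σ) (z - d)) (χ z)))).comp
        (ContinuousLinearMap.mul ℝ ℍ[ℝ]
          (dq (P.μ z) (star (P.ν z) * P.t₁ z) (Disc.model (!σ) (z - d)) (χ z) *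
            Quat.cq (P.μ z) (conj (u z)) * star (P.ν z))) -
      ContinuousLinearMap.mul ℝ ℍ[ℝ]
        (Quat.cq (P.μ z) (Disc.model (!σ) (z - d) * Disc.model (!σ) (z - d) * conj (u z)) *
          star (P.ν z))).comp (fderiv ℝ (fun x => F (P.ψ x)) z))

theorem fixA_apply (u : ℂ → ℂ) (σ : Bool) (d : ℂ) (χ : ℂ → ℝ) (z w : ℂ) :
    P.fixA u σ d χ z w = Quat.imV
      (dq (P.μ z) (star (P.ν z) * P.t₁ z) (Disc.model (!σ) (z - d)) (χ z) *
        (Quat.cq (P.μ z) (conj (u z)) * (star (P.ν z) * fderiv ℝ (fun x => F (P.ψ x)) z w)) *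
        star (dq (P.μ z) (star (P.ν z) * P.t₁ z) (Disc.model (!σ) (z - d)) (χ z))) -
      Quat.imV (Quat.cq (P.μ z) (Disc.model (!σ) (z - d) * Disc.model (!σ) (z - d) * conj (u z)) *
        (star (P.ν z) * fderiv ℝ (fun x => F (P.ψ x)) z w)) := by
  simp [fixA, mul_assoc]

/-- The image of a vector in the conjugated frame. -/
theorem star_ν_mul {z : ℂ} (hz : z ∈ ball (0 : ℂ) P.r) (w : ℂ) :
    (star (P.ν z) * fderiv ℝ (fun x => F (P.ψ x)) z w).re = 0 ∧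
      inner ℝ (P.μ z) (star (P.ν z) * fderiv ℝ (fun x => F (P.ψ x)) z w) = 0 := by
  have e : fderiv ℝ (fun x => F (P.ψ x)) z w = w.re • P.t₁ z + w.im • P.t₂ z := by
    rw [t₁, t₂, ← map_smul, ← map_smul, ← map_add]; simp
  obtain ⟨r1, r2⟩ := Quat.re_star_nu (t₁ := P.t₁ z) (t₂ := P.t₂ z) P.e_re
  obtain ⟨-, -, -, h1, h2⟩ := P.μ_spec hz
  rw [e, mul_add, mul_smul_comm, mul_smul_comm]
  constructor
  · change (w.re • (star (Quat.nu P.e (P.t₁ z) (P.t₂ z)) * P.t₁ z) +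
      w.im • (star (Quat.nu P.e (P.t₁ z) (P.t₂ z)) * P.t₂ z)).re = 0
    rw [Quaternion.re_add, Quaternion.re_smul, Quaternion.re_smul, r1, r2]
    simp
  · rw [inner_add_right, real_inner_smul_right, real_inner_smul_right, h1, h2]
    simp

theorem smooth_fixA (hF : ContMDiff 𝓘(ℝ, Plane) 𝓘(ℝ, ℍ[ℝ]) ∞ F) {u : ℂ → ℂ}
    (hu : ContDiffOn ℝ ∞ u (ball 0 P.r)) (σ : Bool) (d : ℂ) {χ : ℂ → ℝ} (hχ : ContDiff ℝ ∞ χ) :
    ContDiffOn ℝ ∞ (P.fixA u σ d χ) (ball 0 P.r) := by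
  have hν : ContDiffOn ℝ ∞ (fun z => star (P.ν z)) (ball 0 P.r) :=
    starQ_contDiff.comp_contDiffOn (P.smooth_ν hF)
  have ha : ContDiffOn ℝ ∞ (fun z => Disc.model (!σ) (z - d)) (ball 0 P.r) :=
    ((Disc.model (!σ)).contDiff.comp (contDiff_id.sub contDiff_const)).contDiffOn
  have hb : ContDiffOn ℝ ∞ (fun z => conj (u z)) (ball 0 P.r) :=
    Complex.conjCLE.contDiff.comp_contDiffOn hu
  have hq : ContDiffOn ℝ ∞
      (fun z => dq (P.μ z) (star (P.ν z) * P.t₁ z) (Disc.model (!σ) (z - d)) (χ z)) (ball 0 P.r) :=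
    (P.smooth_cq hF ha).add (hχ.contDiffOn.smul (hν.mul (P.smooth_t hF).1))
  have hD : ContDiffOn ℝ ∞ (fderiv ℝ (fun x => F (P.ψ x))) (ball 0 P.r) :=
    (P.smooth_comp hF).fderiv_of_isOpen (m := ∞) isOpen_ball (by simp)
  have h1 : ContDiffOn ℝ ∞ (fun z => ((ContinuousLinearMap.mul ℝ ℍ[ℝ]).flip
      (star (dq (P.μ z) (star (P.ν z) * P.t₁ z) (Disc.model (!σ) (z - d)) (χ z)))).comp
      (ContinuousLinearMap.mul ℝ ℍ[ℝ]
        (dq (P.μ z) (star (P.ν z) * P.t₁ z) (Disc.model (!σ) (z - d)) (χ z) *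
          Quat.cq (P.μ z) (conj (u z)) * star (P.ν z)))) (ball 0 P.r) :=
    ((ContinuousLinearMap.mul ℝ ℍ[ℝ]).flip.contDiff.comp_contDiffOn
      (starQ_contDiff.comp_contDiffOn hq)).clm_comp
      ((ContinuousLinearMap.mul ℝ ℍ[ℝ]).contDiff.comp_contDiffOn
        ((hq.mul (P.smooth_cq hF hb)).mul hν))
  have h2 : ContDiffOn ℝ ∞ (fun z => ContinuousLinearMap.mul ℝ ℍ[ℝ]
      (Quat.cq (P.μ z) (Disc.model (!σ) (z - d) * Disc.model (!σ) (z - d) * conj (u z)) *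
        star (P.ν z))) (ball 0 P.r) :=
    (ContinuousLinearMap.mul ℝ ℍ[ℝ]).contDiff.comp_contDiffOn
      ((P.smooth_cq hF ((ha.mul ha).mul hb)).mul hν)
  exact contDiffOn_const.clm_comp ((h1.sub h2).clm_comp hD)

theorem fix_double [T2Space M] (hF : ContMDiff 𝓘(ℝ, Plane) 𝓘(ℝ, ℍ[ℝ]) ∞ F)
    (hi : ∀ p, Injective (dQ F p)) {L : M → ℍ[ℝ]} (hL : IsNormal F L) {d : ℂ}
    (hd : d ∈ ball (0 : ℂ) P.r) {σ : Bool} {u : ℂ → ℂ} (hu : ContDiffOn ℝ ∞ u (ball 0 P.r))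
    (hu0 : u d ≠ 0)
    (he : ∀ᶠ z in 𝓝 d, P.S L z = u z * (Disc.model σ (z - d) * Disc.model σ (z - d))) :
    Fix F L (P.ψ d) := by
  intro N hN hzN
  have hψd := P.ψ_smooth.continuousOn.continuousAt (isOpen_ball.mem_nhds hd)
  have hcu := hu.continuousOn.continuousAt (isOpen_ball.mem_nhds hd)
  obtain ⟨ε, hε, hεb⟩ := Metric.mem_nhds_iff.1 (inter_mem (inter_mem (inter_mem
    (isOpen_ball.mem_nhds hd) (hψd.preimage_mem_nhds hN)) he) (hcu.eventually_ne hu0))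
  set ρ := min (ε / 2) ((P.r - ‖d‖) / 2) with hρdef
  have hdr : ‖d‖ < P.r := mem_ball_zero_iff.1 hd
  have hρ : 0 < ρ := lt_min (by linarith) (by linarith)
  have hdρ : ‖d‖ + ρ < P.r := by linarith [min_le_right (ε / 2) ((P.r - ‖d‖) / 2)]
  set χ : ℂ → ℝ := fun z => 1 - Disc.step d (ρ / 2) ρ z with hχ
  have hχs : ContDiff ℝ ∞ χ := contDiff_const.sub (Disc.contDiff_step _ _ _)
  have hball : closedBall d ρ ⊆ ball d ε :=
    closedBall_subset_ball (by linarith [min_le_left (ε / 2) ((P.r - ‖d‖) / 2)])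
  have hout : ∀ z ∈ ball (0 : ℂ) P.r, z ∉ closedBall d ρ → P.fixA u σ d χ z = 0 := by
    intro z hz hzd
    have hχ0 : χ z = 0 := by
      simp only [hχ]
      rw [Disc.step_one (by linarith) (by linarith)]
      · simp
      · rw [mem_closedBall, dist_eq_norm] at hzd; linarith
    ext w : 1
    obtain ⟨hre, hμ2, -⟩ := P.μ_spec hz
    obtain ⟨hX, hμX⟩ := P.star_ν_mul hz w
    rw [P.fixA_apply, hχ0, sandwich_zero hre hμ2 hX hμX, sub_self]
    rfl
  refine ⟨P.form (P.fixA u σ d χ), P.isOneForm_form hρ hdρ (P.smooth_fixA hF hu σ d hχs) hout,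
    fun x hx v => ?_, fun x hx v hv => ?_⟩
  · unfold form
    split_ifs with hV
    · rw [hout _ (P.q_mem hV) fun hz => hx ?_]
      · rfl
      · rw [← P.ψ_q x hV]
        exact (hεb (hball hz)).1.1.2
    · rfl
  by_cases hxV : x ∈ P.V
  · simp only [form, if_pos hxV] at hv
    rw [P.sigma_eq hF hL.ortho hxV] at hv
    set z := P.q x with hzdef
    set w : ℂ := mfderiv 𝓘(ℝ, Plane) 𝓘(ℝ, ℂ) P.q x v with hwdef
    have hz := P.q_mem hxV
    by_cases hzd : z ∈ closedBall d ρ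
    · obtain ⟨⟨-, hzeq⟩, huz⟩ := hεb (hball hzd)
      obtain ⟨hre, hμ2, hμ0, hμ1, -⟩ := P.μ_spec hz
      obtain ⟨hX, hμX⟩ := P.star_ν_mul hz w
      set q := dq (P.μ z) (star (P.ν z) * P.t₁ z) (Disc.model (!σ) (z - d)) (χ z)
      set X := Quat.cq (P.μ z) (conj (u z)) * (star (P.ν z) * fderiv ℝ (fun x => F (P.ψ x)) z w)
      have hconj : conj (P.S L z) =
          Disc.model (!σ) (z - d) * Disc.model (!σ) (z - d) * conj (u z) := by
        rw [hzeq, map_mul, map_mul, conj_model, mul_comm]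
      rw [hconj, P.fixA_apply] at hv
      simp only [add_sub_cancel] at hv
      have hXre : X.re = 0 := (Quat.re_cq_mul hre hX hμX _).1
      have hj0 : star (P.ν z) * P.t₁ z ≠ 0 :=
        mul_ne_zero (star_ne_zero.2 (P.ν_ne z hz)) ((P.li z hz).ne_zero 0)
      have hq : q ≠ 0 := dq_ne hre hμ0 (Quat.re_star_nu P.e_re).1 hj0 hμ1 fun ha => by
        have : z - d = 0 := by
          by_contra hne
          exact Disc.model_ne hne ha
        simp [hχ, Disc.step_zero (show (0 : ℝ) ≤ ρ / 2 by linarith) (show ρ / 2 < ρ by linarith)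
          (show ‖z - d‖ ≤ ρ / 2 by rw [this, norm_zero]; linarith)]
      have h0 := Quat.imV_eq_zero (Quat.re_conjugate hXre) hv
      have hX0 : X = 0 :=
        (mul_eq_zero.1 ((mul_eq_zero.1 h0).resolve_right (star_ne_zero.2 hq))).resolve_left hq
      have hcq : Quat.cq (P.μ z) (conj (u z)) ≠ 0 := fun h =>
        huz ((map_eq_zero _).1 (Quat.cq_eq_zero hre hμ0 h))
      have hDw : fderiv ℝ (fun x => F (P.ψ x)) z w = 0 :=
        (mul_eq_zero.1 ((mul_eq_zero.1 hX0).resolve_left hcq)).resolve_left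
          (star_ne_zero.2 (P.ν_ne z hz))
      have hdF : dQ F x v = 0 := (P.deriv_chart hF hxV v).trans hDw
      exact hi x (hdF.trans (map_zero (mfderiv 𝓘(ℝ, Plane) 𝓘(ℝ, ℍ[ℝ]) F x)).symm)
    · rw [hout z hz hzd, zero_apply, add_zero, ← P.sigma_eq hF hL.ortho hxV] at hv
      refine sigma_eq_zero hi hL (fun h0 => hzd ?_) hv
      rw [hzdef, hzN x hx h0, P.q_ψ d hd]
      exact mem_closedBall_self hρ.le
  · simp only [form, if_neg hxV, add_zero] at hv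
    refine sigma_eq_zero hi hL (fun h0 => hxV ?_) hv
    rw [hzN x hx h0]
    exact P.ψ_mem hd

end Patch

end Vale.Agent.P205.Global
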