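import Mathlib

/-!
Roots of finite dimensional maps near a regular root, and near a fold of a one parameter family.
-/

noncomputable section

open Set Filter Topology Module
open scoped ContDiff

namespace Vale.Agent.P205.Global

variable {V P : Type*} [NormedAddCommGroup V] [NormedSpace ℝ V] [FiniteDimensional ℝ V]
  [NormedAddCommGroup P] [NormedSpace ℝ P] [FiniteDimensional ℝ P]

/-- An injective endomorphism in finite dimension as an equivalence. -/
def equivOfInj (L : V →L[ℝ] V) (h : Function.Injective L) : V ≃L[ℝ] V :=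
  (LinearEquiv.ofInjectiveEndo (L : V →ₗ[ℝ] V) h).toContinuousLinearEquiv

@[simp] theorem equivOfInj_apply (L : V →L[ℝ] V) (h : Function.Injective L) (v : V) :
    equivOfInj L h v = L v := rfl

/-- The injective endomorphisms are open. -/
theorem isOpen_inj : IsOpen {L : V →L[ℝ] V | Function.Injective L} := by
  have h : {L : V →L[ℝ] V | Function.Injective L} =
      range ((↑) : (V ≃L[ℝ] V) → V →L[ℝ] V) := by
    ext L
    exact ⟨fun h => ⟨equivOfInj L h, ContinuousLinearMap.ext fun v => rfl⟩,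
      fun ⟨e, he⟩ => he ▸ e.injective⟩
  rw [h]
  exact ContinuousLinearEquiv.isOpen

/-- Near a regular root there is exactly one root for each nearby parameter, and it is regular. -/
theorem regular_root {g : V × P → V} {x₀ : V} {p₀ : P} (hg : ContDiffAt ℝ 2 g (x₀, p₀))
    (h0 : g (x₀, p₀) = 0)
    (hb : Function.Injective
      ((fderiv ℝ g (x₀, p₀)).comp (ContinuousLinearMap.inl ℝ V P)))
    {N : Set V} (hN : N ∈ 𝓝 x₀) :
    ∃ U ∈ 𝓝 x₀, U ⊆ N ∧ ∀ᶠ p in 𝓝 p₀, ∃ x, {y ∈ U | g (y, p) = 0} = {x} ∧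
      Function.Injective ((fderiv ℝ g (x, p)).comp (ContinuousLinearMap.inl ℝ V P)) := by
  set Φ : V × P → V × P := fun z => (g z, z.2) with hΦ
  set T := (fderiv ℝ g (x₀, p₀)).prod (ContinuousLinearMap.snd ℝ V P) with hT
  have hd : HasFDerivAt Φ T (x₀, p₀) :=
    (hg.differentiableAt (by norm_num)).hasFDerivAt.prodMk hasFDerivAt_snd
  have hTi : Function.Injective T := by
    refine (injective_iff_map_eq_zero _).2 fun z hz => ?_
    have h1 : z.2 = 0 := congrArg Prod.snd hz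
    have h2 : fderiv ℝ g (x₀, p₀) z = 0 := congrArg Prod.fst hz
    have : z.1 = 0 := hb (by
      simp only [map_zero, ContinuousLinearMap.comp_apply, ContinuousLinearMap.inl_apply]
      rw [← h1]; exact h2)
    exact Prod.ext this h1
  have hc : ContDiffAt ℝ 2 Φ (x₀, p₀) := hg.prodMk contDiffAt_snd
  have hd' : HasFDerivAt Φ ((equivOfInj T hTi : (V × P) ≃L[ℝ] V × P) : V × P →L[ℝ] V × P)
      (x₀, p₀) := hd
  set e := hc.toOpenPartialHomeomorph Φ hd' (by norm_num) with he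
  have hes : (x₀, p₀) ∈ e.source := hc.mem_toOpenPartialHomeomorph_source hd' (by norm_num)
  have het : Φ (x₀, p₀) ∈ e.target := hc.image_mem_toOpenPartialHomeomorph_target hd' (by norm_num)
  have hcoe : ∀ z, e z = Φ z := fun z => rfl
  have hΦ0 : Φ (x₀, p₀) = (0, p₀) := by simp [hΦ, h0]
  have hinj : ∀ᶠ z in 𝓝 (x₀, p₀),
      Function.Injective ((fderiv ℝ g z).comp (ContinuousLinearMap.inl ℝ V P)) := by
    have hcont : ContinuousAt (fun z => (fderiv ℝ g z).comp (ContinuousLinearMap.inl ℝ V P))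
        (x₀, p₀) :=
      ((hg.fderiv_right (m := 1) (by norm_num)).continuousAt).clm_comp continuousAt_const
    exact hcont.preimage_mem_nhds (isOpen_inj.mem_nhds hb)
  obtain ⟨U₁, hU₁, W, hW, hUW₁⟩ :=
    mem_nhds_prod_iff.1 (inter_mem (e.open_source.mem_nhds hes) hinj)
  set U := U₁ ∩ N
  have hU : U ∈ 𝓝 x₀ := inter_mem hU₁ hN
  have hUW := (Set.prod_mono (inter_subset_left : U ⊆ U₁) (Subset.refl W)).trans hUW₁
  refine ⟨U, hU, inter_subset_right, ?_⟩
  set σ : P → V × P := fun p => e.symm (0, p) with hσ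
  have hσc : Tendsto σ (𝓝 p₀) (𝓝 (x₀, p₀)) := by
    have h1 : ContinuousAt e.symm (0, p₀) := e.continuousAt_symm (hΦ0 ▸ het)
    have h2 : e.symm (0, p₀) = (x₀, p₀) := by rw [← hΦ0, ← hcoe, e.left_inv hes]
    have h3 : Tendsto (fun p : P => ((0 : V), p)) (𝓝 p₀) (𝓝 (0, p₀)) :=
      (continuous_const.prodMk continuous_id).tendsto p₀
    simpa only [hσ, Function.comp_def, h2] using h1.tendsto.comp h3
  have ht : ∀ᶠ p in 𝓝 p₀, ((0 : V), p) ∈ e.target :=
    (continuous_const.prodMk continuous_id).continuousAt.preimage_mem_nhds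
      (e.open_target.mem_nhds (hΦ0 ▸ het))
  filter_upwards [ht, hσc (prod_mem_nhds hU hW), hW] with p hp hs hpW
  have hr : Φ (σ p) = (0, p) := by rw [← hcoe, hσ, e.right_inv hp]
  have h2 : (σ p).2 = p := congrArg Prod.snd hr
  have h1 : g (σ p) = 0 := congrArg Prod.fst hr
  have hx : σ p = ((σ p).1, p) := Prod.ext rfl h2
  refine ⟨(σ p).1, ?_, (hUW (mk_mem_prod hs.1 hpW)).2⟩
  ext y
  refine ⟨fun ⟨hy, hy0⟩ => ?_, fun hy => ?_⟩
  · have : e (y, p) = (0, p) := by rw [hcoe]; simp [hΦ, hy0]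
    have h3 : σ p = (y, p) := by
      rw [hσ]; simp only; rw [← this, e.left_inv (hUW (mk_mem_prod hy hpW)).1]
    exact (congrArg Prod.fst h3).symm
  · rw [mem_singleton_iff] at hy
    subst hy
    exact ⟨hs.1, by rw [← hx]; exact h1⟩

/-- A nondegenerate critical point of a function of one variable: nearby values are taken zero or
two times, at noncritical points. -/
theorem real_fold {τ : ℝ → ℝ} {v₀ t₀ : ℝ} (hτ : ∀ᶠ v in 𝓝 v₀, ContDiffAt ℝ 2 τ v)
    (h0 : τ v₀ = t₀) (h1 : deriv τ v₀ = 0) (h2 : deriv (deriv τ) v₀ ≠ 0) :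
    ∀ᶠ δ in 𝓝[>] 0, (∀ v ∈ Ioo (v₀ - δ) (v₀ + δ), τ v = t₀ → v = v₀) ∧
      (∀ v ∈ Ioo (v₀ - δ) (v₀ + δ), deriv τ v = 0 → v = v₀) ∧
      ∀ᶠ t in 𝓝[≠] t₀, {v ∈ Ioo (v₀ - δ) (v₀ + δ) | τ v = t}.Finite ∧
        Even {v ∈ Ioo (v₀ - δ) (v₀ + δ) | τ v = t}.ncard := by
  wlog hpos : 0 < deriv (deriv τ) v₀ generalizing τ t₀
  · have hd : deriv (fun v => -τ v) = fun v => -deriv τ v := funext fun v => deriv.fun_neg
    have := this (τ := fun v => -τ v) (t₀ := -t₀) (hτ.mono fun v h => h.neg) (by simp [h0])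
      (by simp [hd, h1]) (by rw [hd, deriv.fun_neg]; simp [h2])
      (by rw [hd, deriv.fun_neg]; exact neg_pos.2 (lt_of_le_of_ne (not_lt.1 hpos) h2))
    filter_upwards [this] with δ hδ
    obtain ⟨a, b, c⟩ := hδ
    refine ⟨fun v hv h => a v hv (by simp [h]), fun v hv h => b v hv (by simp [hd, h]), ?_⟩
    have hn : Tendsto (fun t : ℝ => -t) (𝓝[≠] t₀) (𝓝[≠] (-t₀)) :=
      tendsto_nhdsWithin_of_tendsto_nhds_of_eventually_within _
        (tendsto_nhdsWithin_of_tendsto_nhds (continuous_neg.tendsto t₀))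
        (eventually_nhdsWithin_of_forall fun t ht => by simpa using ht)
    filter_upwards [hn.eventually c] with t ht
    simpa [neg_inj] using ht
  have hc2 : ∀ᶠ v in 𝓝 v₀, 0 < deriv (deriv τ) v := by
    have hd : ContDiffAt ℝ 1 (deriv τ) v₀ := by
      have := (hτ.self_of_nhds.fderiv_right (m := 1) (by norm_num)).clm_apply
        (contDiffAt_const (c := (1 : ℝ)))
      exact this.congr_of_eventuallyEq (Eventually.of_forall fun v => fderiv_apply_one_eq_deriv.symm)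
    have hd2 : ContinuousAt (deriv (deriv τ)) v₀ := by
      have := ((hd.fderiv_right (m := 0) (by norm_num)).clm_apply
        (contDiffAt_const (c := (1 : ℝ)))).continuousAt
      exact this.congr (Eventually.of_forall fun v => fderiv_apply_one_eq_deriv)
    exact hd2.eventually (lt_mem_nhds hpos)
  obtain ⟨η, hη, hball⟩ := Metric.eventually_nhds_iff.1 (hτ.and hc2)
  filter_upwards [Ioo_mem_nhdsGT hη] with δ hδ
  have hI : ∀ v ∈ Icc (v₀ - δ) (v₀ + δ), ContDiffAt ℝ 2 τ v ∧ 0 < deriv (deriv τ) v :=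
    fun v hv => hball (by
      rw [Real.dist_eq, abs_lt]; constructor <;> linarith [hv.1, hv.2, hδ.2])
  have hδ0 := hδ.1
  have hcont : ContinuousOn τ (Icc (v₀ - δ) (v₀ + δ)) := fun v hv =>
    ((hI v hv).1.continuousAt).continuousWithinAt
  have hd1 : StrictMonoOn (deriv τ) (Icc (v₀ - δ) (v₀ + δ)) := by
    refine strictMonoOn_of_deriv_pos (convex_Icc _ _) (fun v hv => ?_) fun v hv => ?_
    · have := ((hI v hv).1.fderiv_right (m := 1) (by norm_num)).clm_apply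
        (contDiffAt_const (c := (1 : ℝ)))
      exact (this.continuousAt.congr (Eventually.of_forall fun w =>
        fderiv_apply_one_eq_deriv)).continuousWithinAt
    · exact (hI v (interior_subset hv)).2
  have hleft : StrictAntiOn τ (Icc (v₀ - δ) v₀) := by
    refine strictAntiOn_of_deriv_neg (convex_Icc _ _)
      (hcont.mono (Icc_subset_Icc le_rfl (by linarith))) fun v hv => ?_
    rw [interior_Icc] at hv
    rw [← h1]
    exact hd1 ⟨hv.1.le, by linarith [hv.2]⟩ ⟨by linarith, by linarith⟩ hv.2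
  have hright : StrictMonoOn τ (Icc v₀ (v₀ + δ)) := by
    refine strictMonoOn_of_deriv_pos (convex_Icc _ _)
      (hcont.mono (Icc_subset_Icc (by linarith) le_rfl)) fun v hv => ?_
    rw [interior_Icc] at hv
    rw [← h1]
    exact hd1 ⟨by linarith, by linarith⟩ ⟨by linarith [hv.1], hv.2.le⟩ hv.1
  refine ⟨fun v hv h => ?_, fun v hv h => hd1.injOn (Ioo_subset_Icc_self hv)
    ⟨by linarith, by linarith⟩ (h.trans h1.symm), ?_⟩
  · rcases le_total v v₀ with hle | hle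
    · exact hleft.injOn ⟨hv.1.le, hle⟩ ⟨by linarith, le_rfl⟩ (h.trans h0.symm)
    · exact hright.injOn ⟨hle, hv.2.le⟩ ⟨le_rfl, by linarith⟩ (h.trans h0.symm)
  have hl : t₀ < τ (v₀ - δ) := h0 ▸ hleft ⟨le_rfl, by linarith⟩ ⟨by linarith, le_rfl⟩ (by linarith)
  have hr : t₀ < τ (v₀ + δ) := h0 ▸ hright ⟨le_rfl, by linarith⟩ ⟨by linarith, le_rfl⟩ (by linarith)
  have hev : ∀ᶠ t in 𝓝[≠] t₀, t < τ (v₀ - δ) ∧ t < τ (v₀ + δ) :=
    nhdsWithin_le_nhds ((gt_mem_nhds hl).and (gt_mem_nhds hr))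
  filter_upwards [hev, self_mem_nhdsWithin] with t ⟨htl, htr⟩ htne
  rcases lt_or_gt_of_ne (htne : t ≠ t₀) with hlt | hgt
  · have : {v ∈ Ioo (v₀ - δ) (v₀ + δ) | τ v = t} = ∅ := by
      refine eq_empty_of_forall_notMem fun v ⟨hv, hvt⟩ => ?_
      rcases le_total v v₀ with hle | hle
      · have := hleft.antitoneOn ⟨hv.1.le, hle⟩ ⟨by linarith, le_rfl⟩ hle
        linarith
      · have := hright.monotoneOn ⟨le_rfl, by linarith⟩ ⟨hle, hv.2.le⟩ hle
        linarith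
    rw [this]; exact ⟨finite_empty, by simp⟩
  · obtain ⟨a, ha, hat⟩ := intermediate_value_Ioo' (by linarith : v₀ - δ ≤ v₀)
      (hcont.mono (Icc_subset_Icc le_rfl (by linarith))) ⟨h0.symm ▸ hgt, htl⟩
    obtain ⟨b, hb, hbt⟩ := intermediate_value_Ioo (by linarith : v₀ ≤ v₀ + δ)
      (hcont.mono (Icc_subset_Icc (by linarith) le_rfl)) ⟨h0.symm ▸ hgt, htr⟩
    have : {v ∈ Ioo (v₀ - δ) (v₀ + δ) | τ v = t} = {a, b} := by
      refine Subset.antisymm (fun v ⟨hv, hvt⟩ => ?_) fun v hv => ?_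
      · rcases le_total v v₀ with hle | hle
        · exact Or.inl (hleft.injOn ⟨hv.1.le, hle⟩ ⟨ha.1.le, ha.2.le⟩ (hvt.trans hat.symm))
        · exact Or.inr (hright.injOn ⟨hle, hv.2.le⟩ ⟨hb.1.le, hb.2.le⟩ (hvt.trans hbt.symm))
      · rcases hv with rfl | rfl
        · exact ⟨⟨ha.1, by linarith [ha.2]⟩, hat⟩
        · exact ⟨⟨by linarith [hb.1], hb.2⟩, hbt⟩
    rw [this]
    exact ⟨toFinite _, by rw [ncard_pair (ne_of_lt (ha.2.trans hb.1))]; exact ⟨1, rfl⟩⟩

/-- A fold: near it the roots of `h x + t • a` number zero or two for nearby `t`, all regular. -/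
theorem fold_root {h : V → V} {a x₀ k : V} {t₀ : ℝ} (hh : ContDiffAt ℝ 2 h x₀)
    (h0 : h x₀ + t₀ • a = 0) (hk : fderiv ℝ h x₀ k = 0) (hk0 : k ≠ 0)
    (hker : ∀ v, fderiv ℝ h x₀ v = 0 → ∃ c : ℝ, v = c • k)
    (ha : ∀ v, fderiv ℝ h x₀ v ≠ a)
    (hnd : ∀ v, fderiv ℝ h x₀ v ≠ fderiv ℝ (fderiv ℝ h) x₀ k k) {N : Set V} (hN : N ∈ 𝓝 x₀) :
    ∃ U ∈ 𝓝 x₀, U ⊆ N ∧ (∀ x ∈ U, h x + t₀ • a = 0 → x = x₀) ∧
      ∀ᶠ t in 𝓝[≠] t₀, {x ∈ U | h x + t • a = 0}.Finite ∧
        Even {x ∈ U | h x + t • a = 0}.ncard ∧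
        ∀ x ∈ U, h x + t • a = 0 → Function.Injective (fderiv ℝ h x) := by
  obtain ⟨l, hl⟩ := SeparatingDual.exists_eq_one (R := ℝ) hk0
  set T : V → (V × ℝ →L[ℝ] V × ℝ) := fun x =>
    ((fderiv ℝ h x).comp (ContinuousLinearMap.fst ℝ V ℝ) +
      (ContinuousLinearMap.snd ℝ V ℝ).smulRight a).prod
        (l.comp (ContinuousLinearMap.fst ℝ V ℝ)) with hTdef
  have hT : ∀ x z, T x z = (fderiv ℝ h x z.1 + z.2 • a, l z.1) := fun x z => rfl
  set Φ : V × ℝ → V × ℝ := fun z => (h z.1 + z.2 • a, l z.1) with hΦ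
  have hTi : Function.Injective (T x₀) := by
    refine (injective_iff_map_eq_zero _).2 fun z hz => ?_
    rw [hT, Prod.mk_eq_zero] at hz
    have hs : z.2 = 0 := by
      by_contra hne
      refine ha (-(z.2⁻¹) • z.1) ?_
      rw [map_smul, eq_neg_of_add_eq_zero_left hz.1, smul_neg, neg_smul, neg_neg, inv_smul_smul₀ hne]
    obtain ⟨c, hc⟩ := hker z.1 (by simpa [hs] using hz.1)
    have : c = 0 := by simpa [hc, hl] using hz.2
    exact Prod.ext (by simp [hc, this]) hs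
  have hd : ∀ z : V × ℝ, DifferentiableAt ℝ h z.1 → HasFDerivAt Φ (T z.1) z := fun z hz =>
    ((hz.hasFDerivAt.comp z hasFDerivAt_fst).add (hasFDerivAt_snd.smul_const a)).prodMk
      (l.hasFDerivAt.comp z hasFDerivAt_fst)
  have hc : ContDiffAt ℝ 2 Φ (x₀, t₀) :=
    ((hh.comp (x₀, t₀) contDiffAt_fst).add (contDiffAt_snd.smul contDiffAt_const)).prodMk
      (l.contDiff.contDiffAt.comp (x₀, t₀) contDiffAt_fst)
  have hd' : HasFDerivAt Φ ((equivOfInj _ hTi : (V × ℝ) ≃L[ℝ] V × ℝ) : V × ℝ →L[ℝ] V × ℝ)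
      (x₀, t₀) := hd (x₀, t₀) (hh.differentiableAt (by norm_num))
  set e := hc.toOpenPartialHomeomorph Φ hd' (by norm_num) with he
  have hes : (x₀, t₀) ∈ e.source := hc.mem_toOpenPartialHomeomorph_source hd' (by norm_num)
  have hcoe : ∀ z, e z = Φ z := fun z => rfl
  set v₀ := l x₀ with hv₀
  have hΦ0 : Φ (x₀, t₀) = (0, v₀) := Prod.ext h0 rfl
  have het : ((0 : V), v₀) ∈ e.target :=
    hΦ0 ▸ hc.image_mem_toOpenPartialHomeomorph_target hd' (by norm_num)
  set γ : ℝ → V × ℝ := fun v => e.symm (0, v) with hγ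
  set X : ℝ → V := fun v => (γ v).1 with hX
  set τ : ℝ → ℝ := fun v => (γ v).2 with hτ
  have hγ0 : γ v₀ = (x₀, t₀) := by rw [hγ]; simp only; rw [← hΦ0, ← hcoe, e.left_inv hes]
  have hγc : ContDiffAt ℝ 2 γ v₀ := by
    have h1 := hc.to_localInverse hd' (by norm_num)
    rw [hΦ0] at h1
    exact h1.comp v₀ (contDiffAt_const.prodMk contDiffAt_id)
  have hXc : ContDiffAt ℝ 2 X v₀ := contDiffAt_fst.comp v₀ hγc
  have hτc : ContDiffAt ℝ 2 τ v₀ := contDiffAt_snd.comp v₀ hγc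
  have hX0 : X v₀ = x₀ := congrArg Prod.fst hγ0
  have hTev : ∀ᶠ x in 𝓝 x₀, ContDiffAt ℝ 2 h x ∧ Function.Injective (T x) := by
    refine (hh.eventually (by norm_num)).and ?_
    have hcont : ContinuousAt T x₀ := by
      have h1 := (hh.fderiv_right (m := 1) (by norm_num)).continuousAt
      exact (ContinuousLinearMap.prodₗᵢ ℝ).continuous.continuousAt.comp
        (((h1.clm_comp continuousAt_const).add continuousAt_const).prodMk continuousAt_const)
    exact hcont.preimage_mem_nhds (isOpen_inj.mem_nhds hTi)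
  have hxt : ∀ᶠ v in 𝓝 v₀, ((0 : V), v) ∈ e.target ∧ ContDiffAt ℝ 2 X v ∧ ContDiffAt ℝ 2 τ v ∧
      ContDiffAt ℝ 2 h (X v) ∧ Function.Injective (T (X v)) := by
    have ht : ∀ᶠ v in 𝓝 v₀, ((0 : V), v) ∈ e.target :=
      (continuous_const.prodMk continuous_id).continuousAt.preimage_mem_nhds
        (e.open_target.mem_nhds het)
    refine ht.and ((hXc.eventually (by norm_num)).and ((hτc.eventually (by norm_num)).and ?_))
    exact (hX0 ▸ hXc.continuousAt.tendsto).eventually hTev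
  have hroot : ∀ v, ((0 : V), v) ∈ e.target → h (X v) + τ v • a = 0 ∧ l (X v) = v := fun v hv => by
    have : Φ (γ v) = (0, v) := by rw [← hcoe, hγ]; exact e.right_inv hv
    exact ⟨congrArg Prod.fst this, congrArg Prod.snd this⟩
  have hder : ∀ᶠ v in 𝓝 v₀, T (X v) (deriv X v, deriv τ v) = (0, 1) := by
    filter_upwards [hxt.eventually_nhds] with v hv
    obtain ⟨-, hX2, hτ2, hh2, -⟩ := hv.self_of_nhds
    have h1 : HasDerivAt (fun w => Φ (X w, τ w)) (T (X v) (deriv X v, deriv τ v)) v :=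
      (hd (X v, τ v) (hh2.differentiableAt (by norm_num))).comp_hasDerivAt v
        ((hX2.differentiableAt (by norm_num)).hasDerivAt.prodMk
          (hτ2.differentiableAt (by norm_num)).hasDerivAt)
    have h2 : HasDerivAt (fun w : ℝ => ((0 : V), w)) ((0 : V), (1 : ℝ)) v :=
      (hasDerivAt_const v (0 : V)).prodMk (hasDerivAt_id v)
    refine h1.unique (h2.congr_of_eventuallyEq ?_)
    filter_upwards [hv] with w hw
    exact Prod.ext (hroot w hw.1).1 (hroot w hw.1).2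
  have hd0 : deriv X v₀ = k ∧ deriv τ v₀ = 0 := by
    have h1 := hder.self_of_nhds
    rw [hX0] at h1
    have h2 : T x₀ (k, 0) = (0, 1) := by rw [hT]; simp [hk, hl]
    exact Prod.mk_inj.1 (hTi (h1.trans h2.symm))
  have hndeg : deriv (deriv τ) v₀ ≠ 0 := by
    intro hz
    have hX1 : DifferentiableAt ℝ (deriv X) v₀ :=
      (((hXc.fderiv_right (m := 1) (by norm_num)).clm_apply
        (contDiffAt_const (c := (1 : ℝ)))).differentiableAt (by norm_num)).congr_of_eventuallyEq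
        (Eventually.of_forall fun w => fderiv_apply_one_eq_deriv.symm)
    have hτ1 : DifferentiableAt ℝ (deriv τ) v₀ :=
      (((hτc.fderiv_right (m := 1) (by norm_num)).clm_apply
        (contDiffAt_const (c := (1 : ℝ)))).differentiableAt (by norm_num)).congr_of_eventuallyEq
        (Eventually.of_forall fun w => fderiv_apply_one_eq_deriv.symm)
    have hF : HasFDerivAt (fderiv ℝ h) (fderiv ℝ (fderiv ℝ h) x₀) (X v₀) := by
      rw [hX0]
      exact ((hh.fderiv_right (m := 1) (by norm_num)).differentiableAt (by norm_num)).hasFDerivAt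
    have hF' := hF.comp_hasDerivAt v₀ (hXc.differentiableAt (by norm_num)).hasDerivAt
    have h1 := (hF'.clm_apply hX1.hasDerivAt).add (hτ1.hasDerivAt.smul_const a)
    have h2 : HasDerivAt
        ((fun w => fderiv ℝ h (X w) (deriv X w)) + fun w => deriv τ w • a) (0 : V) v₀ :=
      (hasDerivAt_const v₀ (0 : V)).congr_of_eventuallyEq (by
        filter_upwards [hder] with w hw
        exact congrArg Prod.fst hw)
    have h3 := h1.unique h2
    simp only [hz, zero_smul, add_zero, hd0.1, Function.comp_apply, hX0] at h3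
    exact hnd (-(deriv (deriv X) v₀)) (by rw [map_neg]; exact (eq_neg_of_add_eq_zero_left h3).symm)
  have hτev : ∀ᶠ v in 𝓝 v₀, ContDiffAt ℝ 2 τ v := hxt.mono fun v hv => hv.2.2.1
  have hfold := real_fold hτev (congrArg Prod.snd hγ0) hd0.2 hndeg
  obtain ⟨U₁, hU₁, W, hW, hUW₁⟩ := mem_nhds_prod_iff.1 (e.open_source.mem_nhds hes)
  set U₀ := U₁ ∩ N
  have hU₀ : U₀ ∈ 𝓝 x₀ := inter_mem hU₁ hN
  have hUW := (Set.prod_mono (inter_subset_left : U₀ ⊆ U₁) (Subset.refl W)).trans hUW₁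
  have hgood : ∀ᶠ v in 𝓝 v₀, T (X v) (deriv X v, deriv τ v) = (0, 1) ∧ X v ∈ U₀ ∧
      ((0 : V), v) ∈ e.target ∧ Function.Injective (T (X v)) := by
    filter_upwards [hder, (hX0 ▸ hXc.continuousAt.tendsto) hU₀, hxt] with v h1 h2 h3
    exact ⟨h1, h2, h3.1, h3.2.2.2.2⟩
  obtain ⟨η, hη, hball⟩ := Metric.eventually_nhds_iff.1 hgood
  obtain ⟨δ, ⟨hf1, hf2, hf3⟩, hδ⟩ := (hfold.and (Ioo_mem_nhdsGT hη)).exists
  set U := U₀ ∩ l ⁻¹' Ioo (v₀ - δ) (v₀ + δ) with hU
  have hin : ∀ v ∈ Ioo (v₀ - δ) (v₀ + δ), T (X v) (deriv X v, deriv τ v) = (0, 1) ∧ X v ∈ U₀ ∧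
      ((0 : V), v) ∈ e.target ∧ Function.Injective (T (X v)) := fun v hv =>
    hball (by rw [Real.dist_eq, abs_lt]; constructor <;> linarith [hv.1, hv.2, hδ.2])
  have hchar : ∀ t ∈ W, {x ∈ U | h x + t • a = 0} =
      X '' {v ∈ Ioo (v₀ - δ) (v₀ + δ) | τ v = t} := fun t ht => by
    ext x
    refine ⟨fun ⟨⟨hxU, hxl⟩, hx⟩ => ⟨l x, ?_⟩, ?_⟩
    · have h1 : e (x, t) = (0, l x) := Prod.ext hx rfl
      have h2 : γ (l x) = (x, t) := by
        rw [hγ]; simp only; rw [← h1, e.left_inv (hUW (mk_mem_prod hxU ht))]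
      exact ⟨⟨hxl, congrArg Prod.snd h2⟩, congrArg Prod.fst h2⟩
    · rintro ⟨v, ⟨hv, hvt⟩, rfl⟩
      obtain ⟨-, hvU, hvT, -⟩ := hin v hv
      obtain ⟨hr1, hr2⟩ := hroot v hvT
      exact ⟨⟨hvU, by simpa [hr2] using hv⟩, by rw [← hvt]; exact hr1⟩
  refine ⟨U, inter_mem hU₀ (l.continuous.continuousAt.preimage_mem_nhds
    (Ioo_mem_nhds (by linarith [hδ.1]) (by linarith [hδ.1]))),
    fun x hx => hx.1.2, fun x hx hx0 => ?_, ?_⟩
  · have hm : x ∈ {x ∈ U | h x + t₀ • a = 0} := ⟨hx, hx0⟩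
    rw [hchar t₀ (mem_of_mem_nhds hW)] at hm
    obtain ⟨v, ⟨hv, hvt⟩, rfl⟩ := hm
    rw [hf1 v hv hvt, hX0]
  filter_upwards [hf3, nhdsWithin_le_nhds hW, self_mem_nhdsWithin] with t ⟨hfin, heven⟩ htW htne
  rw [hchar t htW]
  have hinjX : InjOn X {v ∈ Ioo (v₀ - δ) (v₀ + δ) | τ v = t} := fun v hv w hw hvw => by
    rw [← (hroot v (hin v hv.1).2.2.1).2, ← (hroot w (hin w hw.1).2.2.1).2, hvw]
  refine ⟨hfin.image X, by rwa [hinjX.ncard_image], fun x hx hx0 => ?_⟩
  have hm : x ∈ {x ∈ U | h x + t • a = 0} := ⟨hx, hx0⟩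
  rw [hchar t htW] at hm
  obtain ⟨v, ⟨hv, hvt⟩, rfl⟩ := hm
  obtain ⟨hd1, -, -, hi⟩ := hin v hv
  refine (injective_iff_map_eq_zero _).2 fun w hw => ?_
  have h1 : T (X v) (w, 0) = T (X v) (l w • (deriv X v, deriv τ v)) := by
    rw [map_smul, hd1, hT]; simp [hw]
  have h2 := hi h1
  have hne : deriv τ v ≠ 0 := fun hz => htne (by
    rw [mem_singleton_iff, ← hvt, hf2 v hv hz]; exact congrArg Prod.snd hγ0)
  have h3 : l w * deriv τ v = 0 := by simpa using (congrArg Prod.snd h2).symm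
  have h4 : l w = 0 := by simpa [hne] using h3
  simpa [h4] using congrArg Prod.fst h2

end Vale.Agent.P205.Global
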