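import Vale.Agent.P205.Global.Generic
import Vale.Agent.P205.Global.Data

/-!
General position in the form used by the parity argument.
-/

noncomputable section

open scoped ContDiff Manifold Quaternion

namespace Vale.Agent.P205.Global

/-- A compact surface carries generic data. -/
theorem exists_isGeneric {M : Type} [TopologicalSpace M] [ChartedSpace Plane M]
    [IsManifold 𝓘(ℝ, Plane) ∞ M] [CompactSpace M] [T2Space M] :
    ∃ F L : M → ℍ[ℝ], IsGeneric F L := by
  obtain ⟨F, L, hF, hL, hi, hn, hf, hr, ht⟩ := exists_generic (M := M)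
  exact ⟨F, L, ⟨hF, hL, hi, hn, hf, hr, ht⟩⟩

end Vale.Agent.P205.Global
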