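import Vale.Agent.P205.Global.Parity
import Vale.Agent.P205.Global.Data
import Vale.Agent.P205.Iter.Atlas

/-!
The normal field of generic data has an even number of zeros on each clopen part of the surface:
the zeros are the roots of `F p - F q + ε L q` on the diagonal, and the other roots come in pairs.
-/

noncomputable section

open Set Filter Topology Metric Module
open scoped ContDiff Manifold Quaternion

namespace Vale.Agent.P205.Global

/-- The first factor of joined coordinates. -/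
def fstCo (n m : ℕ) : Co (n + m) →L[ℝ] Co n :=
  ContinuousLinearMap.pi fun l =>
    ContinuousLinearMap.proj (R := ℝ) (φ := fun _ => ℝ) (Fin.castAdd m l)

/-- The second factor of joined coordinates. -/
def sndCo (n m : ℕ) : Co (n + m) →L[ℝ] Co m :=
  ContinuousLinearMap.pi fun l =>
    ContinuousLinearMap.proj (R := ℝ) (φ := fun _ => ℝ) (Fin.natAdd n l)

@[simp] theorem fstCo_apply {n m : ℕ} (x : Co (n + m)) (l : Fin n) :
    fstCo n m x l = x (Fin.castAdd m l) := rfl

@[simp] theorem sndCo_apply {n m : ℕ} (x : Co (n + m)) (l : Fin m) :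
    sndCo n m x l = x (Fin.natAdd n l) := rfl

theorem ext_co {n m : ℕ} {x y : Co (n + m)} (h₁ : fstCo n m x = fstCo n m y)
    (h₂ : sndCo n m x = sndCo n m y) : x = y := by
  funext l
  induction l using Fin.addCases with
  | left i => exact congrFun h₁ i
  | right i => exact congrFun h₂ i

/-- Pieces of a product. -/
def Pieces.prod {n m : ℕ} {W W' : Type} [TopologicalSpace W] [TopologicalSpace W']
    (S : Pieces n W) (T : Pieces m W') : Pieces (n + m) (W × W') where
  J := S.J × T.J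
  fin := inferInstance
  ψ p x := (S.ψ p.1 (fstCo n m x), T.ψ p.2 (sndCo n m x))
  dom p := fstCo n m ⁻¹' S.dom p.1 ∩ sndCo n m ⁻¹' T.dom p.2
  core p := fstCo n m ⁻¹' S.core p.1 ∩ sndCo n m ⁻¹' T.core p.2
  dom_open p := ((S.dom_open _).preimage (fstCo n m).continuous).inter
    ((T.dom_open _).preimage (sndCo n m).continuous)
  core_open p := ((S.core_open _).preimage (fstCo n m).continuous).inter
    ((T.core_open _).preimage (sndCo n m).continuous)
  core_sub p := inter_subset_inter (preimage_mono (S.core_sub _)) (preimage_mono (T.core_sub _))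
  ψ_cont p := ((S.ψ_cont _).comp (fstCo n m).continuous.continuousOn fun _ hx => hx.1).prodMk
    ((T.ψ_cont _).comp (sndCo n m).continuous.continuousOn fun _ hx => hx.2)
  ψ_inj p x hx y hy e := ext_co (S.ψ_inj _ hx.1 hy.1 (congrArg Prod.fst e))
    (T.ψ_inj _ hx.2 hy.2 (congrArg Prod.snd e))
  ψ_open p O hO hOd := by
    rw [isOpen_iff_mem_nhds]
    rintro _ ⟨x, hx, rfl⟩
    set j : Co n × Co m → Co (n + m) := fun y => Fin.append y.1 y.2 with hj
    have hjc : Continuous j := by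
      refine continuous_pi fun l => ?_
      induction l using Fin.addCases with
      | left i => simpa [hj] using (continuous_apply i).comp' continuous_fst
      | right i => simpa [hj] using (continuous_apply i).comp' continuous_snd
    have hjx : j (fstCo n m x, sndCo n m x) = x := Fin.append_castAdd_natAdd
    have hO' : j ⁻¹' O ∈ 𝓝 (fstCo n m x, sndCo n m x) :=
      hjc.continuousAt.preimage_mem_nhds (by rw [hjx]; exact hO.mem_nhds hx)
    obtain ⟨U, hU, V, hV, hUV⟩ := mem_nhds_prod_iff.1 hO'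
    refine mem_of_superset (prod_mem_nhds (S.ψ_nhds (hOd hx).1 hU) (T.ψ_nhds (hOd hx).2 hV)) ?_
    rintro ⟨_, _⟩ ⟨⟨a, ha, rfl⟩, b, hb, rfl⟩
    refine ⟨j (a, b), hUV ⟨ha, hb⟩, ?_⟩
    have e1 : fstCo n m (j (a, b)) = a := by ext l; simp [hj]
    have e2 : sndCo n m (j (a, b)) = b := by ext l; simp [hj]
    simp only [e1, e2]
  cover w := by
    obtain ⟨i, a, ha, e1⟩ := S.cover w.1
    obtain ⟨j, b, hb, e2⟩ := T.cover w.2
    have f1 : fstCo n m (Fin.append a b) = a := by ext l; simp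
    have f2 : sndCo n m (Fin.append a b) = b := by ext l; simp
    exact ⟨(i, j), Fin.append a b, ⟨by rw [mem_preimage, f1]; exact ha,
      by rw [mem_preimage, f2]; exact hb⟩, by simp only [f1, f2, e1, e2]⟩
  φ p t w := Option.elim t (S.φ p.1 none w.1 * T.φ p.2 none w.2) fun lb =>
    Fin.addCases (fun l => S.φ p.1 (some (l, lb.2)) w.1 * T.φ p.2 none w.2)
      (fun l => S.φ p.1 none w.1 * T.φ p.2 (some (l, lb.2)) w.2) lb.1
  φ_cont p t := by
    rcases t with _ | ⟨l, b⟩
    · exact ((S.φ_cont _ _).comp continuous_fst).mul ((T.φ_cont _ _).comp continuous_snd)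
    · induction l using Fin.addCases with
      | left i =>
        simpa using ((S.φ_cont p.1 (some (i, b))).comp continuous_fst).fun_mul
          ((T.φ_cont p.2 none).comp continuous_snd)
      | right i =>
        simpa using ((S.φ_cont p.1 none).comp continuous_fst).fun_mul
          ((T.φ_cont p.2 (some (i, b))).comp continuous_snd)
  φ_smooth p t q := by
    have h1 : ∀ s, ContDiffOn ℝ ∞ (fun x => S.φ p.1 s (S.ψ q.1 (fstCo n m x)))
        (fstCo n m ⁻¹' S.dom q.1 ∩ sndCo n m ⁻¹' T.dom q.2) := fun s =>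
      (S.φ_smooth _ _ _).comp (fstCo n m).contDiff.contDiffOn fun _ hx => hx.1
    have h2 : ∀ s, ContDiffOn ℝ ∞ (fun x => T.φ p.2 s (T.ψ q.2 (sndCo n m x)))
        (fstCo n m ⁻¹' S.dom q.1 ∩ sndCo n m ⁻¹' T.dom q.2) := fun s =>
      (T.φ_smooth _ _ _).comp (sndCo n m).contDiff.contDiffOn fun _ hx => hx.2
    rcases t with _ | ⟨l, b⟩
    · exact (h1 _).mul (h2 _)
    · induction l using Fin.addCases with
      | left i => simpa using (h1 (some (i, b))).mul (h2 none)
      | right i => simpa using (h1 none).mul (h2 (some (i, b)))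
  φ_core p x hx := by
    obtain ⟨a0, al⟩ := S.φ_core p.1 _ hx.1
    obtain ⟨b0, bl⟩ := T.φ_core p.2 _ hx.2
    refine ⟨by simp [a0, b0], fun l => ?_⟩
    induction l using Fin.addCases with
    | left i => simp [b0, (al i).1, (al i).2]
    | right i => simp [a0, (bl i).1, (bl i).2]

variable {M : Type} [TopologicalSpace M] [ChartedSpace Plane M] [T2Space M]

/-- Coordinates as points of the plane. -/
def toPlane : Co 2 ≃L[ℝ] Plane := (EuclideanSpace.equiv (Fin 2) ℝ).symm

/-- A bump on the plane. -/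
def bump2 : ContDiffBump (0 : Plane) := ⟨1, 2, one_pos, one_lt_two⟩

/-- The functions of the pieces of a surface. -/
def tagFun (t : Tag 2) (z : Plane) : ℝ :=
  bump2 z * Option.elim t 1 fun lb =>
    if lb.2 then toPlane.symm z lb.1 ^ 2 else toPlane.symm z lb.1

theorem contDiff_tagFun (t : Tag 2) : ContDiff ℝ ∞ (tagFun t) := by
  have hc : ∀ l, ContDiff ℝ ∞ fun z => toPlane.symm z l := fun l =>
    (contDiff_apply ℝ ℝ l).comp toPlane.symm.contDiff
  rcases t with _ | ⟨l, _ | _⟩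
  · exact bump2.contDiff.mul contDiff_const
  · exact bump2.contDiff.mul (hc l)
  · exact bump2.contDiff.mul ((hc l).pow 2)

theorem support_tagFun (t : Tag 2) : Function.support (tagFun t) ⊆ closedBall 0 2 := fun z hz =>
  ball_subset_closedBall (by
    have h : bump2 z ≠ 0 := left_ne_zero_of_mul hz
    rwa [← Function.mem_support, bump2.support_eq] at h)

/-- The pieces given by an atlas. -/
def atlasPieces (A : Iter.Atlas (E := Plane) (I := 𝓘(ℝ, Plane)) (M := M)) : Pieces 2 M where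
  J := A.ι
  fin := A.fin
  ψ j u := A.par j (toPlane u)
  dom _ := toPlane ⁻¹' ball 0 3
  core _ := toPlane ⁻¹' ball 0 1
  dom_open _ := isOpen_ball.preimage toPlane.continuous
  core_open _ := isOpen_ball.preimage toPlane.continuous
  core_sub _ := preimage_mono (ball_subset_ball (by norm_num))
  ψ_cont j := (A.par_smooth j).continuousOn.comp toPlane.continuous.continuousOn fun _ hu => hu
  ψ_inj j u hu v hv e := toPlane.injective (by
    rw [← A.inv_par j _ hu, ← A.inv_par j _ hv]; exact congrArg _ e)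
  ψ_open j O hO hOd := by
    have h : (fun u => A.par j (toPlane u)) '' O = A.src j ∩ A.inv j ⁻¹' (toPlane '' O) := by
      ext p
      constructor
      · rintro ⟨u, hu, rfl⟩
        exact ⟨A.par_mem j (hOd hu), u, hu, (A.inv_par j _ (hOd hu)).symm⟩
      · rintro ⟨hp, u, hu, e⟩
        refine ⟨u, hu, ?_⟩
        simp only [e, A.par_inv j p hp]
    rw [h]
    exact (A.inv_smooth j).continuousOn.isOpen_inter_preimage (A.src_open j)
      (toPlane.toHomeomorph.isOpenMap O hO)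
  cover p := by
    obtain ⟨j, -, hj⟩ := Finset.exists_ne_zero_of_sum_ne_zero
      (by rw [A.weight_sum p]; exact one_ne_zero : (∑ j, A.weight j p) ≠ 0)
    have h := A.weight_supp j (subset_tsupport _ hj)
    exact ⟨j, toPlane.symm (A.inv j p), by simpa using h.2, by simpa using A.par_inv j p h.1⟩
  φ j t := A.glue j (tagFun t)
  φ_cont j t := (A.glue_smooth j (contDiff_tagFun t) (support_tagFun t)).continuous
  φ_smooth i t j := (((A.glue_smooth i (contDiff_tagFun t) (support_tagFun t)).comp_contMDiffOn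
    (A.par_smooth j)).contDiffOn).comp toPlane.contDiff.contDiffOn fun _ hu => hu
  φ_core j u hu := by
    have h3 : toPlane u ∈ ball (0 : Plane) 3 := ball_subset_ball (by norm_num) hu
    have hb : bump2 (toPlane u) = 1 := bump2.one_of_mem_closedBall (ball_subset_closedBall hu)
    have h : ∀ t, A.glue j (tagFun t) (A.par j (toPlane u)) = tagFun t (toPlane u) := fun t => by
      rw [Iter.Atlas.glue, if_pos (A.par_mem j h3), A.inv_par j _ h3]
    exact ⟨by simp [h, tagFun, hb], fun l => by simp [h, tagFun, hb]⟩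

variable [IsManifold 𝓘(ℝ, Plane) ∞ M]
  (A : Iter.Atlas (E := Plane) (I := 𝓘(ℝ, Plane)) (M := M))

omit [IsManifold 𝓘(ℝ, Plane) ∞ M] [T2Space M] in
/-- Derivatives in a parametrisation factor through the differential of the parametrisation. -/
theorem chart_deriv {u : Co 2} {j : A.ι} (hu : toPlane u ∈ ball (0 : Plane) 3) :
    ∃ D : Co 2 → TangentSpace 𝓘(ℝ, Plane) (A.par j (toPlane u)), Function.Bijective D ∧ D 0 = 0 ∧
      ∀ G : M → ℍ[ℝ], ContMDiff 𝓘(ℝ, Plane) 𝓘(ℝ, ℍ[ℝ]) ∞ G → ∀ v,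
        fderiv ℝ (fun x => G (A.par j (toPlane x))) u v =
          dQ G (A.par j (toPlane u)) (D v) := by
  set ψ : Co 2 → M := fun x => A.par j (toPlane x)
  have hψ : MDifferentiableAt 𝓘(ℝ, Co 2) 𝓘(ℝ, Plane) ψ u :=
    (((A.par_smooth j).contMDiffAt (isOpen_ball.mem_nhds hu)).comp u
      toPlane.contDiff.contMDiff.contMDiffAt).mdifferentiableAt (by simp)
  have hq : MDifferentiableAt 𝓘(ℝ, Plane) 𝓘(ℝ, Plane) (A.inv j) (ψ u) :=
    ((A.inv_smooth j).contMDiffAt
      ((A.src_open j).mem_nhds (A.par_mem j hu))).mdifferentiableAt (by simp)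
  set T : Co 2 →L[ℝ] Plane := mfderiv 𝓘(ℝ, Co 2) 𝓘(ℝ, Plane) ψ u with hT
  have hi : Function.Injective T := fun a b hab => by
    have h1 : mfderiv 𝓘(ℝ, Co 2) 𝓘(ℝ, Plane) (A.inv j ∘ ψ) u =
        (toPlane : Co 2 →L[ℝ] Plane) := by
      have he : A.inv j ∘ ψ =ᶠ[𝓝 u] toPlane :=
        eventually_of_mem ((isOpen_ball.preimage toPlane.continuous).mem_nhds hu)
          fun x hx => A.inv_par j _ hx
      rw [he.mfderiv_eq, mfderiv_eq_fderiv]
      exact toPlane.fderiv
    rw [mfderiv_comp u hq hψ, ← hT] at h1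
    apply toPlane.injective
    change (toPlane : Co 2 →L[ℝ] Plane) a = (toPlane : Co 2 →L[ℝ] Plane) b
    rw [← h1]
    exact congrArg (mfderiv 𝓘(ℝ, Plane) 𝓘(ℝ, Plane) (A.inv j) (ψ u)) hab
  refine ⟨fun v => T v, ⟨hi, fun y => ?_⟩, map_zero T, fun G hG v => ?_⟩
  · exact (LinearMap.injective_iff_surjective_of_finrank_eq_finrank
      (f := (T : Co 2 →ₗ[ℝ] Plane)) (by simp)).1 hi y
  · have h := mfderiv_comp u ((hG.contMDiffAt (x := ψ u)).mdifferentiableAt (by simp)) hψ
    rw [mfderiv_eq_fderiv] at h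
    exact DFunLike.congr_fun h v

/-- The part of `M × M` in which all roots of the perturbed chords are diagonal. -/
def diagSet (F L : M → ℍ[ℝ]) : Set (M × M) :=
  {w | ∀ ε : ℝ, F w.1 - F w.2 + ε • L w.2 = 0 → w.1 = w.2}

omit [IsManifold 𝓘(ℝ, Plane) ∞ M] [T2Space M] in
/-- The composition with a parametrisation, and what the data say about it. -/
theorem chart_facts {F L : M → ℍ[ℝ]} (h : IsGeneric F L) (j : A.ι) :
    ContDiffOn ℝ ∞ (fun x => F (A.par j (toPlane x))) (toPlane ⁻¹' ball 0 3) ∧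
    ContDiffOn ℝ ∞ (fun x => L (A.par j (toPlane x))) (toPlane ⁻¹' ball 0 3) ∧
    ∀ u ∈ toPlane ⁻¹' ball (0 : Plane) 3,
      Function.Injective (fderiv ℝ (fun x => F (A.par j (toPlane x))) u) ∧
      ∀ v, inner ℝ (L (A.par j (toPlane u)))
        (fderiv ℝ (fun x => F (A.par j (toPlane x))) u v) = 0 := by
  refine ⟨((h.smoothF.comp_contMDiffOn (A.par_smooth j)).contDiffOn).comp
      toPlane.contDiff.contDiffOn fun _ hu => hu,
    ((h.smoothL.comp_contMDiffOn (A.par_smooth j)).contDiffOn).comp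
      toPlane.contDiff.contDiffOn fun _ hu => hu, fun u hu => ?_⟩
  obtain ⟨D, hDb, -, hD⟩ := chart_deriv A (j := j) hu
  exact ⟨fun a b hab =>
      hDb.1 (h.imm _ ((hD F h.smoothF a).symm.trans (hab.trans (hD F h.smoothF b)))),
    fun v => by rw [hD F h.smoothF v]; exact h.normal _ _⟩

omit [IsManifold 𝓘(ℝ, Plane) ∞ M] in
/-- At a zero the differential of the field is normal. -/
theorem ortho_at_zero {F L : M → ℍ[ℝ]} (h : IsGeneric F L)
    (A : Iter.Atlas (E := Plane) (I := 𝓘(ℝ, Plane)) (M := M)) {p : M} (hp : L p = 0)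
    (k v : TangentSpace 𝓘(ℝ, Plane) p) : inner ℝ (dQ L p k) (dQ F p v) = 0 := by
  obtain ⟨j, u, hu, rfl⟩ : ∃ (j : A.ι) (u : Co 2), u ∈ toPlane ⁻¹' ball (0 : Plane) 1 ∧
      A.par j (toPlane u) = p := (atlasPieces A).cover p
  have hud : u ∈ toPlane ⁻¹' ball (0 : Plane) 3 := ball_subset_ball (by norm_num : (1:ℝ) ≤ 3) hu
  obtain ⟨D, hDb, -, hD⟩ := chart_deriv A (j := j) hud
  obtain ⟨k', rfl⟩ := hDb.2 k
  obtain ⟨v', rfl⟩ := hDb.2 v
  change inner ℝ (dQ L (A.par j (toPlane u)) (D k')) (dQ F (A.par j (toPlane u)) (D v')) = 0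
  rw [← hD L h.smoothL, ← hD F h.smoothF]
  obtain ⟨hf, hs, hfs⟩ := chart_facts A h j
  have hdo : IsOpen (toPlane ⁻¹' ball (0 : Plane) 3) := isOpen_ball.preimage toPlane.continuous
  have hat := hf.contDiffAt (hdo.mem_nhds hud)
  have hev : (fun x => inner ℝ (L (A.par j (toPlane x)))
      (fderiv ℝ (fun x => F (A.par j (toPlane x))) x v')) =ᶠ[𝓝 u] fun _ => (0 : ℝ) :=
    eventually_of_mem (hdo.mem_nhds hud) fun x hx => (hfs x hx).2 v'
  have hder := ((hs.contDiffAt (hdo.mem_nhds hud)).differentiableAt (by simp)).hasFDerivAt.inner ℝ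
    (((hat.fderiv_right (m := 1) (WithTop.coe_le_coe.2 le_top)).clm_apply (contDiffAt_const (c := v')) ).differentiableAt
      (by simp)).hasFDerivAt
  have h3 := congrArg (fun T => T k')
    (hder.fderiv.symm.trans (hev.fderiv_eq.trans (fderiv_const_apply (0 : ℝ))))
  have hp' : L (A.par j (toPlane u)) = 0 := hp
  simpa [hp'] using h3

theorem two_inner_pos {E : Type*} [NormedAddCommGroup E] [InnerProductSpace ℝ E] {x a b : E}
    (hx : x ≠ 0) (ha : ‖a‖ ≤ ‖x‖ / 4) (hb : ‖b‖ ≤ ‖x‖ / 4) : inner ℝ (x + a) (x + b) ≠ 0 := by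
  have hpos : 0 < ‖x‖ := norm_pos_iff.2 hx
  rw [inner_add_left, inner_add_right, inner_add_right, real_inner_self_eq_norm_sq]
  nlinarith [abs_le.1 (abs_real_inner_le_norm x b), abs_le.1 (abs_real_inner_le_norm a x),
    abs_le.1 (abs_real_inner_le_norm a b), norm_nonneg a, norm_nonneg b]

theorem eventually_fderiv_near {X V : Type*} [NormedAddCommGroup X] [NormedSpace ℝ X]
    [NormedAddCommGroup V] [NormedSpace ℝ V] {f : X → V} {u : X}
    (hc : ContinuousAt (fderiv ℝ f) u) {η : ℝ} (hη : 0 < η) :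
    ∀ᶠ x in 𝓝 u, ‖fderiv ℝ f x - fderiv ℝ f u‖ ≤ η :=
  (hc.sub continuousAt_const).norm.eventually_le_const (by simpa using hη)

omit [IsManifold 𝓘(ℝ, Plane) ∞ M] in
/-- Near the diagonal there are only diagonal roots. -/
theorem diagonal_subset {F L : M → ℍ[ℝ]} (h : IsGeneric F L)
    (A : Iter.Atlas (E := Plane) (I := 𝓘(ℝ, Plane)) (M := M)) :
    diagonal M ⊆ interior (diagSet F L) := by
  rintro ⟨p, q⟩ (rfl : p = q)
  set S := atlasPieces A with hS
  set f : A.ι → Co 2 → ℍ[ℝ] := fun j x => F (A.par j (toPlane x)) with hf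
  set s : A.ι → Co 2 → ℍ[ℝ] := fun j x => L (A.par j (toPlane x)) with hs
  set d : Set (Co 2) := toPlane ⁻¹' ball 0 3 with hd
  have hdo : IsOpen d := isOpen_ball.preimage toPlane.continuous
  have hfs : ∀ j, ContDiffOn ℝ ∞ (f j) d := fun j => (chart_facts A h j).1
  have hfi : ∀ j, ∀ u ∈ d, Function.Injective (fderiv ℝ (f j) u) := fun j u hu =>
    ((chart_facts A h j).2.2 u hu).1
  have hn : ∀ j, ∀ u ∈ d, ∀ v, inner ℝ (s j u) (fderiv ℝ (f j) u v) = 0 := fun j u hu =>
    ((chart_facts A h j).2.2 u hu).2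
  obtain ⟨j, u, hu, e⟩ : ∃ (j : A.ι) (u : Co 2), u ∈ toPlane ⁻¹' ball (0 : Plane) 1 ∧
      A.par j (toPlane u) = p := S.cover p
  have hud : u ∈ d := ball_subset_ball (by norm_num) hu
  have hat : ContDiffAt ℝ ∞ (f j) u := (hfs j).contDiffAt (hdo.mem_nhds hud)
  set B := fderiv ℝ (f j) u with hB
  obtain ⟨c, hc0, hc⟩ := B.exists_antilipschitzWith
    (LinearMap.ker_eq_bot.2 (hfi j u hud))
  set η : ℝ := 1 / (4 * c) with hη
  have hcR : (0 : ℝ) < c := hc0
  have hη0 : 0 < η := by positivity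
  have h1 : ∀ᶠ z in 𝓝 (u, u), ‖f j z.1 - f j z.2 - B (z.1 - z.2)‖ ≤ η * ‖z.1 - z.2‖ :=
    (hat.hasStrictFDerivAt (by simp)).isLittleO.def hη0
  have h2 : ∀ᶠ z in 𝓝 (u, u), ‖fderiv ℝ (f j) z.2 - B‖ ≤ η ∧ z.1 ∈ d ∧ z.2 ∈ d := by
    have hcd : ContinuousAt (fderiv ℝ (f j)) u :=
      (hat.fderiv_right (m := 0) (by simp)).continuousAt
    have e1 : ∀ᶠ x in 𝓝 u, ‖fderiv ℝ (f j) x - B‖ ≤ η :=
      eventually_fderiv_near hcd hη0
    have t1 : Tendsto (Prod.fst : Co 2 × Co 2 → Co 2) (𝓝 (u, u)) (𝓝 u) := continuous_fst.tendsto _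
    have t2 : Tendsto (Prod.snd : Co 2 × Co 2 → Co 2) (𝓝 (u, u)) (𝓝 u) := continuous_snd.tendsto _
    exact (t2.eventually e1).and
      ((t1.eventually (hdo.mem_nhds hud)).and (t2.eventually (hdo.mem_nhds hud)))
  obtain ⟨U, hU, V, hV, hUV⟩ := mem_nhds_prod_iff.1 (h1.and h2)
  rw [mem_interior_iff_mem_nhds, ← e]
  have hUn : (fun x => A.par j (toPlane x)) '' U ∈ 𝓝 (A.par j (toPlane u)) :=
    S.ψ_nhds (j := j) hud hU
  have hVn : (fun x => A.par j (toPlane x)) '' V ∈ 𝓝 (A.par j (toPlane u)) :=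
    S.ψ_nhds (j := j) hud hV
  refine mem_of_superset (prod_mem_nhds hUn hVn) ?_
  rintro ⟨_, _⟩ ⟨⟨x, hx, rfl⟩, y, hy, rfl⟩ ε h0
  obtain ⟨hr, hD', -, hyd⟩ := hUV (mk_mem_prod hx hy)
  simp only at hr hD' hyd
  by_contra hne
  have hxy : x - y ≠ 0 := sub_ne_zero.2 fun exy => hne (by rw [exy])
  have hBc : ‖x - y‖ ≤ c * ‖B (x - y)‖ := by
    simpa using hc.le_mul_dist (x - y) 0
  set a := f j x - f j y - B (x - y) with ha
  set b := fderiv ℝ (f j) y (x - y) - B (x - y) with hb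
  have hb' : ‖b‖ ≤ η * ‖x - y‖ :=
    ((fderiv ℝ (f j) y - B).le_opNorm (x - y)).trans
      (mul_le_mul_of_nonneg_right hD' (norm_nonneg _))
  have hηb : η * ‖x - y‖ ≤ ‖B (x - y)‖ / 4 := by
    rw [hη, div_mul_eq_mul_div, one_mul, div_le_div_iff₀ (by positivity) (by norm_num)]
    nlinarith
  have hzero : inner ℝ (B (x - y) + a) (B (x - y) + b) = 0 := by
    have e1 : B (x - y) + a = -(ε • s j y) := by
      rw [ha, add_sub_cancel]
      exact eq_neg_of_add_eq_zero_left h0
    rw [e1, hb, add_sub_cancel, inner_neg_left, real_inner_smul_left, hn j y hyd, mul_zero,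
      neg_zero]
  refine two_inner_pos ?_ (hr.trans hηb) (hb'.trans hηb) hzero
  rw [← norm_pos_iff]
  have : 0 < ‖x - y‖ := norm_pos_iff.2 hxy
  nlinarith

/-- **Even number of zeros** of a generic normal field on every clopen part. -/
theorem even_zeros [CompactSpace M] {F L : M → ℍ[ℝ]} (h : IsGeneric F L) {C : Set M}
    (hC : IsClopen C) : Even ({p | L p = 0} ∩ C).ncard := by
  classical
  obtain ⟨A⟩ := Iter.nonempty_atlas (I := 𝓘(ℝ, Plane)) (M := M)
    (ContinuousLinearEquiv.refl ℝ Plane)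
  set S := atlasPieces A with hS
  set P : Pieces 4 (M × M) := S.prod S with hP
  set f : A.ι → Co 2 → ℍ[ℝ] := fun j x => F (A.par j (toPlane x)) with hf
  set s : A.ι → Co 2 → ℍ[ℝ] := fun j x => L (A.par j (toPlane x)) with hs
  set d : Set (Co 2) := toPlane ⁻¹' ball 0 3 with hd
  have hdo : IsOpen d := isOpen_ball.preimage toPlane.continuous
  have hfs : ∀ j, ContDiffOn ℝ ∞ (f j) d := fun j => (chart_facts A h j).1
  have hss : ∀ j, ContDiffOn ℝ ∞ (s j) d := fun j => (chart_facts A h j).2.1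
  set O : Set (M × M) := interior (diagSet F L) with hO
  have hdiag : diagonal M ⊆ O := diagonal_subset h A
  have hroot : ∀ w ∈ O, ∀ ε : ℝ, F w.1 - F w.2 + ε • L w.2 = 0 → w.1 = w.2 := fun w hw =>
    (interior_subset (hO ▸ hw) :)
  obtain ⟨O', hO'o, hdO', hO'c⟩ :=
    normal_exists_closure_subset isClosed_diagonal isOpen_interior hdiag
  -- the map in coordinates
  set Φ : ℍ[ℝ] ≃L[ℝ] Co 4 := ContinuousLinearEquiv.ofFinrankEq (by
    rw [Quaternion.finrank_eq_four, finrank_fin_fun]) with hΦ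
  set G : (M × M) × ℝ → Co 4 := fun x =>
    if x.1 ∈ C ×ˢ C then Φ (F x.1.1 - F x.1.2 + x.2 • L x.1.2) else fun _ => 1 with hG
  have hCC : IsClopen (C ×ˢ C) := hC.prod hC
  have hGc : Continuous G := by
    have hopen : IsClopen {x : (M × M) × ℝ | x.1 ∈ C ×ˢ C} := hCC.preimage continuous_fst
    refine continuous_if (fun x hx => ?_) ?_ continuousOn_const
    · rw [hopen.frontier_eq] at hx
      exact hx.elim
    · have hF := h.smoothF.continuous
      have hL := h.smoothL.continuous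
      exact (Φ.continuous.comp (by fun_prop)).continuousOn
  have hloc : ∀ j : P.J, ∀ x ∈ P.dom j, P.ψ j x ∈ C ×ˢ C → ∀ q : ℝ,
      (fun z : Co 4 × ℝ => G (P.ψ j z.1, z.2)) =ᶠ[𝓝 (x, q)] fun z => Φ (f j.1 (fstCo 2 2 z.1) -
        f j.2 (sndCo 2 2 z.1) + z.2 • s j.2 (sndCo 2 2 z.1)) := fun j x hx hm q => by
    have h0 := ((P.ψ_cont j).continuousAt ((P.dom_open j).mem_nhds hx)).preimage_mem_nhds
      (hCC.isOpen.mem_nhds hm)
    filter_upwards [continuous_fst.continuousAt.preimage_mem_nhds h0] with z hz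
    exact if_pos hz
  have hGs : ∀ j, ContDiffOn ℝ 2 (fun x : Co 4 × ℝ => G (P.ψ j x.1, x.2))
      (P.dom j ×ˢ univ) := fun j => by
    rintro ⟨x, q⟩ ⟨hx, -⟩
    refine ContDiffAt.contDiffWithinAt ?_
    by_cases hm : P.ψ j x ∈ C ×ˢ C
    · refine ContDiffAt.congr_of_eventuallyEq ?_ (hloc j x hx hm q)
      have a1 : ContDiffAt ℝ 2 (fun z : Co 4 × ℝ => f j.1 (fstCo 2 2 z.1)) (x, q) :=
        ContDiffAt.comp (g := f j.1) (x, q)
          (((hfs j.1).contDiffAt (hdo.mem_nhds hx.1)).of_le (WithTop.coe_le_coe.2 le_top))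
          ((fstCo 2 2).contDiff.comp contDiff_fst).contDiffAt
      have a2 : ContDiffAt ℝ 2 (fun z : Co 4 × ℝ => f j.2 (sndCo 2 2 z.1)) (x, q) :=
        ContDiffAt.comp (g := f j.2) (x, q)
          (((hfs j.2).contDiffAt (hdo.mem_nhds hx.2)).of_le (WithTop.coe_le_coe.2 le_top))
          ((sndCo 2 2).contDiff.comp contDiff_fst).contDiffAt
      have a3 : ContDiffAt ℝ 2 (fun z : Co 4 × ℝ => s j.2 (sndCo 2 2 z.1)) (x, q) :=
        ContDiffAt.comp (g := s j.2) (x, q)
          (((hss j.2).contDiffAt (hdo.mem_nhds hx.2)).of_le (WithTop.coe_le_coe.2 le_top))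
          ((sndCo 2 2).contDiff.comp contDiff_fst).contDiffAt
      exact Φ.contDiff.contDiffAt.comp (x, q) ((a1.sub a2).add (contDiffAt_snd.smul a3))
    · refine (contDiffAt_const (c := fun _ : Fin 4 => (1 : ℝ))).congr_of_eventuallyEq ?_
      have h0 := ((P.ψ_cont j).continuousAt ((P.dom_open j).mem_nhds hx)).preimage_mem_nhds
        (hCC.isClosed.isOpen_compl.mem_nhds hm)
      filter_upwards [continuous_fst.continuousAt.preimage_mem_nhds h0] with z hz
      exact if_neg hz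
  have hG0 : ∀ w (ε : ℝ), G (w, ε) = 0 ↔
      (w.1 ∈ C ∧ w.2 ∈ C) ∧ F w.1 - F w.2 + ε • L w.2 = 0 := fun w ε => by
    by_cases hw : w ∈ C ×ˢ C
    · simp only [hG, if_pos hw, map_eq_zero_iff _ Φ.injective]
      exact ⟨fun e => ⟨hw, e⟩, And.right⟩
    · simp only [hG, if_neg hw]
      exact ⟨fun e => (one_ne_zero (congrFun e 0)).elim, fun e => absurd e.1 hw⟩
  have hreg : ∀ w (ε : ℝ), G (w, ε) = 0 →
      (∀ v₁ v₂, dQ F w.1 v₁ - dQ F w.2 v₂ + ε • dQ L w.2 v₂ = 0 → v₁ = 0 ∧ v₂ = 0) →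
      P.Reg (fun y => G (y, ε)) w := fun w ε hw hker => by
    obtain ⟨j, x, hxc, rfl⟩ := P.cover w
    have hx := P.core_sub j hxc
    refine ⟨j, x, hx, rfl, ?_⟩
    have hm : P.ψ j x ∈ C ×ˢ C := ((hG0 _ _).1 hw).1
    have hev : (fun z => G (P.ψ j z, ε)) =ᶠ[𝓝 x]
        fun z => Φ (f j.1 (fstCo 2 2 z) - f j.2 (sndCo 2 2 z) + ε • s j.2 (sndCo 2 2 z)) :=
      (continuous_id.prodMk continuous_const).continuousAt.eventually (hloc j x hx hm ε)
    have d1 := ((hfs j.1).contDiffAt (hdo.mem_nhds hx.1)).differentiableAt (by simp)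
    have d2 := ((hfs j.2).contDiffAt (hdo.mem_nhds hx.2)).differentiableAt (by simp)
    have d3 := ((hss j.2).contDiffAt (hdo.mem_nhds hx.2)).differentiableAt (by simp)
    have b1 : HasFDerivAt (fun z => f j.1 (fstCo 2 2 z)) _ x :=
      d1.hasFDerivAt.comp x (fstCo 2 2).hasFDerivAt
    have b2 : HasFDerivAt (fun z => f j.2 (sndCo 2 2 z)) _ x :=
      d2.hasFDerivAt.comp x (sndCo 2 2).hasFDerivAt
    have b3 : HasFDerivAt (fun z => s j.2 (sndCo 2 2 z)) _ x :=
      d3.hasFDerivAt.comp x (sndCo 2 2).hasFDerivAt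
    have hdiff : HasFDerivAt (fun z =>
        Φ (f j.1 (fstCo 2 2 z) - f j.2 (sndCo 2 2 z) + ε • s j.2 (sndCo 2 2 z))) _ x :=
      (Φ : ℍ[ℝ] →L[ℝ] Co 4).hasFDerivAt.comp x ((b1.sub b2).add (b3.const_smul ε))
    rw [hev.fderiv_eq, hdiff.fderiv]
    refine (injective_iff_map_eq_zero _).2 fun v hv => ?_
    simp only [ContinuousLinearMap.comp_apply, add_apply, sub_apply, smul_apply,
      ContinuousLinearEquiv.coe_coe, map_eq_zero_iff _ Φ.injective] at hv
    obtain ⟨D₁, hD₁b, z1, hD₁⟩ := chart_deriv A (j := j.1) hx.1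
    obtain ⟨D₂, hD₂b, z2, hD₂⟩ := chart_deriv A (j := j.2) hx.2
    rw [hD₁ F h.smoothF, hD₂ F h.smoothF, hD₂ L h.smoothL] at hv
    obtain ⟨e1, e2⟩ := hker _ _ hv
    exact ext_co ((hD₁b.1 (e1.trans z1.symm)).trans (map_zero _).symm)
      ((hD₂b.1 (e2.trans z2.symm)).trans (map_zero _).symm)
  have hortho : ∀ p, L p = 0 → ∀ k v, inner ℝ (dQ L p k) (dQ F p v) = 0 := fun p hp =>
    ortho_at_zero h A hp
  -- count
  set K : Set (M × M) := O'ᶜ with hK
  have hKint : ∀ w ∈ K, G (w, (0 : ℝ)) = 0 → K ∈ 𝓝 w := fun w hwK hw => by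
    have hne : w.1 ≠ w.2 := fun e => hwK (hdO' e)
    have hwc : w ∉ closure O' := fun hc =>
      hne (hroot w (hO'c hc) 0 ((hG0 w 0).1 hw).2)
    exact mem_of_superset (isClosed_closure.isOpen_compl.mem_nhds hwc)
      (compl_subset_compl.2 subset_closure)
  obtain ⟨T, hT, hev⟩ := roots_glue_on (W := M × M) hO'o.isClosed_compl.isCompact hGc hKint
    (F := 𝓝[≠] (0 : ℝ)) nhdsWithin_le_nhds (c := fun _ => 1) (good := fun y q => P.Reg (fun z => G (z, q)) y)
    fun w hwK hw N hN => by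
      have hne : w.1 ≠ w.2 := fun e => hwK (hdO' e)
      have hFF : F w.1 = F w.2 := by simpa [sub_eq_zero] using ((hG0 w 0).1 hw).2
      obtain ⟨U, hU, hUN, hu1, he⟩ := P.regular_local hGs hw (hreg w 0 hw fun v₁ v₂ e => by
        rw [zero_smul, add_zero, sub_eq_zero] at e
        exact h.transversal _ _ hne hFF v₁ v₂ e) hN
      exact ⟨U, hU, hUN, hu1, he.filter_mono nhdsWithin_le_nhds⟩
  have hTeven : (∑ _w ∈ T, 1) % 2 = 0 := by
    have h2 : (∑ _w ∈ T, (1 : ZMod 2)) = 0 := by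
      refine Finset.sum_involution (fun w _ => w.swap) (fun w _ => rfl) (fun w hw _ e => ?_)
        (fun w hw => ?_) fun w _ => Prod.swap_swap w
      · exact ((hT w).1 hw).1 (hdO' (congrArg Prod.snd e))
      · obtain ⟨hwK, hw0⟩ := (hT w).1 hw
        obtain ⟨⟨hc1, hc2⟩, hF0⟩ := (hG0 w 0).1 hw0
        have hne : w.1 ≠ w.2 := fun e => hwK (hdO' e)
        refine (hT _).2 ⟨fun hmem => ?_, (hG0 _ 0).2 ⟨⟨hc2, hc1⟩, ?_⟩⟩
        · exact hne (hroot w.swap (hO'c (subset_closure hmem)) 0 (by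
            simpa [sub_eq_zero, eq_comm] using hF0)).symm
        · simpa [sub_eq_zero, eq_comm] using hF0
    rw [Finset.sum_const, nsmul_one, ZMod.natCast_eq_zero_iff_even] at h2
    simpa using Nat.even_iff.1 h2
  obtain ⟨ε, ⟨hfinK, hparK, hregK⟩, hε⟩ := (hev.and self_mem_nhdsWithin).exists
  have hε0 : ε ≠ 0 := hε
  have hdiagR : ∀ z, L z = 0 → z ∈ C → G ((z, z), ε) = 0 := fun z hz hzC =>
    (hG0 _ _).2 ⟨⟨hzC, hzC⟩, by simp [hz]⟩
  have hsplit : {w | G (w, ε) = 0} =
      (fun z => (z, z)) '' ({p | L p = 0} ∩ C) ∪ {w ∈ K | G (w, ε) = 0} := by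
    refine Subset.antisymm (fun w hw => ?_) ?_
    · by_cases hwK : w ∈ K
      · exact .inr ⟨hwK, hw⟩
      · obtain ⟨hcc, hF0⟩ := (hG0 w ε).1 hw
        have e := hroot w (hO'c (subset_closure (not_not.1 hwK))) ε hF0
        obtain ⟨a, b⟩ := w
        cases e
        refine .inl ⟨a, ⟨?_, hcc.1⟩, rfl⟩
        simpa [hε0] using hF0
    · rintro w (⟨z, ⟨hz, hzC⟩, rfl⟩ | ⟨-, hw⟩)
      exacts [hdiagR z hz hzC, hw]
  have hall : ∀ w, G (w, ε) = 0 → w ∈ K ∨ w.1 = w.2 := fun w hw => by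
    by_cases hwK : w ∈ K
    · exact .inl hwK
    · exact .inr (hroot w (hO'c (subset_closure (not_not.1 hwK))) ε ((hG0 w ε).1 hw).2)
  have hSm : P.Sm fun w => G (w, ε) := by
    refine ⟨hGc.comp (continuous_id.prodMk continuous_const), fun j x hx => ?_⟩
    refine ContDiffAt.contDiffWithinAt ?_
    by_cases hm : P.ψ j x ∈ C ×ˢ C
    · have hev : (fun z => G (P.ψ j z, ε)) =ᶠ[𝓝 x]
          fun z => Φ (f j.1 (fstCo 2 2 z) - f j.2 (sndCo 2 2 z) + ε • s j.2 (sndCo 2 2 z)) :=
        (continuous_id.prodMk continuous_const).continuousAt.eventually (hloc j x hx hm ε)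
      refine ContDiffAt.congr_of_eventuallyEq ?_ hev
      exact Φ.contDiff.contDiffAt.comp x
        (((((hfs j.1).contDiffAt (hdo.mem_nhds hx.1)).comp x (fstCo 2 2).contDiff.contDiffAt).sub
          (((hfs j.2).contDiffAt (hdo.mem_nhds hx.2)).comp x (sndCo 2 2).contDiff.contDiffAt)).add
          ((ContDiffAt.comp (g := s j.2) x ((hss j.2).contDiffAt (hdo.mem_nhds hx.2))
            (sndCo 2 2).contDiff.contDiffAt).const_smul ε))
    · refine (contDiffAt_const (c := fun _ : Fin 4 => (1 : ℝ))).congr_of_eventuallyEq ?_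
      have h0 := ((P.ψ_cont j).continuousAt ((P.dom_open j).mem_nhds hx)).preimage_mem_nhds
        (hCC.isClosed.isOpen_compl.mem_nhds hm)
      filter_upwards [h0] with z hz
      exact if_neg hz
  obtain ⟨-, heven⟩ := P.even_regular_zeros (by norm_num) hSm fun w hw => by
    rcases hall w hw with hwK | hwd
    · exact hregK w hwK hw
    · refine hreg w ε hw fun v₁ v₂ e => ?_
      obtain ⟨a, b⟩ := w
      cases hwd
      have hLa : L a = 0 := by simpa [hε0] using ((hG0 _ ε).1 hw).2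
      have hxy : inner ℝ (dQ F a v₁ - dQ F a v₂) (ε • dQ L a v₂) = 0 := by
        rw [inner_sub_left, real_inner_smul_right, real_inner_smul_right,
          real_inner_comm _ (dQ F a v₁), real_inner_comm _ (dQ F a v₂), hortho a hLa, hortho a hLa]
        simp
      have hx0 : dQ F a v₁ - dQ F a v₂ = 0 := by
        have h2 : inner ℝ (dQ F a v₁ - dQ F a v₂) (dQ F a v₁ - dQ F a v₂) = (0 : ℝ) := by
          have h3 := congrArg (fun z => inner ℝ (dQ F a v₁ - dQ F a v₂) z) e
          simp only [inner_add_right, hxy, add_zero, inner_zero_right] at h3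
          exact h3
        exact inner_self_eq_zero.1 h2
      rw [hx0, zero_add, smul_eq_zero_iff_right hε0] at e
      have hv2 : v₂ = 0 := h.regular a hLa (e.trans (map_zero _).symm)
      exact ⟨(h.imm a (sub_eq_zero.1 hx0)).trans hv2, hv2⟩
  have hdisj : Disjoint ((fun z => (z, z)) '' ({p | L p = 0} ∩ C)) {w ∈ K | G (w, ε) = 0} := by
    rw [disjoint_left]
    rintro _ ⟨z, -, rfl⟩ ⟨hzK, -⟩
    exact hzK (hdO' rfl)
  have hfinD : ((fun z => (z, z)) '' ({p | L p = 0} ∩ C)).Finite :=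
    (h.finite.inter_of_left C).image _
  rw [hsplit, ncard_union_eq hdisj hfinD hfinK,
    ncard_image_of_injective _ (fun a b e => congrArg Prod.fst e), Nat.even_iff] at heven
  rw [Nat.even_iff]
  rw [← hK] at hparK
  omega

end Vale.Agent.P205.Global
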