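import Vale.Agent.P205.Global.Double
import Vale.Agent.P205.Global.Zeros
import Vale.Agent.P205.Global.GenericData

/-!
A formal immersion of every compact surface in three-space: an injective one-form with values in
`ℝ³`. It is `Im (conj L dF)` for generic data `(F, L)`, after the zeros of `L`, of even number on
each component, have been merged in pairs into removable or double zeros.
-/

noncomputable section

open Set Filter Metric Function
open scoped Topology ContDiff Manifold Quaternion ComplexConjugate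

namespace Vale.Agent.P205.Global

variable {M : Type} [TopologicalSpace M] [ChartedSpace Plane M]

/-- The merged pair of model factors. -/
def mergeFun (σ₀ σ₁ : Bool) (d z : ℂ) : ℂ :=
  (Disc.model σ₀ (z - d) + Disc.step d ‖d‖ (2 * ‖d‖) z • Disc.model σ₀ d) *
      (Disc.model σ₁ (z - d) - Disc.step d ‖d‖ (2 * ‖d‖) z • Disc.model σ₁ d) +
    if σ₀ = σ₁ then 0 else ((1 - Disc.step d (‖d‖ / 2) ‖d‖ z : ℝ) : ℂ)

theorem contDiff_mergeFun (σ₀ σ₁ : Bool) (d : ℂ) : ContDiff ℝ ∞ (mergeFun σ₀ σ₁ d) := by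
  have hm : ∀ σ, ContDiff ℝ ∞ fun z : ℂ => Disc.model σ (z - d) := fun σ =>
    (Disc.model σ).contDiff.comp (contDiff_id.sub contDiff_const)
  refine (((hm σ₀).add ((Disc.contDiff_step _ _ _).smul contDiff_const)).mul
    ((hm σ₁).sub ((Disc.contDiff_step _ _ _).smul contDiff_const))).add ?_
  by_cases h : σ₀ = σ₁
  · simp only [if_pos h]
    exact contDiff_const
  · simp only [if_neg h]
    exact Complex.ofRealCLM.contDiff.comp (contDiff_const.sub (Disc.contDiff_step _ _ _))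

theorem mergeFun_outside (σ₀ σ₁ : Bool) {d z : ℂ} (hd : d ≠ 0) (h : 2 * ‖d‖ ≤ ‖z - d‖) :
    mergeFun σ₀ σ₁ d z = Disc.model σ₀ z * Disc.model σ₁ (z - 2 * d) := by
  have hd' := norm_pos_iff.2 hd
  rw [mergeFun, Disc.step_one (norm_nonneg d) (by linarith) h,
    Disc.step_one (by positivity) (by linarith) (by linarith)]
  simp only [sub_self, Complex.ofReal_zero, ite_self, add_zero, one_smul, ← map_add, ← map_sub]
  congr 2 <;> ring_nf

theorem mergeFun_zero (σ₀ σ₁ : Bool) {d z : ℂ} (hd : d ≠ 0) (h : mergeFun σ₀ σ₁ d z = 0) :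
    σ₀ = σ₁ ∧ z = d := by
  have hd' := norm_pos_iff.2 hd
  set w := z - d with hw
  by_cases hin : ‖w‖ ≤ ‖d‖
  · rw [mergeFun, Disc.step_zero (norm_nonneg d) (by linarith) hin] at h
    simp only [zero_smul, add_zero, sub_zero] at h
    by_cases hσ : σ₀ = σ₁
    · refine ⟨hσ, ?_⟩
      subst hσ
      rw [if_pos rfl, add_zero] at h
      exact sub_eq_zero.1 (by_contra fun hne =>
        mul_ne_zero (Disc.model_ne hne) (Disc.model_ne hne) h)
    · rw [if_neg hσ] at h
      have hnn := Disc.step_mem d z (‖d‖ / 2) ‖d‖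
      have hprod : Disc.model σ₀ w * Disc.model σ₁ w = ((‖w‖ ^ 2 : ℝ) : ℂ) := by
        rw [← Complex.normSq_eq_norm_sq]
        cases σ₀ <;> cases σ₁ <;> first
          | exact absurd rfl hσ
          | simp [Disc.model, Complex.mul_conj, ← Complex.normSq_eq_conj_mul_self]
      rw [hprod, ← Complex.ofReal_add, Complex.ofReal_eq_zero] at h
      exfalso
      have hw0 : ‖w‖ = 0 := by nlinarith [hnn.2, norm_nonneg w]
      rw [Disc.step_zero (by positivity) (by linarith) (by rw [← hw, hw0]; positivity)] at h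
      nlinarith
  · rw [not_le] at hin
    have h1 : Disc.step d (‖d‖ / 2) ‖d‖ z = 1 :=
      Disc.step_one (by positivity) (by linarith) hin.le
    rw [mergeFun, h1] at h
    simp only [sub_self, Complex.ofReal_zero, ite_self, add_zero] at h
    exfalso
    have hle : ∀ σ, ‖Disc.step d ‖d‖ (2 * ‖d‖) z • Disc.model σ d‖ ≤ ‖d‖ := fun σ => by
      rw [norm_smul, Disc.norm_model, Real.norm_eq_abs,
        abs_of_nonneg (Disc.step_mem d z _ _).1]
      exact mul_le_of_le_one_left (norm_nonneg d) (Disc.step_mem d z _ _).2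
    rcases mul_eq_zero.1 h with h | h
    · have := congrArg norm (eq_neg_of_add_eq_zero_left h)
      rw [norm_neg, Disc.norm_model] at this
      linarith [hle σ₀]
    · have := congrArg norm (sub_eq_zero.1 h)
      rw [Disc.norm_model] at this
      linarith [hle σ₁]

theorem mergeFun_near (σ : Bool) {d : ℂ} (hd : d ≠ 0) :
    ∀ᶠ z in 𝓝 d, mergeFun σ σ d z = Disc.model σ (z - d) * Disc.model σ (z - d) := by
  have hd' := norm_pos_iff.2 hd
  filter_upwards [Disc.eventually_ball (a := d) (z := d) (r := ‖d‖) (by simpa using hd')] with z hz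
  rw [mergeFun, Disc.step_zero (norm_nonneg d) (by linarith) hz.le]
  simp

namespace Patch

variable {F : M → ℍ[ℝ]} (P : Patch F) [T2Space M]

/-- Two regular zeros, the centre and a nearby point, merge into at most one correctable zero. -/
theorem merge (hF : ContMDiff 𝓘(ℝ, Plane) 𝓘(ℝ, ℍ[ℝ]) ∞ F) (hi : ∀ p, Injective (dQ F p))
    {L : M → ℍ[ℝ]} (hL : IsNormal F L) {β : ℂ} (hβ : β ≠ 0) (hβr : 2 * ‖β‖ < P.r)
    (hzero : ∀ z ∈ ball (0 : ℂ) P.r, P.S L z = 0 ↔ z = 0 ∨ z = β)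
    (h0 : Disc.cross (fderiv ℝ (P.S L) 0) ≠ 0) (hb : Disc.cross (fderiv ℝ (P.S L) β) ≠ 0) :
    ∃ L', IsNormal F L' ∧ (∀ p, p ∉ P.V → L' =ᶠ[𝓝 p] L) ∧
      ∀ p ∈ P.V, L' p = 0 → p = P.ψ (β / 2) ∧ Fix F L' p := by
  have hβ' := norm_pos_iff.2 hβ
  have hr : 0 < P.r := by linarith
  have h0m : (0 : ℂ) ∈ ball (0 : ℂ) P.r := mem_ball_self hr
  have hbm : β ∈ ball (0 : ℂ) P.r := mem_ball_zero_iff.2 (by linarith)
  have hS := P.smooth_S hF hL.smooth
  obtain ⟨ρ₀, σ₀, α₀, s₁, hρ₀, hρ₀le, hα₀, -, hs₁, hout₁, hin₁, hnz₁⟩ := Disc.linearize isOpen_ball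
    hS h0m ((hzero 0 h0m).2 (Or.inl rfl)) h0 (ρ₀ := ‖β‖ / 4) (by linarith)
  have hfar : ∀ z : ℂ, ‖z - β‖ ≤ ‖β‖ / 2 → ρ₀ < ‖z - 0‖ := fun z hz => by
    rw [sub_zero]
    have := norm_sub_norm_le β z
    rw [norm_sub_rev] at this
    linarith
  have hev : s₁ =ᶠ[𝓝 β] P.S L := by
    filter_upwards [Disc.eventually_ball (a := β) (z := β) (r := ‖β‖ / 2) (by rw [sub_self, norm_zero]; linarith)]
      with z hz
    exact hout₁ z (hfar z hz.le).le
  have hb₁ : s₁ β = 0 := hev.self_of_nhds.trans ((hzero β hbm).2 (Or.inr rfl))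
  obtain ⟨ρ₁, σ₁, α₁, s₂, hρ₁, hρ₁le, hα₁, -, hs₂, hout₂, hin₂, hnz₂⟩ := Disc.linearize isOpen_ball
    hs₁ hbm hb₁ (by rw [hev.fderiv_eq]; exact hb) (ρ₀ := ‖β‖ / 4) (by linarith)
  have h20 : ∀ z, ‖z - 0‖ < ρ₀ / 2 → s₂ z = α₀ * Disc.model σ₀ (z - 0) := fun z hz => by
    rw [hout₂ z, hin₁ z hz]
    by_contra hcon
    linarith [hfar z (by linarith [not_le.1 hcon])]
  have h2zero : s₂ 0 = 0 := by rw [h20 0 (by simp; linarith)]; simp
  have h2b : s₂ β = 0 := by rw [hin₂ β (by simp; linarith)]; simp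
  have hz₂ : ∀ z ∈ ball (0 : ℂ) P.r, s₂ z = 0 → z = 0 ∨ z = β := fun z hz h => by
    by_contra hcon
    push Not at hcon
    by_cases h1 : ‖z - β‖ ≤ ρ₁
    · exact hnz₂ z h1 hcon.2 h
    rw [hout₂ z (not_le.1 h1).le] at h
    by_cases h2 : ‖z - 0‖ ≤ ρ₀
    · exact hnz₁ z h2 hcon.1 h
    rw [hout₁ z (not_le.1 h2).le, hzero z hz] at h
    exact h.elim hcon.1 hcon.2
  set u₁ := Disc.divide s₂ α₀ σ₀ 0 with hu₁def
  have hu₁ : ContDiffOn ℝ ∞ u₁ (ball 0 P.r) := Disc.contDiffOn_divide (g := fun _ => α₀) isOpen_ball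
    hs₂ (fun _ => contDiffAt_const)
    ((Disc.eventually_ball (a := (0 : ℂ)) (z := 0) (r := ρ₀ / 2) (by simp; linarith)).mono
      fun z hz => h20 z hz)
  set g : ℂ → ℂ := fun z => α₁ / Disc.model σ₀ (z - 0) with hgdef
  have hge : ∀ᶠ z in 𝓝 β, u₁ z = g z * Disc.model σ₁ (z - β) := by
    filter_upwards [Disc.eventually_ball (a := β) (z := β) (r := ρ₁ / 2) (by rw [sub_self, norm_zero]; linarith),
      isOpen_ne.mem_nhds hβ] with z hz hne
    rw [hu₁def, Disc.divide, if_neg hne, hin₂ z hz, hgdef]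
    ring
  set u := Disc.divide u₁ (g β) σ₁ β with hudef
  have hu : ContDiffOn ℝ ∞ u (ball 0 P.r) := Disc.contDiffOn_divide (g := g) isOpen_ball hu₁
    (fun _ => contDiffAt_const.mul (((Disc.model σ₀).contDiff.comp
      (contDiff_id.sub contDiff_const)).contDiffAt.inv (Disc.model_ne (by simpa using hβ)))) hge
  have hu₁b : u₁ β = 0 := by rw [hge.self_of_nhds]; simp
  have hprod : ∀ z, u z * Disc.model σ₁ (z - β) * Disc.model σ₀ z = s₂ z := fun z => by
    rw [hudef, Disc.divide_mul u₁ (g β) σ₁ hu₁b, hu₁def]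
    simpa using Disc.divide_mul s₂ α₀ σ₀ h2zero z
  have hune : ∀ z ∈ ball (0 : ℂ) P.r, u z ≠ 0 := fun z hz h => by
    rcases eq_or_ne z 0 with rfl | hne0
    · rw [hudef, Disc.divide, if_neg (Ne.symm hβ), hu₁def, Disc.divide, if_pos rfl] at h
      exact div_ne_zero hα₀ (Disc.model_ne (by simpa using hβ)) h
    rcases eq_or_ne z β with rfl | hneb
    · rw [hudef, Disc.divide, if_pos rfl, hgdef] at h
      exact div_ne_zero hα₁ (Disc.model_ne (by simpa using hne0)) h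
    refine (hz₂ z hz ?_).elim hne0 hneb
    rw [← hprod z, h, zero_mul, zero_mul]
  set d := β / 2 with hddef
  have hd : d ≠ 0 := by simp [hddef, hβ]
  have hdn : ‖d‖ = ‖β‖ / 2 := by simp [hddef]
  set s' : ℂ → ℂ := fun z => u z * mergeFun σ₀ σ₁ d z with hs'def
  have hs' : ContDiffOn ℝ ∞ s' (ball 0 P.r) := hu.mul (contDiff_mergeFun σ₀ σ₁ d).contDiffOn
  have hc : ‖d‖ + 2 * ‖d‖ < P.r := by linarith
  have hout : ∀ z ∈ ball (0 : ℂ) P.r, z ∉ closedBall d (2 * ‖d‖) → s' z = P.S L z := by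
    intro z hz hzd
    rw [mem_closedBall, dist_eq_norm, not_le] at hzd
    have hzb : ‖β‖ / 2 ≤ ‖z - β‖ := by
      have := norm_sub_norm_le (z - d) (β - d)
      rw [sub_sub_sub_cancel_right, show β - d = d by rw [hddef]; ring] at this
      linarith
    have hz0 : ‖β‖ / 2 ≤ ‖z - 0‖ := by
      rw [sub_zero]
      have := norm_sub_le z d
      linarith
    rw [hs'def]
    simp only
    rw [mergeFun_outside σ₀ σ₁ hd hzd.le, show 2 * d = β by simp [hddef]; ring,
      ← hout₁ z (by linarith), ← hout₂ z (by linarith), ← hprod z]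
    ring
  have hN := P.isNormal_repl hF hL hc hs' hout
  refine ⟨P.repl L s', hN, fun p hp => P.repl_eventually hF hL hc hout fun h => absurd h hp,
    fun p hp hp0 => ?_⟩
  rw [P.repl_zero, if_pos hp] at hp0
  have hz := P.q_mem hp
  obtain ⟨hσ, hzd⟩ := mergeFun_zero σ₀ σ₁ hd ((mul_eq_zero.1 hp0).resolve_left (hune _ hz))
  have hpd : p = P.ψ d := by rw [← P.ψ_q p hp, hzd]
  have hdm : d ∈ ball (0 : ℂ) P.r := hzd ▸ hz
  refine ⟨hpd, hpd ▸ P.fix_double hF hi hN hdm (σ := σ₀) hu (hune d hdm) ?_⟩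
  filter_upwards [isOpen_ball.mem_nhds hdm, mergeFun_near σ₀ hd] with z hz' hm
  rw [P.S_repl L s' hz', hs'def, ← hσ]
  simp only [hm]

end Patch

theorem isOneForm_sigma {F L : M → ℍ[ℝ]} (hF : ContMDiff 𝓘(ℝ, Plane) 𝓘(ℝ, ℍ[ℝ]) ∞ F)
    (hL : ContMDiff 𝓘(ℝ, Plane) 𝓘(ℝ, ℍ[ℝ]) ∞ L) : IsOneForm (sigma F L) := by
  set b := Module.finBasis ℝ ℍ[ℝ]
  set co : Fin (Module.finrank ℝ ℍ[ℝ]) → (ℍ[ℝ] →L[ℝ] ℝ) := fun i =>
    LinearMap.toContinuousLinearMap (b.coord i)
  refine ⟨_, fun i p => Quat.imV (star (L p) * b i), fun i p => co i (F p), fun i => ?_,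
    fun i => (co i).contDiff.comp_contMDiff hF, fun p v => ?_⟩
  · exact (Quat.imV.contDiff.comp (starQ_contDiff.mul contDiff_const)).comp_contMDiff hL
  · have hd : ∀ i, (show ℝ from mfderiv 𝓘(ℝ, Plane) 𝓘(ℝ) (fun p => co i (F p)) p v) =
        co i (dQ F p v) := fun i => by
      have h := mfderiv_comp p (co i).hasMFDerivAt.mdifferentiableAt
        ((hF.contMDiffAt (x := p)).mdifferentiableAt (by simp))
      rw [(co i).hasMFDerivAt.mfderiv] at h
      exact DFunLike.congr_fun h v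
    unfold sigma
    conv_lhs => rw [← b.sum_repr (dQ F p v), Finset.mul_sum, map_sum]
    refine Finset.sum_congr rfl fun i _ => ?_
    dsimp only at hd ⊢
    rw [hd i, mul_smul_comm, map_smul]
    rfl

theorem IsOneForm.sum {ι V : Type} [NormedAddCommGroup V] [NormedSpace ℝ V] (s : Finset ι)
    {f : ι → (p : M) → TangentSpace 𝓘(ℝ, Plane) p → V} (h : ∀ i ∈ s, IsOneForm (f i)) :
    IsOneForm fun p v => ∑ i ∈ s, f i p v := by
  classical
  induction s using Finset.induction with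
  | empty => exact ⟨0, fun i => i.elim0, fun i => i.elim0, fun i => i.elim0, fun i => i.elim0,
      fun p v => by simp⟩
  | @insert a s ha ih =>
    have := (h a (Finset.mem_insert_self a s)).add (ih fun i hi => h i (Finset.mem_insert_of_mem hi))
    convert this using 3 with p v
    exact Finset.sum_insert ha

theorem IsOneForm.map_sub {V : Type} [NormedAddCommGroup V] [NormedSpace ℝ V]
    {σ : (p : M) → TangentSpace 𝓘(ℝ, Plane) p → V} (h : IsOneForm σ) (p : M)
    (v w : TangentSpace 𝓘(ℝ, Plane) p) : σ p (v - w) = σ p v - σ p w := by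
  obtain ⟨n, a, m, -, -, h⟩ := h
  rw [h, h, h, ← Finset.sum_sub_distrib]
  refine Finset.sum_congr rfl fun i _ => ?_
  rw [← sub_smul]
  exact congrArg (· • a i p) ((mfderiv 𝓘(ℝ, Plane) 𝓘(ℝ) (m i) p).map_sub v w)

open Classical in
/-- A field all of whose remaining zeros except `R` are correctable. -/
structure Pairing (F L : M → ℍ[ℝ]) (R : Finset M) : Prop where
  normal : IsNormal F L
  finite : {p | L p = 0}.Finite
  simple : ∀ p ∈ R, L p = 0 ∧ Injective (dQ L p)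
  fix : ∀ p, L p = 0 → p ∉ R → Fix F L p
  even : ∀ C : Set M, IsClopen C → Even (R.filter (· ∈ C)).card

theorem Pairing.step [IsManifold 𝓘(ℝ, Plane) ∞ M] [T2Space M] [LocallyConnectedSpace M]
    {F L : M → ℍ[ℝ]} (hF : ContMDiff 𝓘(ℝ, Plane) 𝓘(ℝ, ℍ[ℝ]) ∞ F) (hi : ∀ p, Injective (dQ F p))
    {R : Finset M} (h : Pairing F L R) (hR : R.Nonempty) :
    ∃ (L' : M → ℍ[ℝ]) (R' : Finset M), R'.card < R.card ∧ Pairing F L' R' := by
  classical
  obtain ⟨a, ha⟩ := hR
  have hcl : IsClopen (connectedComponent a) := isClopen_connectedComponent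
  obtain ⟨b, hb, hba⟩ : ∃ b ∈ R.filter (· ∈ connectedComponent a), b ≠ a := by
    refine Finset.exists_mem_ne ?_ a
    have hpos : 0 < (R.filter (· ∈ connectedComponent a)).card :=
      Finset.card_pos.2 ⟨a, Finset.mem_filter.2 ⟨ha, mem_connectedComponent⟩⟩
    obtain ⟨k, hk⟩ := h.even _ hcl
    omega
  rw [Finset.mem_filter] at hb
  set Z₀ : Set M := {p | L p = 0} \ {a} with hZ₀
  obtain ⟨P, hr, haV, hqa, hVN⟩ := exists_patch hF hi a
    ((h.finite.subset (show Z₀ ⊆ _ from sdiff_subset)).isClosed.isOpen_compl.mem_nhds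
      (show a ∈ Z₀ᶜ from fun hh => hh.2 rfl))
  set β : ℂ := ((P.r / 8 : ℝ) : ℂ) with hβdef
  have hβ : β ≠ 0 := by simp [hβdef, hr.ne']
  have hβn : ‖β‖ = P.r / 8 := by simp [hβdef, abs_of_pos hr]
  have hβb : β ∈ ball (0 : ℂ) P.r := mem_ball_zero_iff.2 (by linarith)
  set b' := P.ψ β with hb'
  have hb'V : b' ∈ P.V := P.ψ_mem hβb
  have hqb : P.q b' = β := P.q_ψ β hβb
  have hψ0 : P.ψ 0 = a := by rw [← hqa]; exact P.ψ_q a haV
  have hb'a : b' ≠ a := fun e => hβ (by rw [← hqb, e, hqa])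
  have hb'C : b' ∈ connectedComponent a :=
    ((convex_ball (0 : ℂ) P.r).isPreconnected.image P.ψ P.ψ_smooth.continuousOn).subset_connectedComponent
      ⟨0, mem_ball_self hr, hψ0⟩ ⟨β, hβb, rfl⟩
  set Z : Set M := {p | L p = 0} \ {b} with hZ
  have haZ : a ∈ Z := ⟨(h.simple a ha).1, hba.symm⟩
  have hb'Z : b' ∉ Z := fun hh => hVN hb'V ⟨hh.1, hb'a⟩
  have hzL : {p | L p = 0} = insert b Z := by
    rw [hZ, insert_sdiff_singleton, insert_eq_of_mem]
    exact (h.simple b hb.1).1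
  obtain ⟨L₁, hL₁, hz₁, hreg₁, he₁⟩ := movable_component hF hi (h.finite.subset sdiff_subset)
    (show b' ∈ connectedComponent b by rwa [← connectedComponent_eq hb.2])
    (fun hh : b ∈ Z => hh.2 rfl) hb'Z L h.normal hzL (h.simple b hb.1).2
  have hz₁' : ∀ p, L₁ p = 0 ↔ p = b' ∨ p ∈ Z := fun p => Set.ext_iff.1 hz₁ p
  have hregA : Injective (dQ L₁ a) := (regular_congr (he₁ a haZ)).2 (h.simple a ha).2
  have hZV : ∀ p ∈ Z, p ∈ P.V → p = a := fun p hp hpV => by
    by_contra hne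
    exact hVN hpV ⟨hp.1, hne⟩
  have hzero : ∀ z ∈ ball (0 : ℂ) P.r, P.S L₁ z = 0 ↔ z = 0 ∨ z = β := fun z hz => by
    rw [← P.zero_iff hF hL₁ hz, hz₁']
    constructor
    · rintro (e | e)
      · exact Or.inr (by rw [← P.q_ψ z hz, e, hqb])
      · exact Or.inl (by rw [← P.q_ψ z hz, hZV _ e (P.ψ_mem hz), hqa])
    · rintro (rfl | rfl)
      · exact Or.inr (hψ0.symm ▸ haZ)
      · exact Or.inl rfl
  have c0 := (P.regular_iff hF hL₁.smooth hL₁.ortho haV ((hz₁' a).2 (Or.inr haZ))).1 hregA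
  have cb := (P.regular_iff hF hL₁.smooth hL₁.ortho hb'V ((hz₁' b').2 (Or.inl rfl))).1 hreg₁
  rw [hqa] at c0
  rw [hqb] at cb
  obtain ⟨L₂, hL₂, hout, hin⟩ := P.merge hF hi hL₁ hβ (by linarith) hzero c0 cb
  have hclass : ∀ p, L₂ p = 0 → p ∈ P.V ∨ (p ∈ Z ∧ p ∉ P.V ∧ L₂ =ᶠ[𝓝 p] L) := fun p hp => by
    by_cases hpV : p ∈ P.V
    · exact Or.inl hpV
    · have hpZ : p ∈ Z := ((hz₁' p).1 ((hout p hpV).self_of_nhds ▸ hp)).resolve_left
        fun e => hpV (e ▸ hb'V)
      exact Or.inr ⟨hpZ, hpV, (hout p hpV).trans (he₁ p hpZ)⟩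
  refine ⟨L₂, (R.erase a).erase b, ?_, hL₂, ?_, ?_, ?_, ?_⟩
  · exact (Finset.card_le_card (Finset.erase_subset _ _)).trans_lt (Finset.card_erase_lt_of_mem ha)
  · refine ((h.finite.union (Set.finite_singleton (P.ψ (β / 2))))).subset fun p hp => ?_
    rcases hclass p hp with hpV | ⟨hpZ, -, -⟩
    · exact Or.inr (hin p hpV hp).1
    · exact Or.inl hpZ.1
  · intro p hp
    rw [Finset.mem_erase, Finset.mem_erase] at hp
    obtain ⟨hL0, hreg⟩ := h.simple p hp.2.2
    have hpZ : p ∈ Z := ⟨hL0, hp.1⟩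
    have hpV : p ∉ P.V := fun hV => hp.2.1 (hZV p hpZ hV)
    have he : L₂ =ᶠ[𝓝 p] L := (hout p hpV).trans (he₁ p hpZ)
    exact ⟨he.self_of_nhds.trans hL0, (regular_congr he).2 hreg⟩
  · intro p hp hpR
    rcases hclass p hp with hpV | ⟨hpZ, hpV, he⟩
    · exact (hin p hpV hp).2
    · refine Fix.congr hi hL₂ (h.fix p hpZ.1 fun hh => hpR ?_) he
      exact Finset.mem_erase.2 ⟨hpZ.2, Finset.mem_erase.2 ⟨fun e => hpV (e ▸ haV), hh⟩⟩
  · intro C hC
    rw [Finset.filter_erase, Finset.filter_erase]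
    have hev := h.even C hC
    by_cases haC : a ∈ C
    · have hbC : b ∈ C := hC.connectedComponent_subset haC hb.2
      rw [Finset.card_erase_of_mem (Finset.mem_erase.2 ⟨hba, Finset.mem_filter.2 ⟨hb.1, hbC⟩⟩),
        Finset.card_erase_of_mem (Finset.mem_filter.2 ⟨ha, haC⟩)]
      have hev2 : Even (Finset.filter (fun x => x ∈ C) R).card := by convert hev
      obtain ⟨k, hk⟩ := hev2
      refine ⟨k - 1, ?_⟩
      rw [hk]
      omega
    · have hbC : b ∉ C := fun hbC => haC (hC.connectedComponent_subset hbC (by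
        rw [← connectedComponent_eq hb.2]; exact mem_connectedComponent))
      rwa [Finset.erase_eq_of_notMem fun hh => haC (Finset.mem_filter.1 hh).2,
        Finset.erase_eq_of_notMem fun hh => hbC (Finset.mem_filter.1 hh).2]

/-- **Formal immersion in three-space** of every compact surface. -/
theorem exists_monomorphism [IsManifold 𝓘(ℝ, Plane) ∞ M] [CompactSpace M] [T2Space M] :
    ∃ σ : (p : M) → TangentSpace 𝓘(ℝ, Plane) p → EuclideanSpace ℝ (Fin 3),
      IsOneForm σ ∧ ∀ p, Injective (σ p) := by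
  classical
  have : LocallyConnectedSpace M := ChartedSpace.locallyConnectedSpace Plane M
  obtain ⟨F, L, hG⟩ := exists_isGeneric (M := M)
  have hfinal : ∀ (k : ℕ) (L : M → ℍ[ℝ]) (R : Finset M), R.card = k → Pairing F L R →
      ∃ L', Pairing F L' ∅ := by
    intro k
    induction k using Nat.strong_induction_on with
    | _ k ih =>
      intro L R hk hP
      rcases R.eq_empty_or_nonempty with rfl | hR
      · exact ⟨L, hP⟩
      · obtain ⟨L', R', hlt, hP'⟩ := hP.step hG.smoothF hG.imm hR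
        exact ih _ (hk ▸ hlt) L' R' rfl hP'
  obtain ⟨L', hP⟩ := hfinal _ L hG.finite.toFinset rfl
    { normal := ⟨hG.smoothL, hG.normal⟩
      finite := hG.finite
      simple := fun p hp => ⟨hG.finite.mem_toFinset.1 hp, hG.regular p (hG.finite.mem_toFinset.1 hp)⟩
      fix := fun p hp hpR => absurd (hG.finite.mem_toFinset.2 hp) hpR
      even := fun C hC => by
        have h := even_zeros hG hC
        rwa [← ncard_coe_finset, show (↑(hG.finite.toFinset.filter (· ∈ C)) : Set M) =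
          {p | L p = 0} ∩ C by ext; simp] }
  obtain ⟨D, hD, hDd⟩ := hP.finite.t2_separation
  have hloc : ∀ z ∈ hP.finite.toFinset, ∃ δ, IsOneForm δ ∧
      (∀ x, x ∉ D z \ ({p | L' p = 0} \ {z}) → ∀ v, δ x v = 0) ∧
      ∀ x ∈ D z \ ({p | L' p = 0} \ {z}), ∀ v, sigma F L' x v + δ x v = 0 → v = 0 := fun z hz => by
    have hz0 := hP.finite.mem_toFinset.1 hz
    refine hP.fix z hz0 (Finset.notMem_empty z) _ ?_ fun x hx h0 => ?_
    · exact (((hD z).2).sdiff (hP.finite.subset sdiff_subset).isClosed).mem_nhds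
        ⟨(hD z).1, fun hh => hh.2 rfl⟩
    · by_contra hne
      exact hx.2 ⟨h0, hne⟩
  choose! δ hδ hδ0 hδi using hloc
  set σ : (p : M) → TangentSpace 𝓘(ℝ, Plane) p → EuclideanSpace ℝ (Fin 3) := fun p v =>
    sigma F L' p v + ∑ z ∈ hP.finite.toFinset, δ z p v with hσdef
  have hσ : IsOneForm σ :=
    (isOneForm_sigma hG.smoothF hP.normal.smooth).add (IsOneForm.sum _ hδ)
  refine ⟨σ, hσ, fun p v w hvw => sub_eq_zero.1 ?_⟩
  have h0 : σ p (v - w) = 0 := by rw [hσ.map_sub, hvw, sub_self]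
  rw [hσdef] at h0
  simp only at h0
  by_cases hp : ∃ z ∈ hP.finite.toFinset, p ∈ D z \ ({p | L' p = 0} \ {z})
  · obtain ⟨z, hz, hpz⟩ := hp
    rw [Finset.sum_eq_single_of_mem z hz fun y hy hyz => hδ0 y hy p (fun hpy =>
      disjoint_left.1 (hDd (hP.finite.mem_toFinset.1 hy) (hP.finite.mem_toFinset.1 hz) hyz)
        hpy.1 hpz.1) _] at h0
    exact hδi z hz p hpz _ h0
  · push Not at hp
    rw [Finset.sum_eq_zero fun y hy => hδ0 y hy p (hp y hy) _, add_zero] at h0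
    refine sigma_eq_zero hG.imm hP.normal (fun hL0 => ?_) h0
    exact hp p (hP.finite.mem_toFinset.2 hL0) ⟨(hD p).1, fun hh => hh.2 rfl⟩

end Vale.Agent.P205.Global
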