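import Vale.Agent.P205.Global.GenericFamily
import Vale.Agent.P205.Iter.Atlas

/-!
General position on a compact surface: an immersion into a space of dimension four with
transversal double points and a normal field with finitely many regular zeros.
-/

noncomputable section

open Set Filter Function Module Metric
open scoped Topology ContDiff Manifold ENNReal RealInnerProductSpace

namespace Vale.Agent.P205.Global

namespace Generic

/-- Directions up to scaling. -/
def lineVec : Bool → ℝ → R2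
  | true, t => pt 1 t
  | false, t => pt t 1

theorem lineVec_ne (m : Bool) (t : ℝ) : lineVec m t ≠ 0 := by
  intro h
  cases m
  · simpa [lineVec, pt] using congrArg (fun v : R2 => v 1) h
  · simpa [lineVec, pt] using congrArg (fun v : R2 => v 0) h

theorem exists_lineVec {v : R2} (hv : v ≠ 0) : ∃ m t, ∃ c : ℝ, c ≠ 0 ∧ v = c • lineVec m t := by
  by_cases h : v 0 = 0
  · have h1 : v 1 ≠ 0 := fun h1 => hv (by ext i; fin_cases i <;> assumption)
    exact ⟨false, 0, v 1, h1, by ext i; fin_cases i <;> simp [lineVec, pt, h]⟩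
  · exact ⟨true, v 1 / v 0, v 0, h,
      by ext i; fin_cases i <;> simp [lineVec, pt]; field_simp⟩

theorem contDiff_lineVec (m : Bool) : ContDiff ℝ ∞ (lineVec m) := by
  have h : lineVec m = fun t => if m then pt 1 0 + t • pt 0 1 else t • pt 1 0 + pt 0 1 := by
    funext t
    cases m <;> ext i <;> fin_cases i <;> simp [lineVec, pt]
  rw [h]
  cases m
  · exact (contDiff_id.smul contDiff_const).add contDiff_const
  · exact contDiff_const.add (contDiff_id.smul contDiff_const)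

/-- Pairs of vectors up to scaling. -/
def pairVec (m : Fin 4) (k : Fin 3 → ℝ) : R2 × R2 :=
  (pt (Fin.insertNth (α := fun _ => ℝ) m 1 k 0) (Fin.insertNth (α := fun _ => ℝ) m 1 k 1),
    pt (Fin.insertNth (α := fun _ => ℝ) m 1 k 2) (Fin.insertNth (α := fun _ => ℝ) m 1 k 3))

theorem exists_pairVec {v w : R2} (h : v ≠ 0 ∨ w ≠ 0) :
    ∃ m k, ∃ c : ℝ, c ≠ 0 ∧ v = c • (pairVec m k).1 ∧ w = c • (pairVec m k).2 := by
  set u : Fin 4 → ℝ := ![v 0, v 1, w 0, w 1] with hu
  obtain ⟨m, hm⟩ : ∃ m, u m ≠ 0 := by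
    by_contra hh
    push Not at hh
    rcases h with h | h <;> refine h ?_ <;> ext i <;> fin_cases i
    exacts [hh 0, hh 1, hh 2, hh 3]
  refine ⟨m, fun n => u (m.succAbove n) / u m, u m, hm, ?_⟩
  have e : ∀ l, u m * Fin.insertNth (α := fun _ => ℝ) m 1 (fun n => u (m.succAbove n) / u m) l =
      u l := by
    intro l
    rcases Fin.eq_self_or_eq_succAbove m l with rfl | ⟨n, rfl⟩
    · simp
    · simp only [Fin.insertNth_apply_succAbove]
      field_simp
  constructor <;> ext i <;> fin_cases i <;> simp [pairVec, pt, e] <;> simp [hu]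

theorem pairVec_ne (m : Fin 4) (k : Fin 3 → ℝ) :
    (pairVec m k).1 ≠ 0 ∨ (pairVec m k).2 ≠ 0 := by
  by_contra h
  push Not at h
  have e : ∀ l, Fin.insertNth (α := fun _ => ℝ) m 1 k l = 0 := by
    have a := congrArg (fun v : R2 => v 0) h.1
    have b := congrArg (fun v : R2 => v 1) h.1
    have c := congrArg (fun v : R2 => v 0) h.2
    have d := congrArg (fun v : R2 => v 1) h.2
    simp [pairVec, pt] at a b c d
    intro l
    fin_cases l <;> assumption
  simpa using e m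

theorem contDiff_insertNth (m l : Fin 4) :
    ContDiff ℝ ∞ fun k : Fin 3 → ℝ => Fin.insertNth (α := fun _ => ℝ) m 1 k l := by
  rcases Fin.eq_self_or_eq_succAbove m l with rfl | ⟨n, rfl⟩
  · simp only [Fin.insertNth_apply_same]
    exact contDiff_const
  · simp only [Fin.insertNth_apply_succAbove]
    exact contDiff_apply ℝ ℝ n

theorem contDiff_pairVec (m : Fin 4) : ContDiff ℝ ∞ (pairVec m) := by
  have h : ∀ a b : Fin 4, ContDiff ℝ ∞ fun k : Fin 3 → ℝ =>
      pt (Fin.insertNth (α := fun _ => ℝ) m 1 k a) (Fin.insertNth (α := fun _ => ℝ) m 1 k b) := by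
    intro a b
    have e : ∀ x y : ℝ, pt x y = x • pt 1 0 + y • pt 0 1 := fun x y => by
      ext i; fin_cases i <;> simp [pt]
    rw [funext fun k : Fin 3 → ℝ => e (Fin.insertNth (α := fun _ => ℝ) m 1 k a)
      (Fin.insertNth (α := fun _ => ℝ) m 1 k b)]
    exact ((contDiff_insertNth m a).smul contDiff_const).add
      ((contDiff_insertNth m b).smul contDiff_const)
  exact (h 0 1).prodMk (h 2 3)

variable {M : Type} [TopologicalSpace M] [ChartedSpace R2 M] [IsManifold 𝓘(ℝ, R2) ∞ M]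
  (A : Iter.Atlas (E := R2) (I := 𝓘(ℝ, R2)) (M := M))

theorem exists_point (p : M) : ∃ j, ∃ z ∈ ball (0 : R2) 1, A.par j z = p := by
  obtain ⟨j, -, hj⟩ := Finset.exists_ne_zero_of_sum_ne_zero
    (by rw [A.weight_sum p]; exact one_ne_zero : (∑ j, A.weight j p) ≠ 0)
  obtain ⟨h1, h2⟩ := A.weight_supp j (subset_tsupport _ hj)
  exact ⟨j, A.inv j p, h2, A.par_inv j p h1⟩

omit [IsManifold 𝓘(ℝ, R2) ∞ M] in
/-- The differential of a parametrisation. -/
def dpar (j : A.ι) (z : R2) : R2 →L[ℝ] R2 := mfderiv 𝓘(ℝ, R2) 𝓘(ℝ, R2) (A.par j) z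

theorem par_mdiff (j : A.ι) {z : R2} (hz : z ∈ ball (0 : R2) 3) :
    MDifferentiableAt 𝓘(ℝ, R2) 𝓘(ℝ, R2) (A.par j) z :=
  ((A.par_smooth j).contMDiffAt (isOpen_ball.mem_nhds hz)).mdifferentiableAt (by simp)

theorem fderiv_par {V : Type} [NormedAddCommGroup V] [NormedSpace ℝ V] {f : M → V} (j : A.ι)
    {z : R2} (hz : z ∈ ball (0 : R2) 3) (hf : MDifferentiableAt 𝓘(ℝ, R2) 𝓘(ℝ, V) f (A.par j z))
    (v : R2) : fderiv ℝ (fun y => f (A.par j y)) z v = dT f (A.par j z) (dpar A j z v) := by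
  have h := mfderiv_comp z hf (par_mdiff A j hz)
  rw [mfderiv_eq_fderiv] at h
  exact DFunLike.congr_fun h v

theorem dpar_bij (j : A.ι) {z : R2} (hz : z ∈ ball (0 : R2) 3) : Bijective (dpar A j z) := by
  have h3 : MDifferentiableAt 𝓘(ℝ, R2) 𝓘(ℝ, R2) (A.inv j) (A.par j z) :=
    ((A.inv_smooth j).contMDiffAt ((A.src_open j).mem_nhds (A.par_mem j hz))).mdifferentiableAt
      (by simp)
  have hinj : Injective (dpar A j z) := by
    intro a b h
    have e : (fun y => A.inv j (A.par j y)) =ᶠ[𝓝 z] fun y => y := by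
      filter_upwards [isOpen_ball.mem_nhds hz] with y hy using A.inv_par j y hy
    have ha := fderiv_par A j hz h3 a
    have hb := fderiv_par A j hz h3 b
    rw [h, ← hb, e.fderiv_eq] at ha
    simpa using ha
  exact ⟨hinj, LinearMap.injective_iff_surjective.1 hinj⟩

variable {V : Type} [NormedAddCommGroup V] [InnerProductSpace ℝ V] [FiniteDimensional ℝ V]

theorem smooth_par {f : M → V} (hf : ContMDiff 𝓘(ℝ, R2) 𝓘(ℝ, V) ∞ f) (j : A.ι) :
    ContDiffOn ℝ ∞ (fun z => f (A.par j z)) (ball 0 3) :=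
  (hf.comp_contMDiffOn (A.par_smooth j)).contDiffOn

theorem smooth_par_real {f : M → ℝ} (hf : ContMDiff 𝓘(ℝ, R2) 𝓘(ℝ) ∞ f) (j : A.ι) :
    ContDiffOn ℝ ∞ (fun z => f (A.par j z)) (ball 0 3) :=
  (hf.comp_contMDiffOn (A.par_smooth j)).contDiffOn

theorem mdiff {f : M → V} (hf : ContMDiff 𝓘(ℝ, R2) 𝓘(ℝ, V) ∞ f) (p : M) :
    MDifferentiableAt 𝓘(ℝ, R2) 𝓘(ℝ, V) f p := (hf p).mdifferentiableAt (by simp)

theorem mdiff_real {f : M → ℝ} (hf : ContMDiff 𝓘(ℝ, R2) 𝓘(ℝ) ∞ f) (p : M) :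
    MDifferentiableAt 𝓘(ℝ, R2) 𝓘(ℝ) f p := (hf p).mdifferentiableAt (by simp)

variable {κ : Type} [Fintype κ] {y : Option κ → M → ℝ}
  (hy : ∀ i, ContMDiff 𝓘(ℝ, R2) 𝓘(ℝ) ∞ (y i))

include hy in
theorem smooth_comb (B : Option κ → V) :
    ContMDiff 𝓘(ℝ, R2) 𝓘(ℝ, V) ∞ (fun p => ∑ i, y i p • B i) :=
  contMDiff_finsetSum fun i _ => (hy i).smul contMDiff_const

include hy in
theorem fderiv_comb (B : Option κ → V) (j : A.ι) {z : R2} (hz : z ∈ ball (0 : R2) 3) (v : R2) :
    fderiv ℝ (fun x => ∑ i, y i (A.par j x) • B i) z v =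
      ∑ i, fderiv ℝ (fun x => y i (A.par j x)) z v • B i := by
  have hd : ∀ i, DifferentiableAt ℝ (fun x => y i (A.par j x)) z := fun i =>
    ((smooth_par_real A (hy i) j z hz).contDiffAt (isOpen_ball.mem_nhds hz)).differentiableAt
      (by simp)
  have h : HasFDerivAt (fun x => ∑ i, y i (A.par j x) • B i)
      (∑ i, (fderiv ℝ (fun x => y i (A.par j x)) z).smulRight (B i)) z :=
    HasFDerivAt.fun_sum fun i _ => (hd i).hasFDerivAt.smul_const (B i)
  rw [h.fderiv]
  simp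

include hy in
theorem dT_comb (B : Option κ → V) (j : A.ι) {z : R2} (hz : z ∈ ball (0 : R2) 3) (v : R2) :
    dT (fun p => ∑ i, y i p • B i) (A.par j z) (dpar A j z v) =
      ∑ i, fderiv ℝ (fun x => y i (A.par j x)) z v • B i := by
  rw [← fderiv_comb A hy B j hz v, fderiv_par A j hz (mdiff (smooth_comb hy B) _)]

include A hy in
theorem exists_immersion (hV : finrank ℝ V = 4)
    (himm : ∀ p (v : R2), v ≠ 0 → ∃ i, dT (y i) p v ≠ 0)
    (hind : ∀ p q, p ≠ q → ∀ v w : R2, (v ≠ 0 ∨ w ≠ 0) → ∃ i i',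
      (y i p - y i q) * (dT (y i') p v - dT (y i') q w) -
        (y i' p - y i' q) * (dT (y i) p v - dT (y i) q w) ≠ 0) :
    ∃ F : M → V, ContMDiff 𝓘(ℝ, R2) 𝓘(ℝ, V) ∞ F ∧ (∀ p, Injective (dT F p)) ∧
      ∀ p q, p ≠ q → F p = F q → ∀ v w, dT F p v = dT F q w → v = 0 ∧ w = 0 := by
  classical
  have : Nontrivial V := Module.nontrivial_of_finrank_pos (R := ℝ) (by omega)
  have hY : ∀ i j, ∀ z ∈ ball (0 : R2) 1, ContDiffAt ℝ 1 (fun x => y i (A.par j x)) z ∧
      ContDiffAt ℝ 1 (fderiv ℝ fun x => y i (A.par j x)) z := fun i j z hz => by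
    have h3 : z ∈ ball (0 : R2) 3 := ball_subset_ball (by norm_num) hz
    have h := (smooth_par_real A (hy i) j z h3).contDiffAt (isOpen_ball.mem_nhds h3)
    exact ⟨h.of_le (by simp), h.fderiv_right (by norm_cast)⟩
  set U1 : A.ι × Bool × Option κ → Set (R2 × ℝ) := fun J =>
    {q | q.1 ∈ ball (0 : R2) 1 ∧
      fderiv ℝ (fun x => y J.2.2 (A.par J.1 x)) q.1 (lineVec J.2.1 q.2) ≠ 0} with hU1
  set U2 : (A.ι × A.ι) × Fin 4 × (Option κ × Option κ) →
      Set ((R2 × R2) × (Fin 3 → ℝ)) := fun J =>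
    {q | q.1.1 ∈ ball (0 : R2) 1 ∧ q.1.2 ∈ ball (0 : R2) 1 ∧
      (y J.2.2.1 (A.par J.1.1 q.1.1) - y J.2.2.1 (A.par J.1.2 q.1.2)) *
          (fderiv ℝ (fun x => y J.2.2.2 (A.par J.1.1 x)) q.1.1 (pairVec J.2.1 q.2).1 -
            fderiv ℝ (fun x => y J.2.2.2 (A.par J.1.2 x)) q.1.2 (pairVec J.2.1 q.2).2) -
        (y J.2.2.2 (A.par J.1.1 q.1.1) - y J.2.2.2 (A.par J.1.2 q.1.2)) *
          (fderiv ℝ (fun x => y J.2.2.1 (A.par J.1.1 x)) q.1.1 (pairVec J.2.1 q.2).1 -
            fderiv ℝ (fun x => y J.2.2.1 (A.par J.1.2 x)) q.1.2 (pairVec J.2.1 q.2).2) ≠ 0}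
    with hU2
  set bad : (A.ι × Bool × Option κ) ⊕ ((A.ι × A.ι) × Fin 4 × (Option κ × Option κ)) →
      Set (Option κ → V) := Sum.elim
    (fun J => {B | ∃ q ∈ U1 J, (0 : V) + ∑ i,
      fderiv ℝ (fun x => y i (A.par J.1 x)) q.1 (lineVec J.2.1 q.2) • B i = 0})
    (fun J => {B | ∃ q ∈ U2 J, (0 : V) + ∑ i,
        (y i (A.par J.1.1 q.1.1) - y i (A.par J.1.2 q.1.2)) • B i = 0 ∧
      (0 : V) + ∑ i, (fderiv ℝ (fun x => y i (A.par J.1.1 x)) q.1.1 (pairVec J.2.1 q.2).1 -
        fderiv ℝ (fun x => y i (A.par J.1.2 x)) q.1.2 (pairVec J.2.1 q.2).2) • B i = 0})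
    with hbad
  have hdense : Dense (⋃ J, bad J)ᶜ := by
    refine dense_avoid fun J => ?_
    rcases J with ⟨j, m, i₀⟩ | ⟨⟨j, k⟩, m, i, i'⟩
    · exact dimH_bad_one i₀
        (fun i q hq => ((hY i j q.1 hq.1).2.comp q contDiffAt_fst).clm_apply
          (((contDiff_lineVec m).of_le (by simp)).contDiffAt.comp q contDiffAt_snd))
        (fun q _ => contDiffAt_const) (fun q hq => hq.2)
        (by simp [finrank_prod, hV])
    · exact dimH_bad_two i i'
        (fun l q hq => ((hY l j q.1.1 hq.1).1.comp q (contDiffAt_fst.comp q contDiffAt_fst)).sub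
          ((hY l k q.1.2 hq.2.1).1.comp q (contDiffAt_snd.comp q contDiffAt_fst)))
        (fun l q hq => (((hY l j q.1.1 hq.1).2.comp q (contDiffAt_fst.comp q contDiffAt_fst)).clm_apply
            (contDiffAt_fst.comp q
              (((contDiff_pairVec m).of_le (by simp)).contDiffAt.comp q contDiffAt_snd))).sub
          (((hY l k q.1.2 hq.2.1).2.comp q (contDiffAt_snd.comp q contDiffAt_fst)).clm_apply
            (contDiffAt_snd.comp q
              (((contDiff_pairVec m).of_le (by simp)).contDiffAt.comp q contDiffAt_snd))))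
        (fun q _ => contDiffAt_const) (fun q _ => contDiffAt_const) (fun q hq => hq.2.2)
        (by simp [finrank_prod, hV])
  obtain ⟨B, hB⟩ := hdense.nonempty
  simp only [mem_compl_iff, mem_iUnion, not_exists] at hB
  refine ⟨fun p => ∑ i, y i p • B i, smooth_comb hy B, fun p => ?_, fun p q hpq hF v w hvw => ?_⟩
  · refine (injective_iff_map_eq_zero _).2 fun v hv => by_contra fun hv0 => ?_
    obtain ⟨j, z, hz, rfl⟩ := exists_point A p
    have h3 : z ∈ ball (0 : R2) 3 := ball_subset_ball (by norm_num) hz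
    obtain ⟨v', rfl⟩ := (dpar_bij A j h3).2 v
    have hv' : v' ≠ 0 := fun e => hv0 (by rw [e, map_zero])
    obtain ⟨m, t, c, hc, rfl⟩ := exists_lineVec hv'
    obtain ⟨i₀, hi₀⟩ := himm _ (dpar A j z (lineVec m t))
      (fun e => lineVec_ne m t ((dpar_bij A j h3).1 (e.trans (map_zero _).symm)))
    rw [← fderiv_par A j h3 (mdiff_real (hy i₀) _)] at hi₀
    rw [map_smul, map_smul, dT_comb A hy B j h3] at hv
    exact hB (.inl (j, m, i₀))
      ⟨(z, t), ⟨hz, hi₀⟩, by rw [zero_add]; exact (smul_eq_zero.1 hv).resolve_left hc⟩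
  · by_contra hne
    obtain ⟨j, z, hz, rfl⟩ := exists_point A p
    obtain ⟨k, z', hz', rfl⟩ := exists_point A q
    have h3 : z ∈ ball (0 : R2) 3 := ball_subset_ball (by norm_num) hz
    have h3' : z' ∈ ball (0 : R2) 3 := ball_subset_ball (by norm_num) hz'
    obtain ⟨v', rfl⟩ := (dpar_bij A j h3).2 v
    obtain ⟨w', rfl⟩ := (dpar_bij A k h3').2 w
    have hne' : v' ≠ 0 ∨ w' ≠ 0 := by
      by_contra hh
      push Not at hh
      exact hne ⟨by rw [hh.1, map_zero], by rw [hh.2, map_zero]⟩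
    obtain ⟨m, r, c, hc, rfl, rfl⟩ := exists_pairVec hne'
    rw [map_smul, map_smul, map_smul, map_smul] at hvw
    have hvw' := smul_right_injective V hc hvw
    rw [dT_comb A hy B j h3, dT_comb A hy B k h3'] at hvw'
    obtain ⟨i, i', hdet⟩ := hind _ _ hpq (dpar A j z (pairVec m r).1) (dpar A k z' (pairVec m r).2)
      ((pairVec_ne m r).imp (fun h e => h ((dpar_bij A j h3).1 (e.trans (map_zero _).symm)))
        fun h e => h ((dpar_bij A k h3').1 (e.trans (map_zero _).symm)))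
    simp only [← fderiv_par A j h3 (mdiff_real (hy _) _),
      ← fderiv_par A k h3' (mdiff_real (hy _) _)] at hdet
    refine hB (.inr ((j, k), m, i, i')) ⟨((z, z'), r), ⟨hz, hz', hdet⟩, ?_, ?_⟩ <;>
      simp only [zero_add, sub_smul, Finset.sum_sub_distrib, sub_eq_zero]
    · exact hF
    · exact hvw'

/-- The tangent plane of a map at a point. -/
def tangent (F : M → V) (p : M) : Submodule ℝ V := LinearMap.range (dT F p : R2 →ₗ[ℝ] V)

/-- The orthogonal projection of a field to the normal plane. -/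
def normalPart (F W : M → V) (p : M) : V := W p - (tangent F p).starProjection (W p)

theorem inner_normalPart (F W : M → V) (p : M) (v : R2) :
    ⟪normalPart F W p, dT F p v⟫ = 0 :=
  Submodule.starProjection_inner_eq_zero _ _ (LinearMap.mem_range_self (dT F p : R2 →ₗ[ℝ] V) v)

/-- The tangential coefficient of the field in a parametrisation. -/
theorem exists_coef {F W : M → V} (hF : ContMDiff 𝓘(ℝ, R2) 𝓘(ℝ, V) ∞ F)
    (hFi : ∀ p, Injective (dT F p)) (hW : ContMDiff 𝓘(ℝ, R2) 𝓘(ℝ, V) ∞ W) (j : A.ι) :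
    ∃ u : R2 → R2, ContDiffOn ℝ ∞ u (ball 0 3) ∧ ∀ z ∈ ball (0 : R2) 3,
      normalPart F W (A.par j z) = W (A.par j z) - fderiv ℝ (fun x => F (A.par j x)) z (u z) := by
  set f := fun x => F (A.par j x) with hf
  set a := fun z => fderiv ℝ f z (pt 1 0) with ha
  set b := fun z => fderiv ℝ f z (pt 0 1) with hb
  set P0 : R2 → R2 →L[ℝ] R2 := fun w => (EuclideanSpace.proj (0 : Fin 2)).smulRight w with hP0
  set P1 : R2 → R2 →L[ℝ] R2 := fun w => (EuclideanSpace.proj (1 : Fin 2)).smulRight w with hP1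
  set T : R2 → (R2 →L[ℝ] R2) := fun z =>
    ⟪a z, a z⟫ • P0 (pt 1 0) + ⟪a z, b z⟫ • P1 (pt 1 0) +
      (⟪b z, a z⟫ • P0 (pt 0 1) + ⟪b z, b z⟫ • P1 (pt 0 1)) with hT
  have hcomb : ∀ z (u : R2), fderiv ℝ f z u = u 0 • a z + u 1 • b z := fun z u => by
    rw [ha, hb]
    simp only
    rw [← map_smul, ← map_smul, ← map_add]
    congr 1
    ext i; fin_cases i <;> simp [pt]
  have hTe : ∀ z u, T z u = pt ⟪a z, fderiv ℝ f z u⟫ ⟪b z, fderiv ℝ f z u⟫ := fun z u => by
    simp only [hcomb, inner_add_right, real_inner_smul_right]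
    ext i; fin_cases i <;> simp [hT, hP0, hP1, pt] <;> ring
  have hinjf : ∀ z ∈ ball (0 : R2) 3, Injective (fderiv ℝ f z) := fun z hz =>
    (injective_iff_map_eq_zero _).2 fun v hv => by
      rw [hf, fderiv_par A j hz (mdiff hF _)] at hv
      exact (dpar_bij A j hz).1 ((hFi _ (hv.trans (map_zero _).symm)).trans (map_zero _).symm)
  have hTinj : ∀ z ∈ ball (0 : R2) 3, Injective (T z) := fun z hz =>
    (injective_iff_map_eq_zero _).2 fun u hu => by
      rw [hTe] at hu
      have h0 : ⟪a z, fderiv ℝ f z u⟫ = 0 := by simpa [pt] using congrArg (fun v : R2 => v 0) hu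
      have h1 : ⟪b z, fderiv ℝ f z u⟫ = 0 := by simpa [pt] using congrArg (fun v : R2 => v 1) hu
      have h2 : ⟪fderiv ℝ f z u, fderiv ℝ f z u⟫ = 0 := by
        nth_rewrite 1 [hcomb z u]
        rw [inner_add_left, real_inner_smul_left, real_inner_smul_left, h0, h1]
        ring
      exact hinjf z hz ((inner_self_eq_zero.1 h2).trans (map_zero _).symm)
  set rhs : R2 → R2 := fun z =>
    ⟪a z, W (A.par j z)⟫ • pt 1 0 + ⟪b z, W (A.par j z)⟫ • pt 0 1 with hrhs
  refine ⟨fun z => (T z).inverse (rhs z), ?_, fun z hz => ?_⟩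
  · have hdf := (smooth_par A hF j).fderiv_of_isOpen isOpen_ball (m := ∞) le_rfl
    have has : ContDiffOn ℝ ∞ a (ball 0 3) := hdf.clm_apply contDiffOn_const
    have hbs : ContDiffOn ℝ ∞ b (ball 0 3) := hdf.clm_apply contDiffOn_const
    have hTs : ContDiffOn ℝ ∞ T (ball 0 3) :=
      (((has.inner ℝ has).smul contDiffOn_const).add
        ((has.inner ℝ hbs).smul contDiffOn_const)).add
      (((hbs.inner ℝ has).smul contDiffOn_const).add
        ((hbs.inner ℝ hbs).smul contDiffOn_const))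
    have hrs : ContDiffOn ℝ ∞ rhs (ball 0 3) :=
      ((has.inner ℝ (smooth_par A hW j)).smul contDiffOn_const).add
        ((hbs.inner ℝ (smooth_par A hW j)).smul contDiffOn_const)
    intro z hz
    refine ContDiffAt.contDiffWithinAt ?_
    have hinv : ContDiffAt ℝ ∞ (fun x => (T x).inverse) z := by
      refine ContDiffAt.comp (g := ContinuousLinearMap.inverse) z ?_
        ((hTs z hz).contDiffAt (isOpen_ball.mem_nhds hz))
      have e : T z = ((LinearEquiv.ofInjectiveEndo (T z : R2 →ₗ[ℝ] R2)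
          (hTinj z hz)).toContinuousLinearEquiv : R2 →L[ℝ] R2) := ContinuousLinearMap.ext fun v => rfl
      rw [e]
      exact contDiffAt_map_inverse _
    exact hinv.clm_apply ((hrs z hz).contDiffAt (isOpen_ball.mem_nhds hz))
  · beta_reduce
    set u := (T z).inverse (rhs z) with hu
    have hTu : T z u = rhs z := by
      have e : (T z).IsInvertible :=
        ⟨(LinearEquiv.ofInjectiveEndo (T z : R2 →ₗ[ℝ] R2)
          (hTinj z hz)).toContinuousLinearEquiv, ContinuousLinearMap.ext fun v => rfl⟩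
      exact e.self_apply_inverse (rhs z)
    rw [hTe] at hTu
    have h0 : ⟪a z, fderiv ℝ f z u⟫ = ⟪a z, W (A.par j z)⟫ := by
      simpa [pt, hrhs] using congrArg (fun v : R2 => v 0) hTu
    have h1 : ⟪b z, fderiv ℝ f z u⟫ = ⟪b z, W (A.par j z)⟫ := by
      simpa [pt, hrhs] using congrArg (fun v : R2 => v 1) hTu
    rw [normalPart]
    congr 1
    refine Submodule.eq_starProjection_of_mem_of_inner_eq_zero ?_ fun w hw => ?_
    · rw [hf, fderiv_par A j hz (mdiff hF _)]
      exact LinearMap.mem_range_self _ _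
    · obtain ⟨s, rfl⟩ := hw
      obtain ⟨s', rfl⟩ := (dpar_bij A j hz).2 s
      rw [ContinuousLinearMap.coe_coe, ← fderiv_par A j hz (mdiff hF _),
        show fderiv ℝ (fun y => F (A.par j y)) z s' = _ from hcomb z s', inner_sub_left,
        inner_add_right, inner_add_right, real_inner_smul_right, real_inner_smul_right,
        real_inner_smul_right, real_inner_smul_right, real_inner_comm (a z) (W (A.par j z)),
        real_inner_comm (b z) (W (A.par j z)), real_inner_comm (a z) (fderiv ℝ f z u),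
        real_inner_comm (b z) (fderiv ℝ f z u), h0, h1, sub_self]

include A in
theorem smooth_normalPart {F W : M → V} (hF : ContMDiff 𝓘(ℝ, R2) 𝓘(ℝ, V) ∞ F)
    (hFi : ∀ p, Injective (dT F p)) (hW : ContMDiff 𝓘(ℝ, R2) 𝓘(ℝ, V) ∞ W) :
    ContMDiff 𝓘(ℝ, R2) 𝓘(ℝ, V) ∞ (normalPart F W) := by
  intro p
  obtain ⟨j, z, hz, rfl⟩ := exists_point A p
  have h3 : z ∈ ball (0 : R2) 3 := ball_subset_ball (by norm_num) hz
  obtain ⟨u, hu, he⟩ := exists_coef A hF hFi hW j
  have hl : ContDiffOn ℝ ∞ (fun x => W (A.par j x) - fderiv ℝ (fun y => F (A.par j y)) x (u x))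
      (ball 0 3) :=
    (smooth_par A hW j).sub
      (((smooth_par A hF j).fderiv_of_isOpen isOpen_ball (m := ∞) le_rfl).clm_apply hu)
  have hc := hl.contMDiffOn.comp (A.inv_smooth j) fun y hy => A.inv_mem j hy
  refine (hc.contMDiffAt ((A.src_open j).mem_nhds (A.par_mem j h3))).congr_of_eventuallyEq ?_
  filter_upwards [(A.src_open j).mem_nhds (A.par_mem j h3)] with y hy
  have := he (A.inv j y) (A.inv_mem j hy)
  rw [A.par_inv j y hy] at this
  simp only [comp_apply]
  rw [this, A.par_inv j y hy]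

include A hy in
theorem exists_section (hV : finrank ℝ V = 4) (h1 : y none = fun _ => 1)
    (himm : ∀ p (v : R2), v ≠ 0 → ∃ i, dT (y i) p v ≠ 0) {F : M → V}
    (hF : ContMDiff 𝓘(ℝ, R2) 𝓘(ℝ, V) ∞ F) (hFi : ∀ p, Injective (dT F p)) :
    ∃ L : M → V, ContMDiff 𝓘(ℝ, R2) 𝓘(ℝ, V) ∞ L ∧ (∀ p v, ⟪L p, dT F p v⟫ = 0) ∧
      ∀ p, L p = 0 → Injective (dT L p) := by
  classical
  have : Nontrivial V := Module.nontrivial_of_finrank_pos (R := ℝ) (by omega)
  set f : A.ι → R2 → V := fun j x => F (A.par j x) with hfdef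
  set U : A.ι × Bool × Option κ → Set ((R2 × ℝ) × (R2 × R2)) := fun J =>
    {q | q.1.1 ∈ ball (0 : R2) 1 ∧
      fderiv ℝ (fun x => y J.2.2 (A.par J.1 x)) q.1.1 (lineVec J.2.1 q.1.2) ≠ 0} with hU
  set bad : A.ι × Bool × Option κ → Set (Option κ → V) := fun J =>
    {B | ∃ q ∈ U J, -(fderiv ℝ (f J.1) q.1.1 q.2.1) + ∑ i, y i (A.par J.1 q.1.1) • B i = 0 ∧
      -(fderiv ℝ (fderiv ℝ (f J.1)) q.1.1 (lineVec J.2.1 q.1.2) q.2.1 +
          fderiv ℝ (f J.1) q.1.1 q.2.2) +
        ∑ i, fderiv ℝ (fun x => y i (A.par J.1 x)) q.1.1 (lineVec J.2.1 q.1.2) • B i = 0}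
    with hbad
  have hdense : Dense (⋃ J, bad J)ᶜ := by
    refine dense_avoid fun ⟨j, m, i₀⟩ => ?_
    simp only [hbad]
    have hq : ∀ q ∈ U (j, m, i₀), q.1.1 ∈ ball (0 : R2) 3 := fun q hq =>
      ball_subset_ball (by norm_num) hq.1
    have hY : ∀ i, ∀ q ∈ U (j, m, i₀), ContDiffAt ℝ ∞ (fun x => y i (A.par j x)) q.1.1 :=
      fun i q h => (smooth_par_real A (hy i) j _ (hq q h)).contDiffAt
        (isOpen_ball.mem_nhds (hq q h))
    have hf' : ∀ q ∈ U (j, m, i₀), ContDiffAt ℝ ∞ (f j) q.1.1 :=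
      fun q h => (smooth_par A hF j _ (hq q h)).contDiffAt (isOpen_ball.mem_nhds (hq q h))
    have hz : ∀ q : (R2 × ℝ) × (R2 × R2),
        ContDiffAt ℝ 1 (fun q : (R2 × ℝ) × (R2 × R2) => q.1.1) q :=
      fun q => (contDiff_fst.comp contDiff_fst).contDiffAt
    have hl : ∀ q : (R2 × ℝ) × (R2 × R2),
        ContDiffAt ℝ 1 (fun q : (R2 × ℝ) × (R2 × R2) => lineVec m q.1.2) q :=
      fun q => (((contDiff_lineVec m).of_le (by simp)).comp
        (contDiff_snd.comp contDiff_fst)).contDiffAt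
    refine dimH_bad_two none i₀ (fun i q h =>
        ContDiffAt.comp (g := fun x => y i (A.par j x)) q ((hY i q h).of_le (by simp)) (hz q))
      (fun i q h => (((hY i q h).fderiv_right (m := 1) (by norm_cast)).comp q (hz q)).clm_apply
        (hl q))
      (fun q h => ((((hf' q h).fderiv_right (m := 1) (by norm_cast)).comp q (hz q)).clm_apply
        (contDiff_fst.comp contDiff_snd).contDiffAt).neg)
      (fun q h => (((((((hf' q h).fderiv_right (m := 2) (by norm_cast)).fderiv_right (m := 1)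
        (by norm_num)).comp q (hz q)).clm_apply (hl q)).clm_apply
          (contDiff_fst.comp contDiff_snd).contDiffAt).add
        ((((hf' q h).fderiv_right (m := 1) (by norm_cast)).comp q (hz q)).clm_apply
          (contDiff_snd.comp contDiff_snd).contDiffAt)).neg)
      (fun q h => ?_) (by simp [finrank_prod, hV])
    have e : fderiv ℝ (fun x => y none (A.par j x)) q.1.1 = 0 := by simp [h1]
    simpa [h1, e] using h.2
  obtain ⟨B, hB⟩ := hdense.nonempty
  simp only [mem_compl_iff, mem_iUnion, not_exists] at hB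
  set W : M → V := fun p => ∑ i, y i p • B i with hWdef
  have hW : ContMDiff 𝓘(ℝ, R2) 𝓘(ℝ, V) ∞ W := smooth_comb hy B
  have hL := smooth_normalPart A hF hFi hW
  refine ⟨normalPart F W, hL, inner_normalPart F W, fun p hp => ?_⟩
  refine (injective_iff_map_eq_zero _).2 fun v hv => by_contra fun hv0 => ?_
  obtain ⟨j, z, hz, rfl⟩ := exists_point A p
  have h3 : z ∈ ball (0 : R2) 3 := ball_subset_ball (by norm_num) hz
  obtain ⟨v', rfl⟩ := (dpar_bij A j h3).2 v
  have hv' : v' ≠ 0 := fun e => hv0 (by rw [e, map_zero])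
  obtain ⟨m, t, c, hc, rfl⟩ := exists_lineVec hv'
  obtain ⟨i₀, hi₀⟩ := himm _ (dpar A j z (lineVec m t))
    (fun e => lineVec_ne m t ((dpar_bij A j h3).1 (e.trans (map_zero _).symm)))
  rw [← fderiv_par A j h3 (mdiff_real (hy i₀) _)] at hi₀
  obtain ⟨u, hu, he⟩ := exists_coef A hF hFi hW j
  have hWz : W (A.par j z) = fderiv ℝ (f j) z (u z) := sub_eq_zero.1 ((he z h3).symm.trans hp)
  rw [map_smul, map_smul, ← fderiv_par A j h3 (mdiff hL _)] at hv
  have hL0 : fderiv ℝ (fun x => normalPart F W (A.par j x)) z (lineVec m t) = 0 :=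
    (smul_eq_zero.1 hv).resolve_left hc
  have hfd : DifferentiableAt ℝ (fderiv ℝ (f j)) z :=
    (((smooth_par A hF j z h3).contDiffAt (isOpen_ball.mem_nhds h3)).fderiv_right (m := 1)
      (by norm_cast)).differentiableAt (by norm_num)
  have hud : DifferentiableAt ℝ u z :=
    ((hu z h3).contDiffAt (isOpen_ball.mem_nhds h3)).differentiableAt (by simp)
  have hLd : DifferentiableAt ℝ (fun x => normalPart F W (A.par j x)) z :=
    ((smooth_par A hL j z h3).contDiffAt (isOpen_ball.mem_nhds h3)).differentiableAt (by simp)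
  have hWl : (fun x => W (A.par j x)) =ᶠ[𝓝 z]
      fun x => normalPart F W (A.par j x) + fderiv ℝ (f j) x (u x) := by
    filter_upwards [isOpen_ball.mem_nhds h3] with x hx
    rw [he x hx, sub_add_cancel]
  have hd := hWl.fderiv_eq (𝕜 := ℝ)
  rw [(hLd.hasFDerivAt.fun_add (hfd.hasFDerivAt.clm_apply hud.hasFDerivAt)).fderiv] at hd
  have hdv := DFunLike.congr_fun hd (lineVec m t)
  rw [show (fun x => W (A.par j x)) = fun x => ∑ i, y i (A.par j x) • B i from rfl,
    fderiv_comb A hy B j h3] at hdv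
  refine hB (j, m, i₀) ⟨((z, t), (u z, fderiv ℝ u z (lineVec m t))), ⟨hz, hi₀⟩, ?_, ?_⟩
  · rw [neg_add_eq_sub, sub_eq_zero]
    exact hWz
  · rw [neg_add_eq_sub, sub_eq_zero, hdv]
    simp [hL0]
    abel

include A in
theorem finite_zeros [CompactSpace M] [T2Space M] {L : M → V}
    (hL : ContMDiff 𝓘(ℝ, R2) 𝓘(ℝ, V) ∞ L) (h : ∀ p, L p = 0 → Injective (dT L p)) :
    {p | L p = 0}.Finite := by
  by_contra hinf
  obtain ⟨p, hp⟩ := Set.Infinite.exists_accPt_principal hinf
  have hmem : L p = 0 := (isClosed_eq hL.continuous continuous_const).mem_of_frequently_of_tendsto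
    (accPt_iff_frequently.1 hp |>.mono fun y hy => hy.2) tendsto_id
  obtain ⟨j, z, hz, rfl⟩ := exists_point A p
  have h3 : z ∈ ball (0 : R2) 3 := ball_subset_ball (by norm_num) hz
  have hd : DifferentiableAt ℝ (fun x => L (A.par j x)) z :=
    ((smooth_par A hL j z h3).contDiffAt (isOpen_ball.mem_nhds h3)).differentiableAt (by simp)
  have hinj : Injective (fderiv ℝ (fun x => L (A.par j x)) z) := fun a b hab => by
    rw [fderiv_par A j h3 (mdiff hL _), fderiv_par A j h3 (mdiff hL _)] at hab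
    exact (dpar_bij A j h3).1 (h _ hmem hab)
  obtain ⟨K, -, hK⟩ := ((fderiv ℝ (fun x => L (A.par j x)) z) : R2 →ₗ[ℝ] V).exists_antilipschitzWith
    (LinearMap.ker_eq_bot.2 hinj)
  have hev : ∀ᶠ x in 𝓝[≠] z, L (A.par j x) ≠ 0 := hd.hasFDerivAt.eventually_ne ⟨K, hK⟩
  rw [eventually_nhdsWithin_iff] at hev
  have hsrc := (A.src_open j).mem_nhds (A.par_mem j h3)
  have hc : ContinuousAt (A.inv j) (A.par j z) :=
    (A.inv_smooth j).continuousOn.continuousAt hsrc
  have hz' : A.inv j (A.par j z) = z := A.inv_par j z h3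
  obtain ⟨y, ⟨hyne, hy0⟩, hys, hyev⟩ := ((accPt_iff_frequently.1 hp).and_eventually
    (Filter.Eventually.and hsrc (hc.eventually (hz'.symm ▸ hev)))).exists
  refine hyev (fun e => hyne ?_) (by rw [A.par_inv j y hys]; exact hy0)
  rw [← A.par_inv j y hys, mem_singleton_iff.1 e, hz']

end Generic

open Generic in
/-- General position: a compact surface immerses in four-space with transversal double points
and a normal field with finitely many regular zeros. -/
theorem exists_generic {M : Type} [TopologicalSpace M] [ChartedSpace R2 M]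
    [IsManifold 𝓘(ℝ, R2) ∞ M] [CompactSpace M] [T2Space M] :
    ∃ F L : M → Quaternion ℝ, ContMDiff 𝓘(ℝ, R2) 𝓘(ℝ, Quaternion ℝ) ∞ F ∧
      ContMDiff 𝓘(ℝ, R2) 𝓘(ℝ, Quaternion ℝ) ∞ L ∧ (∀ p, Injective (dT F p)) ∧
      (∀ p v, ⟪L p, dT F p v⟫ = 0) ∧ {p | L p = 0}.Finite ∧
      (∀ p, L p = 0 → Injective (dT L p)) ∧
      ∀ p q, p ≠ q → F p = F q → ∀ v w, dT F p v = dT F q w → v = 0 ∧ w = 0 := by
  obtain ⟨κ, _, y, hy, hone, himm, hind⟩ := exists_family M
  obtain ⟨A⟩ := Iter.nonempty_atlas (E := R2) (I := 𝓘(ℝ, R2)) (M := M)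
    (ContinuousLinearEquiv.refl ℝ R2)
  obtain ⟨F, hF, hFi, hF2⟩ :=
    exists_immersion A hy (V := Quaternion ℝ) Quaternion.finrank_eq_four himm hind
  obtain ⟨L, hL, hLo, hLr⟩ := exists_section A hy Quaternion.finrank_eq_four hone himm hF hFi
  exact ⟨F, L, hF, hL, hFi, hLo, finite_zeros A hL hLr, hLr, hF2⟩

end Vale.Agent.P205.Global
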