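import Vale.Agent.P205.Chart
import Vale.Agent.P205.Global.Avoid
import Mathlib.Geometry.Manifold.WhitneyEmbedding

/-!
A finite family of functions on a compact surface for generic linear perturbations: it separates
points, and the secant of two points is independent of the difference of any two tangent vectors
there.
-/

noncomputable section

open Set Filter Function Module
open scoped Topology ContDiff Manifold ENNReal

namespace Vale.Agent.P205.Global

variable {M : Type} [TopologicalSpace M] [ChartedSpace R2 M] [IsManifold 𝓘(ℝ, R2) ∞ M]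
  {V : Type} [NormedAddCommGroup V] [NormedSpace ℝ V]

/-- The differential of a map to a vector space, as a linear map on the model plane. -/
def dT (f : M → V) (p : M) : R2 →L[ℝ] V := mfderiv 𝓘(ℝ, R2) 𝓘(ℝ, V) f p

omit [IsManifold 𝓘(ℝ, R2) ∞ M] in
theorem dT_comp {N : ℕ} {x : M → EuclideanSpace ℝ (Fin N)} {g : EuclideanSpace ℝ (Fin N) → ℝ}
    {p : M} (hx : MDifferentiableAt 𝓘(ℝ, R2) 𝓘(ℝ, EuclideanSpace ℝ (Fin N)) x p)
    {g' : EuclideanSpace ℝ (Fin N) →L[ℝ] ℝ} (hg : HasFDerivAt g g' (x p)) (v : R2) :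
    dT (fun q => g (x q)) p v = g' (dT x p v) := by
  have h := mfderiv_comp p hg.hasMFDerivAt.mdifferentiableAt hx
  rw [hg.hasMFDerivAt.mfderiv] at h
  exact DFunLike.congr_fun h v

/-- The twisted cubic algebra: a secant of the moment map is not parallel to a difference of
tangents. -/
theorem moment_indep {n : ℕ} (P Q a b : Fin n → ℝ) {l : ℝ} {k : Fin n} (hk : P k ≠ Q k)
    (h1 : ∀ i, a i - b i = l * (P i - Q i))
    (h2 : ∀ i j, (P i * a j + P j * a i) - (Q i * b j + Q j * b i) =
      l * (P i * P j - Q i * Q j))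
    (h3 : ∀ i, 3 * P i ^ 2 * a i - 3 * Q i ^ 2 * b i = l * (P i ^ 3 - Q i ^ 3)) :
    a = 0 ∧ b = 0 := by
  have hd : P k - Q k ≠ 0 := sub_ne_zero.2 hk
  have hb : 2 * b k + l * (P k - Q k) = 0 := by
    have e : (P k - Q k) * (2 * b k + l * (P k - Q k)) = 0 := by
      linear_combination h2 k k - 2 * P k * h1 k
    exact (mul_eq_zero.1 e).resolve_left hd
  have hl : l = 0 := by
    have e : l * (P k - Q k) ^ 3 = 0 := by
      linear_combination 2 * h3 k - 6 * P k ^ 2 * h1 k - 3 * (P k - Q k) * (P k + Q k) * hb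
    exact (mul_eq_zero.1 e).resolve_right (pow_ne_zero 3 hd)
  have hak : a k = 0 := by linear_combination h1 k + hb / 2 + (P k - Q k) / 2 * hl
  have hab : ∀ i, b i = a i := fun i => by linear_combination -h1 i - (P i - Q i) * hl
  have ha : a = 0 := funext fun j => by
    have e : (P k - Q k) * a j = 0 := by
      linear_combination h2 k j + Q k * hab j + Q j * hab k + (P k * P j - Q k * Q j) * hl
        - (P j - Q j) * hak
    exact (mul_eq_zero.1 e).resolve_left hd
  exact ⟨ha, funext fun j => by rw [hab, ha]⟩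

variable (M) in
/-- Functions with the independence needed for general position. -/
theorem exists_family [CompactSpace M] [T2Space M] :
    ∃ (κ : Type) (_ : Fintype κ) (y : Option κ → M → ℝ),
      (∀ i, ContMDiff 𝓘(ℝ, R2) 𝓘(ℝ) ∞ (y i)) ∧ y none = (fun _ => 1) ∧
      (∀ p (v : R2), v ≠ 0 → ∃ i, dT (y i) p v ≠ 0) ∧
      ∀ p q, p ≠ q → ∀ v w : R2, (v ≠ 0 ∨ w ≠ 0) → ∃ i i',
        (y i p - y i q) * (dT (y i') p v - dT (y i') q w) -
          (y i' p - y i' q) * (dT (y i) p v - dT (y i) q w) ≠ 0 := by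
  obtain ⟨N, x, hx, hemb, hinj⟩ :=
    exists_embedding_euclidean_of_compact (I := 𝓘(ℝ, R2)) (M := M)
  let g : Option (Fin N ⊕ (Fin N × Fin N) ⊕ Fin N) → EuclideanSpace ℝ (Fin N) → ℝ := fun s P =>
    match s with
    | none => 1
    | some (.inl i) => P i
    | some (.inr (.inl ij)) => P ij.1 * P ij.2
    | some (.inr (.inr i)) => P i ^ 3
  have hp : ∀ i, ContDiff ℝ ∞ fun P : EuclideanSpace ℝ (Fin N) => P i := fun i =>
    (EuclideanSpace.proj (𝕜 := ℝ) i).contDiff
  have hpd : ∀ (i : Fin N) P, HasFDerivAt (fun P : EuclideanSpace ℝ (Fin N) => P i)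
      (EuclideanSpace.proj (𝕜 := ℝ) i) P := fun i P =>
    (EuclideanSpace.proj (𝕜 := ℝ) i).hasFDerivAt
  have hg : ∀ s, ContDiff ℝ ∞ (g s) := by
    rintro (_ | i | ij | i)
    exacts [contDiff_const, hp i, (hp ij.1).mul (hp ij.2), (hp i).pow 3]
  have hxd : ∀ p, MDifferentiableAt 𝓘(ℝ, R2) 𝓘(ℝ, EuclideanSpace ℝ (Fin N)) x p :=
    fun p => (hx p).mdifferentiableAt (by simp)
  have d1 : ∀ p v i, dT (fun q => x q i) p v = dT x p v i := fun p v i => by
    rw [dT_comp (hxd p) (hpd i (x p))]; simp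
  have d2 : ∀ p v i j, dT (fun q => x q i * x q j) p v =
      x p i * dT x p v j + x p j * dT x p v i := fun p v i j => by
    rw [dT_comp (g := fun P => P i * P j) (hxd p) ((hpd i (x p)).mul (hpd j (x p)))]
    simp
  have d3 : ∀ p v i, dT (fun q => x q i ^ 3) p v = 3 * x p i ^ 2 * dT x p v i := fun p v i => by
    rw [dT_comp (g := fun P => P i ^ 3) (hxd p) ((hpd i (x p)).pow 3)]
    simp
  have h0 : ∀ p (v : R2), dT x p v = 0 → v = 0 := fun p v h =>
    hinj p (h.trans (map_zero (dT x p)).symm)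
  refine ⟨Fin N ⊕ (Fin N × Fin N) ⊕ Fin N, inferInstance, fun s p => g s (x p),
    fun s => (hg s).comp_contMDiff hx, rfl, fun p v hv => ?_, fun p q hpq v w hvw => ?_⟩
  · by_contra h
    push Not at h
    refine hv (h0 p v ?_)
    ext i
    have hi : dT (fun q => x q i) p v = 0 := h (some (.inl i))
    rwa [d1] at hi
  · by_contra h
    push Not at h
    obtain ⟨k, hk⟩ : ∃ k, x p k ≠ x q k := by
      by_contra hh
      push Not at hh
      exact hpq (hemb.injective (WithLp.ofLp_injective _ (funext hh)))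
    set l := (dT x p v k - dT x q w k) / (x p k - x q k) with hl
    have key : ∀ s, dT (fun r => g s (x r)) p v - dT (fun r => g s (x r)) q w =
        l * (g s (x p) - g s (x q)) := fun s => by
      have := h (some (.inl k)) s
      change (x p k - x q k) * (dT (fun r => g s (x r)) p v - dT (fun r => g s (x r)) q w) -
        (g s (x p) - g s (x q)) * (dT (fun r => x r k) p v - dT (fun r => x r k) q w) = 0 at this
      rw [d1, d1] at this
      rw [hl, div_mul_eq_mul_div, eq_div_iff (sub_ne_zero.2 hk)]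
      linarith
    obtain ⟨ha, hb⟩ := moment_indep (fun i => x p i) (fun i => x q i) (fun i => dT x p v i)
      (fun i => dT x q w i) hk (l := l)
      (fun i => by
        have e : dT (fun r => x r i) p v - dT (fun r => x r i) q w = l * (x p i - x q i) :=
          key (some (.inl i))
        rwa [d1, d1] at e)
      (fun i j => by
        have e : dT (fun r => x r i * x r j) p v - dT (fun r => x r i * x r j) q w =
            l * (x p i * x p j - x q i * x q j) := key (some (.inr (.inl (i, j))))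
        rwa [d2, d2] at e)
      (fun i => by
        have e : dT (fun r => x r i ^ 3) p v - dT (fun r => x r i ^ 3) q w =
            l * (x p i ^ 3 - x q i ^ 3) := key (some (.inr (.inr i)))
        rwa [d3, d3] at e)
    exact hvw.elim (fun hv => hv (h0 p v (WithLp.ofLp_injective _ ha)))
      fun hw => hw (h0 q w (WithLp.ofLp_injective _ hb))

section avoid

variable {κ : Type} [Fintype κ] [FiniteDimensional ℝ V] {Q : Type} [NormedAddCommGroup Q]
  [NormedSpace ℝ Q] [FiniteDimensional ℝ Q] {U : Set Q}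

/-- One linear condition with a coefficient which does not vanish. -/
theorem dimH_bad_one {α : κ → Q → ℝ} {c : Q → V} (i₀ : κ)
    (hα : ∀ i, ∀ q ∈ U, ContDiffAt ℝ 1 (α i) q) (hc : ∀ q ∈ U, ContDiffAt ℝ 1 c q)
    (h0 : ∀ q ∈ U, α i₀ q ≠ 0) (hd : finrank ℝ Q < finrank ℝ V) :
    dimH {A : κ → V | ∃ q ∈ U, c q + ∑ i, α i q • A i = 0} ≤
      ((finrank ℝ (κ → V) - 1 : ℕ) : ℝ≥0∞) := by
  classical
  have h := dimH_affine_bad (P := κ → V)
    (Λ := fun q => ∑ i, α i q • ContinuousLinearMap.proj (φ := fun _ : κ => V) i)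
    (ContinuousLinearMap.single ℝ (fun _ : κ => V) i₀) hc
    (fun q hq => ContDiffAt.sum fun i _ => (hα i q hq).smul contDiffAt_const)
    (fun q hq z hz => by
      simp [Pi.single_apply, h0 q hq] at hz
      exact hz) hd
  simpa using h

/-- Two linear conditions with a minor which does not vanish. -/
theorem dimH_bad_two {α β : κ → Q → ℝ} {c d : Q → V} (i i' : κ)
    (hα : ∀ i, ∀ q ∈ U, ContDiffAt ℝ 1 (α i) q) (hβ : ∀ i, ∀ q ∈ U, ContDiffAt ℝ 1 (β i) q)
    (hc : ∀ q ∈ U, ContDiffAt ℝ 1 c q) (hd' : ∀ q ∈ U, ContDiffAt ℝ 1 d q)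
    (h0 : ∀ q ∈ U, α i q * β i' q - α i' q * β i q ≠ 0)
    (hd : finrank ℝ Q < 2 * finrank ℝ V) :
    dimH {A : κ → V | ∃ q ∈ U, c q + ∑ k, α k q • A k = 0 ∧ d q + ∑ k, β k q • A k = 0} ≤
      ((finrank ℝ (κ → V) - 1 : ℕ) : ℝ≥0∞) := by
  classical
  set pr : κ → (κ → V) →L[ℝ] V := fun k => ContinuousLinearMap.proj (φ := fun _ : κ => V) k
  set si : κ → V →L[ℝ] (κ → V) := fun k => ContinuousLinearMap.single ℝ (fun _ : κ => V) k
  have h := dimH_affine_bad (P := κ → V) (c := fun q => (c q, d q))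
    (Λ := fun q => ∑ k, (α k q • (ContinuousLinearMap.inl ℝ V V).comp (pr k) +
      β k q • (ContinuousLinearMap.inr ℝ V V).comp (pr k)))
    ((si i).comp (ContinuousLinearMap.fst ℝ V V) + (si i').comp (ContinuousLinearMap.snd ℝ V V))
    (fun q hq => (hc q hq).prodMk (hd' q hq))
    (fun q hq => ContDiffAt.sum fun k _ =>
      ((hα k q hq).smul contDiffAt_const).add ((hβ k q hq).smul contDiffAt_const))
    (fun q hq z hz => by
      simp [pr, si, Pi.single_apply, Finset.sum_add_distrib, smul_add] at hz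
      simp only [Prod.ext_iff, Prod.fst_add, Prod.snd_add, Prod.fst_zero, Prod.snd_zero,
        Prod.fst_sum, Prod.snd_sum] at hz
      obtain ⟨h1, h2⟩ := hz
      simp [Finset.sum_add_distrib] at h1 h2
      have hne := h0 q hq
      have e1 : (α i q * β i' q - α i' q * β i q) • z.1 = 0 := by
        linear_combination (norm := module) β i' q • h1 - α i' q • h2
      have e2 : (α i q * β i' q - α i' q * β i q) • z.2 = 0 := by
        linear_combination (norm := module) α i q • h2 - β i q • h1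
      exact Prod.ext ((smul_eq_zero.1 e1).resolve_left hne) ((smul_eq_zero.1 e2).resolve_left hne))
    (by rw [finrank_prod]; omega)
  refine le_trans (dimH_mono ?_) h
  rintro A ⟨q, hq, h1, h2⟩
  exact ⟨q, hq, by simp [pr, Prod.ext_iff, Prod.fst_sum, Prod.snd_sum, h1, h2]⟩

end avoid

end Vale.Agent.P205.Global
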