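import Vale.Agent.P205.Global.Patch

/-!
Changes of a normal field inside a coordinate disc, and the movement of a single regular zero
along the surface minus the other zeros.
-/

noncomputable section

open Set Filter Metric Function
open scoped Topology ContDiff Manifold Quaternion ComplexConjugate

namespace Vale.Agent.P205.Global

variable {M : Type} [TopologicalSpace M] [ChartedSpace Plane M]

/-- A smooth normal field along a map. -/
structure IsNormal (F L : M → ℍ[ℝ]) : Prop where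
  smooth : ContMDiff 𝓘(ℝ, Plane) 𝓘(ℝ, ℍ[ℝ]) ∞ L
  ortho : ∀ p v, inner ℝ (L p) (dQ F p v) = 0

theorem regular_congr {L L' : M → ℍ[ℝ]} {p : M} (h : L' =ᶠ[𝓝 p] L) :
    Injective (dQ L' p) ↔ Injective (dQ L p) := by
  have e : dQ L' p = dQ L p := funext fun v => DFunLike.congr_fun h.mfderiv_eq v
  rw [e]

namespace Patch

variable {F : M → ℍ[ℝ]} (P : Patch F)

open Classical in
/-- The field with a new coordinate function in the disc. -/
def repl (L : M → ℍ[ℝ]) (s : ℂ → ℂ) (p : M) : ℍ[ℝ] :=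
  if p ∈ P.V then P.ν (P.q p) * Quat.cq (P.μ (P.q p)) (s (P.q p)) else L p

theorem repl_ψ (L : M → ℍ[ℝ]) (s : ℂ → ℂ) {z : ℂ} (hz : z ∈ ball (0 : ℂ) P.r) :
    P.repl L s (P.ψ z) = P.ν z * Quat.cq (P.μ z) (s z) := by
  rw [repl, if_pos (P.ψ_mem hz), P.q_ψ z hz]

theorem S_repl (L : M → ℍ[ℝ]) (s : ℂ → ℂ) {z : ℂ} (hz : z ∈ ball (0 : ℂ) P.r) :
    P.S (P.repl L s) z = s z := by
  rw [S, P.repl_ψ L s hz, P.coord_mul hz]

theorem zero_iff {L : M → ℍ[ℝ]} (hF : ContMDiff 𝓘(ℝ, Plane) 𝓘(ℝ, ℍ[ℝ]) ∞ F)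
    (h : IsNormal F L) {z : ℂ} (hz : z ∈ ball (0 : ℂ) P.r) : L (P.ψ z) = 0 ↔ P.S L z = 0 := by
  rw [← P.normal_coord hF h.ortho hz, P.coord_eq_zero hz]

open Classical in
theorem repl_zero (L : M → ℍ[ℝ]) (s : ℂ → ℂ) (p : M) :
    P.repl L s p = 0 ↔ if p ∈ P.V then s (P.q p) = 0 else L p = 0 := by
  classical
  by_cases hp : p ∈ P.V
  · rw [repl, if_pos hp, if_pos hp, P.coord_eq_zero (P.q_mem hp)]
  · rw [repl, if_neg hp, if_neg hp]

theorem repl_eq {L : M → ℍ[ℝ]} (hF : ContMDiff 𝓘(ℝ, Plane) 𝓘(ℝ, ℍ[ℝ]) ∞ F) (h : IsNormal F L)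
    {s : ℂ → ℂ} {p : M} (hp : p ∈ P.V → s (P.q p) = P.S L (P.q p)) : P.repl L s p = L p := by
  by_cases hpV : p ∈ P.V
  · rw [repl, if_pos hpV, hp hpV, P.normal_coord hF h.ortho (P.q_mem hpV), P.ψ_q p hpV]
  · exact if_neg hpV

theorem repl_eventually [T2Space M] {L : M → ℍ[ℝ]}
    (hF : ContMDiff 𝓘(ℝ, Plane) 𝓘(ℝ, ℍ[ℝ]) ∞ F) (h : IsNormal F L) {s : ℂ → ℂ} {c : ℂ} {ρ : ℝ}
    (hc : ‖c‖ + ρ < P.r) (hs : ∀ z ∈ ball (0 : ℂ) P.r, z ∉ closedBall c ρ → s z = P.S L z)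
    {p : M} (hp : p ∈ P.V → P.q p ∉ closedBall c ρ) : P.repl L s =ᶠ[𝓝 p] L := by
  have hpK : p ∉ P.ψ '' closedBall c ρ := by
    rintro ⟨z, hz, rfl⟩
    have hzb : z ∈ ball (0 : ℂ) P.r :=
      closedBall_subset_ball' (by rw [dist_zero_right]; linarith) hz
    exact hp (P.ψ_mem hzb) (by rwa [P.q_ψ z hzb])
  filter_upwards [(P.closed_image hc).isOpen_compl.mem_nhds hpK] with y hy
  exact P.repl_eq hF h fun hyV =>
    hs _ (P.q_mem hyV) fun hz => hy ⟨_, hz, P.ψ_q y hyV⟩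

theorem isNormal_repl [T2Space M] {L : M → ℍ[ℝ]}
    (hF : ContMDiff 𝓘(ℝ, Plane) 𝓘(ℝ, ℍ[ℝ]) ∞ F) (h : IsNormal F L) {s : ℂ → ℂ} {c : ℂ} {ρ : ℝ}
    (hc : ‖c‖ + ρ < P.r) (hsm : ContDiffOn ℝ ∞ s (ball 0 P.r))
    (hs : ∀ z ∈ ball (0 : ℂ) P.r, z ∉ closedBall c ρ → s z = P.S L z) :
    IsNormal F (P.repl L s) := by
  refine ⟨fun p => ?_, fun p v => ?_⟩
  · by_cases hp : p ∈ P.V
    · have hg : ContDiffOn ℝ ∞ (fun z => P.ν z * Quat.cq (P.μ z) (s z)) (ball 0 P.r) :=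
        (P.smooth_ν hF).mul (P.smooth_cq hF hsm)
      exact ((hg.contMDiffOn.contMDiffAt (isOpen_ball.mem_nhds (P.q_mem hp))).comp p
        (P.q_smooth.contMDiffAt (P.V_open.mem_nhds hp))).congr_of_eventuallyEq
          (eventually_of_mem (P.V_open.mem_nhds hp) fun y hy => if_pos hy)
    · exact (h.smooth.contMDiffAt).congr_of_eventuallyEq
        (P.repl_eventually hF h hc hs fun hp' => absurd hp' hp)
  · by_cases hp : p ∈ P.V
    · rw [repl, if_pos hp, P.deriv_chart hF hp]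
      set w : ℂ := mfderiv 𝓘(ℝ, Plane) 𝓘(ℝ, ℂ) P.q p v
      have hz := P.q_mem hp
      obtain ⟨hre, -, -, h1, h2⟩ := P.μ_spec hz
      obtain ⟨r1, r2⟩ := Quat.re_star_nu (t₁ := P.t₁ (P.q p)) (t₂ := P.t₂ (P.q p)) P.e_re
      have key : ∀ t : ℍ[ℝ], (star (P.ν (P.q p)) * t).re = 0 →
          inner ℝ (P.μ (P.q p)) (star (P.ν (P.q p)) * t) = 0 →
          inner ℝ (P.ν (P.q p) * Quat.cq (P.μ (P.q p)) (s (P.q p))) t = 0 := by
        intro t ht ht'
        rw [Quat.inner_mul_left, Quat.cq, inner_add_left, real_inner_smul_left,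
          real_inner_smul_left, ht', mul_zero, add_zero]
        simp [Quat.inner_eq, ht]
      have e : fderiv ℝ (fun x => F (P.ψ x)) (P.q p) w = w.re • P.t₁ (P.q p) + w.im • P.t₂ (P.q p) :=
        by rw [t₁, t₂, ← map_smul, ← map_smul, ← map_add]; simp
      change inner ℝ _ (fderiv ℝ (fun x => F (P.ψ x)) (P.q p) w) = 0
      rw [e, inner_add_right, real_inner_smul_right, real_inner_smul_right, key _ r1 h1,
        key _ r2 h2]
      simp
    · rw [repl, if_neg hp]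
      exact h.ortho p v

end Patch

/-- The zero at `x` of a normal field can be moved to `y`, keeping the field near `Z`. -/
def Movable (F : M → ℍ[ℝ]) (Z : Set M) (x y : M) : Prop :=
  ∀ L, IsNormal F L → {p | L p = 0} = insert x Z → Injective (dQ L x) →
    ∃ L', IsNormal F L' ∧ {p | L' p = 0} = insert y Z ∧ Injective (dQ L' y) ∧
      ∀ z ∈ Z, L' =ᶠ[𝓝 z] L

theorem movable_patch [T2Space M] {F : M → ℍ[ℝ]} (hF : ContMDiff 𝓘(ℝ, Plane) 𝓘(ℝ, ℍ[ℝ]) ∞ F)
    (P : Patch F) {Z : Set M} (hZ : Disjoint P.V Z) {x y : M} (hx : x ∈ P.V) (hy : y ∈ P.V) :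
    Movable F Z x y := by
  intro L hL hzero hreg
  have ha := P.q_mem hx
  have hb := P.q_mem hy
  rw [mem_ball_zero_iff] at ha hb
  set R := (max ‖P.q x‖ ‖P.q y‖ + P.r) / 2 with hR
  have hRr : R < P.r := by have := max_lt ha hb; linarith
  have haR : P.q x ∈ ball (0 : ℂ) R := mem_ball_zero_iff.2 (by
    have := le_max_left ‖P.q x‖ ‖P.q y‖; linarith [max_lt ha hb])
  have hbR : P.q y ∈ ball (0 : ℂ) R := mem_ball_zero_iff.2 (by
    have := le_max_right ‖P.q x‖ ‖P.q y‖; linarith [max_lt ha hb])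
  have hsub : closedBall (0 : ℂ) R ⊆ ball 0 P.r := closedBall_subset_ball hRr
  have hL0 : ∀ p, L p = 0 ↔ p = x ∨ p ∈ Z := fun p => Set.ext_iff.1 hzero p
  have hz0 : ∀ z ∈ ball (0 : ℂ) P.r, P.S L z = 0 ↔ z = P.q x := fun z hz => by
    rw [← P.zero_iff hF hL hz, hL0]
    constructor
    · rintro (h | h)
      · rw [← h, P.q_ψ z hz]
      · exact (disjoint_left.1 hZ (P.ψ_mem hz) h).elim
    · rintro rfl
      exact Or.inl (P.ψ_q x hx)
  obtain ⟨s', r, hrR, hsm, hout, hzero', hsign⟩ := Disc.move isOpen_ball hsub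
    (P.smooth_S hF hL.smooth) haR hbR (fun z hz => hz0 z (hsub hz))
    ((P.regular_iff hF hL.smooth hL.ortho hx ((hL0 x).2 (Or.inl rfl))).1 hreg)
  have hc : ‖(0 : ℂ)‖ + r < P.r := by simp; linarith
  have hs : ∀ z ∈ ball (0 : ℂ) P.r, z ∉ closedBall (0 : ℂ) r → s' z = P.S L z :=
    fun z _ hz => hout z hz
  have hN := P.isNormal_repl hF hL hc hsm hs
  have hzall : ∀ z ∈ ball (0 : ℂ) P.r, s' z = 0 ↔ z = P.q y := fun z hz => by
    by_cases hzR : z ∈ closedBall (0 : ℂ) R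
    · exact hzero' z hzR
    · rw [hout z fun h => hzR (closedBall_subset_closedBall hrR.le h), hz0 z hz]
      refine ⟨fun h => ?_, fun h => ?_⟩
      · exact absurd (ball_subset_closedBall (h ▸ haR)) hzR
      · exact absurd (ball_subset_closedBall (h ▸ hbR)) hzR
  have hyne : y ∉ Z := disjoint_left.1 hZ hy
  refine ⟨P.repl L s', hN, ?_, ?_, fun z hz => P.repl_eventually hF hL hc hs fun hzV =>
    (disjoint_left.1 hZ hzV hz).elim⟩
  · ext p
    rw [mem_ofPred_eq, P.repl_zero, mem_insert_iff]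
    by_cases hp : p ∈ P.V
    · rw [if_pos hp, hzall _ (P.q_mem hp)]
      have hpZ : p ∉ Z := disjoint_left.1 hZ hp
      simp only [hpZ, or_false]
      exact ⟨fun h => by rw [← P.ψ_q p hp, h, P.ψ_q y hy], fun h => by rw [h]⟩
    · rw [if_neg hp, hL0]
      have h1 : p ≠ x := fun h => hp (h ▸ hx)
      have h2 : p ≠ y := fun h => hp (h ▸ hy)
      simp [h1, h2]
  · have hy0 : P.repl L s' y = 0 := by
      rw [P.repl_zero, if_pos hy, hzall _ (P.q_mem hy)]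
    rw [P.regular_iff hF hN.smooth hN.ortho hy hy0]
    have he : P.S (P.repl L s') =ᶠ[𝓝 (P.q y)] s' :=
      eventually_of_mem (isOpen_ball.mem_nhds (P.q_mem hy)) fun z hz => P.S_repl L s' hz
    rw [he.fderiv_eq]
    exact left_ne_zero_of_mul hsign.ne'

/-- An open connected part of a surface stays connected without finitely many points. -/
theorem preconnected_diff_finite [IsManifold 𝓘(ℝ, Plane) ∞ M] [T2Space M] {O : Set M}
    (hO : IsOpen O) (hc : IsPreconnected O) {Z : Set M} (hZ : Z.Finite) :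
    IsPreconnected (O \ Z) := by
  induction Z, hZ using Set.Finite.induction_on with
  | empty => simpa using hc
  | @insert p Z hp hZ ih =>
    rw [show O \ insert p Z = (O \ Z) \ {p} by rw [Set.sdiff_sdiff, union_singleton]]
    set O' := O \ Z
    have hO' : IsOpen O' := hO.sdiff hZ.isClosed
    by_cases hpO : p ∈ O'
    swap
    · rwa [sdiff_singleton_eq_self hpO]
    obtain ⟨ψ, q, U, hU, hpU, hq0, hψs, hψU, hqU, hqs, hqψ, hψq⟩ :=
      Iter.exists_ball_chart (E := ℂ) (I := 𝓘(ℝ, Plane)) (M := M)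
        Complex.orthonormalBasisOneI.repr.toContinuousLinearEquiv p
    have h0 : (0 : ℂ) ∈ ball (0 : ℂ) 3 := mem_ball_self (by norm_num)
    have hψ0 : ψ 0 = p := by rw [← hq0]; exact hψq p hpU
    obtain ⟨ε, hε, hεb⟩ := Metric.mem_nhds_iff.1
      (inter_mem (ball_mem_nhds (0 : ℂ) three_pos)
        ((hψs.continuousOn.continuousAt (isOpen_ball.mem_nhds h0)).preimage_mem_nhds
          (hO'.mem_nhds (by rw [hψ0]; exact hpO))))
    set D' : Set ℂ := (fun x : ℝ × ℝ => (x.1 : ℂ) * Complex.exp (x.2 * Complex.I)) ''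
      (Ioo 0 ε ×ˢ univ) with hD'
    have hD'e : D' = ball 0 ε \ {0} := by
      ext z
      constructor
      · rintro ⟨⟨t, θ⟩, ⟨ht, -⟩, rfl⟩
        refine ⟨?_, ?_⟩
        · simp [Complex.norm_exp_ofReal_mul_I, abs_of_pos ht.1, ht.2]
        · simp [ht.1.ne', Complex.exp_ne_zero]
      · rintro ⟨hz, hz0⟩
        refine ⟨(‖z‖, Complex.arg z), ⟨⟨norm_pos_iff.2 hz0, mem_ball_zero_iff.1 hz⟩, trivial⟩, ?_⟩
        exact Complex.norm_mul_exp_arg_mul_I z
    have hD'c : IsPreconnected D' :=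
      (isPreconnected_Ioo.prod isPreconnected_univ).image _ (Continuous.continuousOn (by fun_prop))
    set D := ψ '' D' with hD
    have hDsub : D' ⊆ ball 0 3 := fun z hz => (hεb (hD'e ▸ hz).1).1
    have hDc : IsPreconnected D := hD'c.image _ (hψs.continuousOn.mono hDsub)
    have hDO : D ⊆ O' \ {p} := by
      rintro _ ⟨z, hz, rfl⟩
      rw [hD'e] at hz
      refine ⟨(hεb hz.1).2, fun h => hz.2 ?_⟩
      rw [mem_singleton_iff] at h ⊢
      rw [← hqψ z (hεb hz.1).1, h, hq0]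
    set W := U ∩ q ⁻¹' ball 0 ε with hW
    have hWo : IsOpen W := hqs.continuousOn.isOpen_inter_preimage hU isOpen_ball
    have hpW : p ∈ W := ⟨hpU, by rw [mem_preimage, hq0]; exact mem_ball_self hε⟩
    have hWD : W \ {p} ⊆ D := fun y hy => by
      refine ⟨q y, ?_, hψq y hy.1.1⟩
      rw [hD'e]
      exact ⟨hy.1.2, fun h => hy.2 (by rw [mem_singleton_iff] at h ⊢; rw [← hψq y hy.1.1, h, hψ0])⟩
    intro A B hA hB hAB hnA hnB
    by_contra hcon
    rw [not_nonempty_iff_eq_empty] at hcon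
    have key : ∀ A B : Set M, IsOpen A → IsOpen B → O' \ {p} ⊆ A ∪ B →
        (O' \ {p}) ∩ (A ∩ B) = ∅ → ((O' \ {p}) ∩ B).Nonempty → D ⊆ A → False := by
      intro A B hA hB hAB hcon hnB hDA
      obtain ⟨y, hy, hy'⟩ := ih (A ∪ W) (B \ {p}) (hA.union hWo) (hB.sdiff isClosed_singleton)
        (fun y hy => by
          by_cases hyp : y = p
          · exact Or.inl (Or.inr (hyp ▸ hpW))
          · rcases hAB ⟨hy, hyp⟩ with h | h
            · exact Or.inl (Or.inl h)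
            · exact Or.inr ⟨h, hyp⟩)
        ⟨p, hpO, Or.inr hpW⟩ (let ⟨y, hy, hyB⟩ := hnB; ⟨y, hy.1, hyB, hy.2⟩)
      have hyA : y ∈ A := hy'.1.elim id fun h => hDA (hWD ⟨h, hy'.2.2⟩)
      exact (Set.eq_empty_iff_forall_notMem.1 hcon) y ⟨⟨hy, hy'.2.2⟩, hyA, hy'.2.1⟩
    by_cases hDA : D ⊆ A
    · exact key A B hA hB hAB hcon hnB hDA
    · refine key B A hB hA (union_comm A B ▸ hAB) (inter_comm A B ▸ hcon) hnA ?_
      by_contra hDB
      obtain ⟨a, ha, ha'⟩ := not_subset.1 hDA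
      obtain ⟨b, hb, hb'⟩ := not_subset.1 hDB
      obtain ⟨y, hy, hy'⟩ := hDc A B hA hB (hDO.trans hAB)
        ⟨b, hb, (hAB (hDO hb)).resolve_right hb'⟩ ⟨a, ha, (hAB (hDO ha)).resolve_left ha'⟩
      exact (Set.eq_empty_iff_forall_notMem.1 hcon) y ⟨hDO hy, hy'⟩

/-- A zero moves anywhere in its component avoiding the other zeros. -/
theorem movable_component [IsManifold 𝓘(ℝ, Plane) ∞ M] [T2Space M] [LocallyConnectedSpace M]
    {F : M → ℍ[ℝ]} (hF : ContMDiff 𝓘(ℝ, Plane) 𝓘(ℝ, ℍ[ℝ]) ∞ F) (hi : ∀ p, Injective (dQ F p))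
    {Z : Set M} (hZ : Z.Finite) {x y : M} (hy : y ∈ connectedComponent x) (hxZ : x ∉ Z)
    (hyZ : y ∉ Z) : Movable F Z x y := by
  have hS := preconnected_diff_finite isOpen_connectedComponent
    (isPreconnected_connectedComponent (x := x)) hZ
  refine (IsPreconnected.induction₂ hS (fun a b => Movable F Z a b ∧ Movable F Z b a)
    (fun a ha => ?_) (fun a b c _ _ _ h1 h2 => ?_) (fun a b _ _ h => h.symm)
    ⟨mem_connectedComponent, hxZ⟩ ⟨hy, hyZ⟩).1
  · obtain ⟨P, -, haV, -, hVN⟩ := exists_patch hF hi a (hZ.isClosed.isOpen_compl.mem_nhds ha.2)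
    have hd : Disjoint P.V Z := disjoint_left.2 fun p hp => hVN hp
    filter_upwards [mem_nhdsWithin_of_mem_nhds (P.V_open.mem_nhds haV)] with b hb
    exact ⟨movable_patch hF P hd haV hb, movable_patch hF P hd hb haV⟩
  · have comp : ∀ {a b c}, Movable F Z a b → Movable F Z b c → Movable F Z a c :=
      fun h h' L hL hz hr =>
        let ⟨L₁, hL₁, hz₁, hr₁, he₁⟩ := h L hL hz hr
        let ⟨L₂, hL₂, hz₂, hr₂, he₂⟩ := h' L₁ hL₁ hz₁ hr₁
        ⟨L₂, hL₂, hz₂, hr₂, fun z hz => (he₂ z hz).trans (he₁ z hz)⟩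
    exact ⟨comp h1.1 h2.1, comp h2.2 h1.2⟩

end Vale.Agent.P205.Global
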