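import Vale.Agent.P205.Global.Avoid

/-!
Finitely many parametrised pieces of a space, with functions which are the constant, the
coordinates and their squares on the core of each piece. Perturbations are linear in these.
-/

noncomputable section

open Set Filter Topology
open scoped ContDiff

namespace Vale.Agent.P205.Global

/-- Coordinates. -/
abbrev Co (n : ℕ) := Fin n → ℝ

/-- The constant, a coordinate or its square. -/
abbrev Tag (n : ℕ) := Option (Fin n × Bool)

/-- Parametrised pieces with their functions. -/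
structure Pieces (n : ℕ) (W : Type) [TopologicalSpace W] where
  /-- The index type. -/
  J : Type
  fin : Fintype J
  /-- The parametrisations. -/
  ψ : J → Co n → W
  /-- Their domains. -/
  dom : J → Set (Co n)
  /-- The cores. -/
  core : J → Set (Co n)
  dom_open : ∀ j, IsOpen (dom j)
  core_open : ∀ j, IsOpen (core j)
  core_sub : ∀ j, core j ⊆ dom j
  ψ_cont : ∀ j, ContinuousOn (ψ j) (dom j)
  ψ_inj : ∀ j, InjOn (ψ j) (dom j)
  ψ_open : ∀ j, ∀ O, IsOpen O → O ⊆ dom j → IsOpen (ψ j '' O)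
  cover : ∀ w, ∃ j, ∃ u ∈ core j, ψ j u = w
  /-- The functions. -/
  φ : J → Tag n → W → ℝ
  φ_cont : ∀ i t, Continuous (φ i t)
  φ_smooth : ∀ i t j, ContDiffOn ℝ ∞ (fun u => φ i t (ψ j u)) (dom j)
  φ_core : ∀ j, ∀ u ∈ core j, φ j none (ψ j u) = 1 ∧
    ∀ l, φ j (some (l, false)) (ψ j u) = u l ∧ φ j (some (l, true)) (ψ j u) = u l ^ 2

namespace Pieces

variable {n : ℕ} {W : Type} [TopologicalSpace W] (S : Pieces n W)

instance instFintype : Fintype S.J := S.fin

variable {V : Type*} [NormedAddCommGroup V] [NormedSpace ℝ V]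

/-- The perturbation with coefficients `A`. -/
def pert (A : S.J × Tag n → V) (w : W) : V := ∑ k, S.φ k.1 k.2 w • A k

/-- A function in the coordinates of a piece. -/
def f (k : S.J × Tag n) (j : S.J) (u : Co n) : ℝ := S.φ k.1 k.2 (S.ψ j u)

theorem continuous_pert : Continuous fun x : W × (S.J × Tag n → V) => S.pert x.2 x.1 :=
  continuous_finsetSum _ fun k _ =>
    ((S.φ_cont k.1 k.2).comp continuous_fst).smul ((continuous_apply k).comp continuous_snd)

/-- Smooth in every piece. -/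
def Sm (H : W → V) : Prop :=
  Continuous H ∧ ∀ j, ContDiffOn ℝ ∞ (fun u => H (S.ψ j u)) (S.dom j)

/-- A root is regular in some piece. -/
def Reg (H : W → Co n) (w : W) : Prop :=
  ∃ j, ∃ u ∈ S.dom j, S.ψ j u = w ∧ Function.Injective (fderiv ℝ (fun x => H (S.ψ j x)) u)

theorem ψ_nhds {j : S.J} {u : Co n} (hu : u ∈ S.dom j) {U : Set (Co n)} (hU : U ∈ 𝓝 u) :
    S.ψ j '' U ∈ 𝓝 (S.ψ j u) := by
  obtain ⟨O, hOs, hO, huO⟩ := mem_nhds_iff.1 (inter_mem hU ((S.dom_open j).mem_nhds hu))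
  exact mem_of_superset ((S.ψ_open j O hO fun x hx => (hOs hx).2).mem_nhds ⟨u, huO, rfl⟩)
    (image_mono fun x hx => (hOs hx).1)

theorem contDiffAt_f (k : S.J × Tag n) {j : S.J} {u : Co n} (hu : u ∈ S.dom j) :
    ContDiffAt ℝ 3 (S.f k j) u :=
  ((S.φ_smooth k.1 k.2 j).contDiffAt ((S.dom_open j).mem_nhds hu)).of_le (WithTop.coe_le_coe.2 le_top)

theorem f_core {j : S.J} {u : Co n} (hu : u ∈ S.core j) :
    S.f (j, none) j =ᶠ[𝓝 u] (fun _ => 1) ∧
      ∀ l, S.f (j, some (l, false)) j =ᶠ[𝓝 u] (fun x => x l) ∧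
        S.f (j, some (l, true)) j =ᶠ[𝓝 u] fun x => x l ^ 2 := by
  have hm := (S.core_open j).mem_nhds hu
  exact ⟨eventually_of_mem hm fun x hx => (S.φ_core j x hx).1, fun l =>
    ⟨eventually_of_mem hm fun x hx => ((S.φ_core j x hx).2 l).1,
      eventually_of_mem hm fun x hx => ((S.φ_core j x hx).2 l).2⟩⟩

theorem fderiv_pert (A : S.J × Tag n → V) {j : S.J} {u : Co n} (hu : u ∈ S.dom j) (k : Co n) :
    fderiv ℝ (fun x => S.pert A (S.ψ j x)) u k = ∑ i, fderiv ℝ (S.f i j) u k • A i := by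
  have h : HasFDerivAt (fun x => ∑ i, S.f i j x • A i)
      (∑ i, (fderiv ℝ (S.f i j) u).smulRight (A i)) u :=
    HasFDerivAt.fun_sum fun i _ =>
      ((S.contDiffAt_f i hu).differentiableAt (by norm_num)).hasFDerivAt.smul_const (A i)
  have h' : fderiv ℝ (fun x => S.pert A (S.ψ j x)) u = _ := h.fderiv
  rw [h']
  simp

theorem fderiv2_pert (A : S.J × Tag n → V) {j : S.J} {u : Co n} (hu : u ∈ S.dom j) (k : Co n) :
    fderiv ℝ (fun x => fderiv ℝ (fun y => S.pert A (S.ψ j y)) x k) u k =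
      ∑ i, fderiv ℝ (fun x => fderiv ℝ (S.f i j) x k) u k • A i := by
  have hev : (fun x => fderiv ℝ (fun y => S.pert A (S.ψ j y)) x k) =ᶠ[𝓝 u]
      fun x => ∑ i, fderiv ℝ (S.f i j) x k • A i :=
    eventually_of_mem ((S.dom_open j).mem_nhds hu) fun x hx => S.fderiv_pert A hx k
  have h : HasFDerivAt (fun x => ∑ i, fderiv ℝ (S.f i j) x k • A i)
      (∑ i, (fderiv ℝ (fun x => fderiv ℝ (S.f i j) x k) u).smulRight (A i)) u :=
    HasFDerivAt.fun_sum fun i _ =>
      ((((S.contDiffAt_f i hu).fderiv_right (m := 2) (by norm_num)).clm_apply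
        contDiffAt_const).differentiableAt (by norm_num)).hasFDerivAt.smul_const (A i)
  rw [hev.fderiv_eq, h.fderiv]
  simp

end Pieces

end Vale.Agent.P205.Global
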