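import Vale.Agent.P205.Global.Fold
import Vale.Agent.P205.Global.Pieces

/-!
A map of a compact space to Euclidean space of the same dimension with regular roots only has an
even number of them: along a line of translations of a generic perturbation only folds occur.
-/

noncomputable section

open Set Filter Topology Module
open scoped ContDiff ENNReal

namespace Vale.Agent.P205.Global

/-- Local root counts add up over a compact set having the roots in its interior. -/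
theorem roots_glue_on {W Q V : Type*} [TopologicalSpace W] [T2Space W]
    [TopologicalSpace Q] [TopologicalSpace V] [T1Space V] [Zero V] {K : Set W} (hK : IsCompact K)
    {G : W × Q → V}
    (hG : Continuous G) {q₀ : Q} (hint : ∀ w ∈ K, G (w, q₀) = 0 → K ∈ 𝓝 w)
    {F : Filter Q} (hF : F ≤ 𝓝 q₀) {good : W → Q → Prop} {c : W → ℕ}
    (h : ∀ w ∈ K, G (w, q₀) = 0 → ∀ N ∈ 𝓝 w, ∃ U ∈ 𝓝 w, U ⊆ N ∧
      (∀ y ∈ U, G (y, q₀) = 0 → y = w) ∧
      ∀ᶠ q in F, {y ∈ U | G (y, q) = 0}.Finite ∧ {y ∈ U | G (y, q) = 0}.ncard % 2 = c w % 2 ∧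
        ∀ y ∈ U, G (y, q) = 0 → good y q) :
    ∃ S : Finset W, (∀ w, w ∈ S ↔ w ∈ K ∧ G (w, q₀) = 0) ∧
      ∀ᶠ q in F, {y ∈ K | G (y, q) = 0}.Finite ∧
        {y ∈ K | G (y, q) = 0}.ncard % 2 = (∑ w ∈ S, c w) % 2 ∧
        ∀ y ∈ K, G (y, q) = 0 → good y q := by
  classical
  set Z := {w ∈ K | G (w, q₀) = 0} with hZ
  have hcl : IsCompact Z :=
    hK.inter_right (isClosed_singleton.preimage (hG.comp (continuous_id.prodMk continuous_const)))
  have hfin : Z.Finite := by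
    choose! U hU _ hUu _ using fun w (hw : w ∈ Z) => h w hw.1 hw.2 univ univ_mem
    obtain ⟨t, ht, hcov⟩ := hcl.elim_nhds_subcover U fun w hw => hU w hw
    refine t.finite_toSet.subset fun y hy => ?_
    obtain ⟨w, hw, hyw⟩ := mem_iUnion₂.1 (hcov hy)
    rw [hUu w (ht w hw) y hyw hy.2]
    exact hw
  refine ⟨hfin.toFinset, fun w => hfin.mem_toFinset, ?_⟩
  obtain ⟨D, hD, hDd⟩ := hfin.t2_separation
  choose! U hU hUD hUu hUe using fun w (hw : w ∈ Z) => h w hw.1 hw.2 (D w ∩ K)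
    (inter_mem ((hD w).2.mem_nhds (hD w).1) (hint w hw.1 hw.2))
  set O := ⋃ w ∈ Z, interior (U w)
  have hO : IsOpen O := isOpen_biUnion fun w _ => isOpen_interior
  have hout : ∀ᶠ q in 𝓝 q₀, ∀ y ∈ K \ O, G (y, q) ≠ 0 := by
    refine (hK.diff hO).eventually_forall_of_forall_eventually fun y hy => ?_
    have hy0 : G (y, q₀) ≠ 0 := fun h0 =>
      hy.2 (mem_iUnion₂.2 ⟨y, ⟨hy.1, h0⟩, mem_interior_iff_mem_nhds.2 (hU y ⟨hy.1, h0⟩)⟩)
    exact (isOpen_compl_singleton.preimage (hG.comp continuous_swap)).mem_nhds hy0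
  have hall : ∀ᶠ q in F, ∀ w ∈ hfin.toFinset, {y ∈ U w | G (y, q) = 0}.Finite ∧
      {y ∈ U w | G (y, q) = 0}.ncard % 2 = c w % 2 ∧ ∀ y ∈ U w, G (y, q) = 0 → good y q :=
    (eventually_all_finset _).2 fun w hw => hUe w (hfin.mem_toFinset.1 hw)
  filter_upwards [hall, hout.filter_mono hF] with q hq hqO
  have hin : ∀ y ∈ K, G (y, q) = 0 → ∃ w ∈ hfin.toFinset, y ∈ U w := fun y hyK hy => by
    by_contra hcon
    refine hqO y ⟨hyK, fun hyO => hcon ?_⟩ hy
    obtain ⟨w, hw, hyw⟩ := mem_iUnion₂.1 hyO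
    exact ⟨w, hfin.mem_toFinset.2 hw, interior_subset hyw⟩
  have hset : {y ∈ K | G (y, q) = 0} =
      ⋃ w ∈ (hfin.toFinset : Set W), {y ∈ U w | G (y, q) = 0} := by
    ext y
    simp only [mem_ofPred_eq, mem_iUnion, Finset.mem_coe, exists_prop]
    exact ⟨fun hy => let ⟨w, hw, hyw⟩ := hin y hy.1 hy.2; ⟨w, hw, hyw, hy.2⟩,
      fun ⟨w, hw, hyw, hy⟩ => ⟨(hUD w (hfin.mem_toFinset.1 hw) hyw).2, hy⟩⟩
  have hf : ∀ w ∈ (hfin.toFinset : Set W), {y ∈ U w | G (y, q) = 0}.Finite := fun w hw => (hq w hw).1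
  refine ⟨hset ▸ hfin.toFinset.finite_toSet.biUnion hf, ?_, fun y hyK hy => ?_⟩
  · rw [hset, hfin.toFinset.finite_toSet.ncard_biUnion hf ?_,
      finsum_mem_coe_finset, Finset.sum_nat_mod, Finset.sum_congr rfl fun w hw => (hq w hw).2.1,
      ← Finset.sum_nat_mod]
    intro a ha b hb hab
    rw [Finset.mem_coe, hfin.mem_toFinset] at ha hb
    exact (hDd ha hb hab).mono (fun y hy => (hUD a ha hy.1).1) fun y hy => (hUD b hb hy.1).1
  · obtain ⟨w, hw, hyw⟩ := hin y hyK hy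
    exact (hq w hw).2.2 y hyw hy

/-- Local root counts add up over a compact space. -/
theorem roots_glue {W Q V : Type*} [TopologicalSpace W] [CompactSpace W] [T2Space W]
    [TopologicalSpace Q] [TopologicalSpace V] [T1Space V] [Zero V] {G : W × Q → V}
    (hG : Continuous G) {q₀ : Q} {F : Filter Q} (hF : F ≤ 𝓝 q₀) {good : W → Q → Prop} {c : W → ℕ}
    (h : ∀ w, G (w, q₀) = 0 → ∀ N ∈ 𝓝 w, ∃ U ∈ 𝓝 w, U ⊆ N ∧
      (∀ y ∈ U, G (y, q₀) = 0 → y = w) ∧
      ∀ᶠ q in F, {y ∈ U | G (y, q) = 0}.Finite ∧ {y ∈ U | G (y, q) = 0}.ncard % 2 = c w % 2 ∧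
        ∀ y ∈ U, G (y, q) = 0 → good y q) :
    ∃ S : Finset W, (∀ w, w ∈ S ↔ G (w, q₀) = 0) ∧
      ∀ᶠ q in F, {y | G (y, q) = 0}.Finite ∧
        {y | G (y, q) = 0}.ncard % 2 = (∑ w ∈ S, c w) % 2 ∧ ∀ y, G (y, q) = 0 → good y q := by
  simpa using roots_glue_on isCompact_univ hG (fun w _ _ => univ_mem) hF fun w _ hw => h w hw

namespace Pieces

variable {n : ℕ} {W : Type} [TopologicalSpace W] (S : Pieces n W)

/-- The count in a piece is the count in coordinates. -/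
theorem image_roots {j : S.J} {U : Set (Co n)} (hU : U ⊆ S.dom j) (f : W → Co n) :
    S.ψ j '' {x ∈ U | f (S.ψ j x) = 0} = {y ∈ S.ψ j '' U | f y = 0} ∧
      {y ∈ S.ψ j '' U | f y = 0}.ncard = {x ∈ U | f (S.ψ j x) = 0}.ncard := by
  have h : S.ψ j '' {x ∈ U | f (S.ψ j x) = 0} = {y ∈ S.ψ j '' U | f y = 0} := by
    ext y
    constructor
    · rintro ⟨x, ⟨hx, hx0⟩, rfl⟩
      exact ⟨⟨x, hx, rfl⟩, hx0⟩
    · rintro ⟨⟨x, hx, rfl⟩, hx0⟩
      exact ⟨x, ⟨hx, hx0⟩, rfl⟩
  exact ⟨h, h ▸ ((S.ψ_inj j).mono fun x hx => hU hx.1).ncard_image⟩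

/-- A regular root persists as exactly one regular root. -/
theorem regular_local {Q : Type*} [NormedAddCommGroup Q] [NormedSpace ℝ Q] [FiniteDimensional ℝ Q]
    {G : W × Q → Co n}
    (hs : ∀ j, ContDiffOn ℝ 2 (fun x : Co n × Q => G (S.ψ j x.1, x.2)) (S.dom j ×ˢ univ))
    {w : W} {q₀ : Q} (h0 : G (w, q₀) = 0) (hreg : S.Reg (fun y => G (y, q₀)) w) {N : Set W}
    (hN : N ∈ 𝓝 w) :
    ∃ U ∈ 𝓝 w, U ⊆ N ∧ (∀ y ∈ U, G (y, q₀) = 0 → y = w) ∧
      ∀ᶠ q in 𝓝 q₀, {y ∈ U | G (y, q) = 0}.Finite ∧ {y ∈ U | G (y, q) = 0}.ncard % 2 = 1 % 2 ∧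
        ∀ y ∈ U, G (y, q) = 0 → S.Reg (fun y => G (y, q)) y := by
  obtain ⟨j, u, hu, rfl, hi⟩ := hreg
  set g : Co n × Q → Co n := fun x => G (S.ψ j x.1, x.2)
  have hat : ∀ x, x ∈ S.dom j → ∀ q, ContDiffAt ℝ 2 g (x, q) := fun x hx q =>
    (hs j).contDiffAt (((S.dom_open j).prod isOpen_univ).mem_nhds ⟨hx, trivial⟩)
  have hpart : ∀ x, x ∈ S.dom j → ∀ q, (fderiv ℝ g (x, q)).comp (ContinuousLinearMap.inl ℝ _ Q) =
      fderiv ℝ (fun y => G (S.ψ j y, q)) x := fun x hx q => by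
    have h : HasFDerivAt (fun y => g (y, q))
        ((fderiv ℝ g (x, q)).comp (ContinuousLinearMap.inl ℝ _ Q)) x :=
      HasFDerivAt.comp (g := g) (f := fun y : Co n => (y, q)) x
        ((hat x hx q).differentiableAt (by norm_num)).hasFDerivAt
        (hasFDerivAt_prodMk_left (𝕜 := ℝ) x q)
    exact h.fderiv.symm
  obtain ⟨U, hU, hUN, hev⟩ := regular_root (hat u hu q₀) h0 (by rw [hpart u hu q₀]; exact hi)
    (N := S.dom j ∩ S.ψ j ⁻¹' N) (inter_mem ((S.dom_open j).mem_nhds hu)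
      (((S.ψ_cont j).continuousAt ((S.dom_open j).mem_nhds hu)).preimage_mem_nhds hN))
  have hUd : U ⊆ S.dom j := fun x hx => (hUN hx).1
  refine ⟨S.ψ j '' U, S.ψ_nhds hu hU, image_subset_iff.2 fun x hx => (hUN hx).2, ?_, ?_⟩
  · rintro _ ⟨y, hy, rfl⟩ hy0
    obtain ⟨x, hx, -⟩ := hev.self_of_nhds
    have h1 : y ∈ {z ∈ U | g (z, q₀) = 0} := ⟨hy, hy0⟩
    have h2 : u ∈ {z ∈ U | g (z, q₀) = 0} := ⟨mem_of_mem_nhds hU, h0⟩
    rw [hx, mem_singleton_iff] at h1 h2
    rw [h1, h2]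
  filter_upwards [hev] with q ⟨x, hx, hxi⟩
  obtain ⟨e1, e2⟩ := S.image_roots hUd (fun y => G (y, q))
  have hx' : {z ∈ U | G (S.ψ j z, q) = 0} = {x} := hx
  rw [hx'] at e1 e2
  refine ⟨e1 ▸ (finite_singleton x).image _, by rw [e2, ncard_singleton], fun y hy hy0 => ?_⟩
  have hm : y ∈ {y ∈ S.ψ j '' U | G (y, q) = 0} := ⟨hy, hy0⟩
  rw [← e1, image_singleton, mem_singleton_iff] at hm
  have hxU : x ∈ S.dom j := hUd (((Set.ext_iff.1 hx x).2 rfl).1)
  exact ⟨j, x, hxU, hm.symm, by rw [← hpart x hxU q]; exact hxi⟩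

/-- The number of regular roots is stable modulo two. -/
theorem stable [CompactSpace W] [T2Space W] {Q : Type*} [NormedAddCommGroup Q] [NormedSpace ℝ Q]
    [FiniteDimensional ℝ Q] {G : W × Q → Co n} (hG : Continuous G)
    (hs : ∀ j, ContDiffOn ℝ 2 (fun x : Co n × Q => G (S.ψ j x.1, x.2)) (S.dom j ×ˢ univ))
    {q₀ : Q} (hreg : ∀ w, G (w, q₀) = 0 → S.Reg (fun y => G (y, q₀)) w) :
    {w | G (w, q₀) = 0}.Finite ∧ ∀ᶠ q in 𝓝 q₀, {w | G (w, q) = 0}.Finite ∧
      {w | G (w, q) = 0}.ncard % 2 = {w | G (w, q₀) = 0}.ncard % 2 ∧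
      ∀ w, G (w, q) = 0 → S.Reg (fun y => G (y, q)) w := by
  obtain ⟨T, hT, hev⟩ := roots_glue hG le_rfl (c := fun _ => 1)
    (good := fun y q => S.Reg (fun z => G (z, q)) y)
    fun w hw N hN => S.regular_local hs hw (hreg w hw) hN
  have hset : {w | G (w, q₀) = 0} = T := Set.ext fun w => (hT w).symm
  refine ⟨hset ▸ T.finite_toSet, hev.mono fun q hq => ⟨hq.1, ?_, hq.2.2⟩⟩
  rw [hq.2.1, hset, ncard_coe_finset, Finset.sum_const, smul_eq_mul, mul_one]

/-- The extension by zero in one slot. -/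
def ext1 (i : Fin n) : ({l // l ≠ i} → ℝ) →L[ℝ] Co n :=
  ContinuousLinearMap.pi fun l =>
    if h : l ≠ i then ContinuousLinearMap.proj (R := ℝ) (φ := fun _ => ℝ) ⟨l, h⟩ else 0

/-- The extension by zero in two slots. -/
def ext2 (i j : Fin n) : ({l // l ≠ i ∧ l ≠ j} → ℝ) →L[ℝ] Co n :=
  ContinuousLinearMap.pi fun l =>
    if h : l ≠ i ∧ l ≠ j then ContinuousLinearMap.proj (R := ℝ) (φ := fun _ => ℝ) ⟨l, h⟩ else 0

theorem single_add_ext1 {i : Fin n} {k : Co n} (h : k i = 1) :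
    Pi.single i 1 + ext1 i (fun l => k l) = k := by
  ext l
  by_cases hl : l = i
  · subst hl; simp [ext1, h]
  · simp [ext1, hl]

theorem ext1_self {i : Fin n} {k : Co n} (h : k i = 0) : ext1 i (fun l => k l) = k := by
  ext l
  by_cases hl : l = i
  · subst hl; simp [ext1, h]
  · simp [ext1, hl]

theorem single_add_ext2 {i j : Fin n} {k : Co n} (hi : k i = 0) (hj : k j = 1) :
    Pi.single j 1 + ext2 i j (fun l => k l) = k := by
  have hij : i ≠ j := fun e => by rw [e, hj] at hi; exact one_ne_zero hi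
  ext l
  by_cases hl : l = j
  · subst hl; simp [ext2, hj]
  · by_cases hl' : l = i
    · subst hl'; simp [ext2, hi, hij]
    · simp [ext2, hl, hl']

variable (H : W → Co n) (a : Co n)

/-- The perturbed map in a piece. -/
def h (A : S.J × Tag n → Co n) (j : S.J) (x : Co n) : Co n :=
  H (S.ψ j x) + S.pert A (S.ψ j x)

/-- The perturbations with a degenerate root along the line: a kernel vector `k` with
`D²(k,k)` in the image. -/
def Bad1 (j : S.J) (i : Fin n) : Set (S.J × Tag n → Co n) :=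
  {A | ∃ u ∈ S.core j, ∃ (t : ℝ) (k w : Co n), k i = 1 ∧ w i = 0 ∧ S.h H A j u + t • a = 0 ∧
    fderiv ℝ (S.h H A j) u k = 0 ∧
    fderiv ℝ (fun x => fderiv ℝ (S.h H A j) x k) u k = fderiv ℝ (S.h H A j) u w}

/-- The perturbations with two independent directions sent to multiples of `a`. -/
def Bad2 (j : S.J) (i l : Fin n) : Set (S.J × Tag n → Co n) :=
  {A | ∃ u ∈ S.core j, ∃ (t s : ℝ) (k w : Co n), k i = 1 ∧ w i = 0 ∧ w l = 1 ∧
    S.h H A j u + t • a = 0 ∧ fderiv ℝ (S.h H A j) u k = 0 ∧ fderiv ℝ (S.h H A j) u w = s • a}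

variable {H}

theorem contDiffAt_H (hH : S.Sm H) {j : S.J} {u : Co n} (hu : u ∈ S.dom j) :
    ContDiffAt ℝ 3 (fun x => H (S.ψ j x)) u :=
  ((hH.2 j).contDiffAt ((S.dom_open j).mem_nhds hu)).of_le (WithTop.coe_le_coe.2 le_top)

theorem contDiffAt_pert (A : S.J × Tag n → Co n) {j : S.J} {u : Co n} (hu : u ∈ S.dom j) :
    ContDiffAt ℝ 3 (fun x => S.pert A (S.ψ j x)) u :=
  ContDiffAt.sum fun i _ => (S.contDiffAt_f i hu).smul contDiffAt_const

theorem contDiffAt_h (hH : S.Sm H) (A : S.J × Tag n → Co n) {j : S.J} {u : Co n}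
    (hu : u ∈ S.dom j) : ContDiffAt ℝ 3 (S.h H A j) u :=
  (S.contDiffAt_H hH hu).add (S.contDiffAt_pert A hu)

theorem fderiv_h (hH : S.Sm H) (A : S.J × Tag n → Co n) {j : S.J} {u : Co n} (hu : u ∈ S.dom j)
    (k : Co n) : fderiv ℝ (S.h H A j) u k =
      fderiv ℝ (fun x => H (S.ψ j x)) u k + ∑ i, fderiv ℝ (S.f i j) u k • A i := by
  have : S.h H A j = (fun x => H (S.ψ j x)) + fun x => S.pert A (S.ψ j x) := rfl
  rw [this, fderiv_add ((S.contDiffAt_H hH hu).differentiableAt (by norm_num))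
    ((S.contDiffAt_pert A hu).differentiableAt (by norm_num)), ← S.fderiv_pert A hu k]
  rfl

theorem fderiv2_h (hH : S.Sm H) (A : S.J × Tag n → Co n) {j : S.J} {u : Co n} (hu : u ∈ S.dom j)
    (k : Co n) : fderiv ℝ (fun x => fderiv ℝ (S.h H A j) x k) u k =
      fderiv ℝ (fun x => fderiv ℝ (fun y => H (S.ψ j y)) x k) u k +
        ∑ i, fderiv ℝ (fun x => fderiv ℝ (S.f i j) x k) u k • A i := by
  have hev : (fun x => fderiv ℝ (S.h H A j) x k) =ᶠ[𝓝 u]
      (fun x => fderiv ℝ (fun y => H (S.ψ j y)) x k) +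
        fun x => fderiv ℝ (fun y => S.pert A (S.ψ j y)) x k :=
    eventually_of_mem ((S.dom_open j).mem_nhds hu) fun x hx => by
      simp only [Pi.add_apply]
      rw [S.fderiv_h hH A hx k, S.fderiv_pert A hx k]
  rw [hev.fderiv_eq, fderiv_add, ← S.fderiv2_pert A hu k]
  · rfl
  · exact ((((S.contDiffAt_H hH hu).fderiv_right (m := 2) (by norm_num)).clm_apply
      contDiffAt_const).differentiableAt (by norm_num))
  · exact ((((S.contDiffAt_pert A hu).fderiv_right (m := 2) (by norm_num)).clm_apply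
      contDiffAt_const).differentiableAt (by norm_num))

theorem deriv_one {g : Co n → ℝ} {u : Co n} (h : g =ᶠ[𝓝 u] fun _ => 1) (k : Co n) :
    g u = 1 ∧ fderiv ℝ g u k = 0 ∧ fderiv ℝ (fderiv ℝ g) u k k = 0 := by
  refine ⟨h.eq_of_nhds, by rw [h.fderiv_eq]; simp, ?_⟩
  rw [h.fderiv.fderiv_eq]
  simp

theorem deriv_coord {g : Co n → ℝ} {u : Co n} {i : Fin n} (h : g =ᶠ[𝓝 u] fun x => x i)
    (k : Co n) : g u = u i ∧ fderiv ℝ g u k = k i ∧ fderiv ℝ (fderiv ℝ g) u k k = 0 := by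
  have e : fderiv ℝ (fun x : Co n => x i) = fun _ => ContinuousLinearMap.proj i := by
    funext x
    exact (ContinuousLinearMap.proj (R := ℝ) (φ := fun _ : Fin n => ℝ) i).hasFDerivAt.fderiv
  refine ⟨h.eq_of_nhds, by rw [h.fderiv_eq, e]; simp, ?_⟩
  rw [h.fderiv.fderiv_eq, e]
  simp

theorem deriv_sq {g : Co n → ℝ} {u : Co n} {i : Fin n} (h : g =ᶠ[𝓝 u] fun x => x i ^ 2)
    (k : Co n) : g u = u i ^ 2 ∧ fderiv ℝ g u k = 2 * u i * k i ∧
      fderiv ℝ (fderiv ℝ g) u k k = 2 * k i * k i := by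
  set P := ContinuousLinearMap.proj (R := ℝ) (φ := fun _ : Fin n => ℝ) i with hP
  have e : fderiv ℝ (fun x : Co n => x i ^ 2) = ⇑((2 : ℝ) • P.smulRight P) := by
    funext x
    have h2 : HasFDerivAt (fun x : Co n => x i ^ 2) _ x := (P.hasFDerivAt (x := x)).pow 2
    rw [h2.fderiv]
    ext y
    simp [hP]
    ring
  refine ⟨h.eq_of_nhds, by rw [h.fderiv_eq, e]; simp [hP]; ring, ?_⟩
  rw [h.fderiv.fderiv_eq, e, ContinuousLinearMap.fderiv]
  simp [hP]
  ring

/-- Three equations linear in the coefficients. -/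
def rows (r : Fin 3 → S.J × Tag n → ℝ) : (S.J × Tag n → Co n) →L[ℝ] (Fin 3 → Co n) :=
  ∑ k, ∑ l, r l k • (ContinuousLinearMap.single ℝ (fun _ : Fin 3 => Co n) l).comp
    (ContinuousLinearMap.proj (R := ℝ) (φ := fun _ : S.J × Tag n => Co n) k)

theorem rows_apply (r : Fin 3 → S.J × Tag n → ℝ) (A : S.J × Tag n → Co n) (l : Fin 3) :
    S.rows r A l = ∑ k, r l k • A k := by
  simp [rows, Pi.single_apply]

open Classical in
/-- The three slots. -/
def slots (σ : Fin 3 → S.J × Tag n) : (Fin 3 → Co n) →L[ℝ] (S.J × Tag n → Co n) :=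
  ContinuousLinearMap.pi fun k => ∑ m,
    if σ m = k then ContinuousLinearMap.proj (R := ℝ) (φ := fun _ => Co n) m else 0

theorem rows_slots (r : Fin 3 → S.J × Tag n → ℝ) (σ : Fin 3 → S.J × Tag n) (z : Fin 3 → Co n)
    (l : Fin 3) : S.rows r (S.slots σ z) l = ∑ m, r l (σ m) • z m := by
  classical
  rw [rows_apply]
  simp only [slots, ContinuousLinearMap.pi_apply, sum_apply]
  simp only [Finset.smul_sum, apply_ite (fun L : (Fin 3 → Co n) →L[ℝ] Co n => L z),
    ContinuousLinearMap.proj_apply, zero_apply, smul_ite, smul_zero]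
  rw [Finset.sum_comm]
  exact Finset.sum_congr rfl fun m _ => by simp

theorem contDiffAt_rows {Q : Type*} [NormedAddCommGroup Q] [NormedSpace ℝ Q]
    {r : Fin 3 → S.J × Tag n → Q → ℝ} {q : Q} (h : ∀ l k, ContDiffAt ℝ 1 (r l k) q) :
    ContDiffAt ℝ 1 (fun q => S.rows fun l k => r l k q) q :=
  ContDiffAt.sum fun k _ => ContDiffAt.sum fun l _ => (h l k).smul contDiffAt_const

theorem card_ne (i : Fin n) : Fintype.card {l // l ≠ i} = n - 1 := by
  simp [Fintype.card_subtype_compl]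

theorem card_ne2 {i l : Fin n} (h : i ≠ l) : Fintype.card {m // m ≠ i ∧ m ≠ l} = n - 2 := by
  rw [Fintype.card_subtype, show Finset.univ.filter (fun m => m ≠ i ∧ m ≠ l) = ({i, l} : Finset _)ᶜ
    by ext m; simp, Finset.card_compl, Finset.card_pair h, Fintype.card_fin]

omit [TopologicalSpace W] in
/-- Two derivatives in the same direction. -/
theorem snd_deriv {V : Type*} [NormedAddCommGroup V] [NormedSpace ℝ V] {g : Co n → V} {u : Co n} (hg : ContDiffAt ℝ 3 g u) (k : Co n) :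
    fderiv ℝ (fun x => fderiv ℝ g x k) u k = fderiv ℝ (fderiv ℝ g) u k k := by
  have hd : DifferentiableAt ℝ (fderiv ℝ g) u :=
    (hg.fderiv_right (m := 2) (by norm_num)).differentiableAt (by norm_num)
  rw [fderiv_clm_apply hd (differentiableAt_const k)]
  simp

variable {a}

/-- A parameter space for the degenerate roots. -/
abbrev Q1 (i : Fin n) := Co n × ℝ × ({l // l ≠ i} → ℝ) × ({l // l ≠ i} → ℝ)

/-- A parameter space for the roots with two special directions. -/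
abbrev Q2 (i l : Fin n) :=
  Co n × (ℝ × ℝ) × ({m // m ≠ i} → ℝ) × ({m // m ≠ i ∧ m ≠ l} → ℝ)

theorem dimH_bad1 (hH : S.Sm H) (j : S.J) (i : Fin n) :
    dimH (S.Bad1 H a j i) ≤ ((finrank ℝ (S.J × Tag n → Co n) - 1 : ℕ) : ℝ≥0∞) := by
  classical
  set g : Co n → Co n := fun x => H (S.ψ j x) with hgdef
  set K : Q1 i → Co n := fun q => Pi.single i 1 + ext1 i q.2.2.1 with hK
  set Wv : Q1 i → Co n := fun q => ext1 i q.2.2.2 with hW
  set r : Fin 3 → S.J × Tag n → Q1 i → ℝ :=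
    ![fun k q => S.f k j q.1, fun k q => fderiv ℝ (S.f k j) q.1 (K q),
      fun k q => fderiv ℝ (fderiv ℝ (S.f k j)) q.1 (K q) (K q) - fderiv ℝ (S.f k j) q.1 (Wv q)]
    with hr
  set c : Q1 i → (Fin 3 → Co n) := fun q => ![g q.1 + q.2.1 • a, fderiv ℝ g q.1 (K q),
    fderiv ℝ (fderiv ℝ g) q.1 (K q) (K q) - fderiv ℝ g q.1 (Wv q)] with hc
  have hsub : S.Bad1 H a j i ⊆
      {A | ∃ q ∈ S.core j ×ˢ univ, c q + S.rows (fun l k => r l k q) A = 0} := by
    rintro A ⟨u, hu, t, k, w, hk, hw, h0, h1, h2⟩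
    have hud := S.core_sub j hu
    refine ⟨(u, t, fun l => k l, fun l => w l), ⟨hu, trivial⟩, ?_⟩
    have eK : K (u, t, fun l => k l, fun l => w l) = k := single_add_ext1 hk
    have eW : Wv (u, t, fun l => k l, fun l => w l) = w := ext1_self hw
    rw [S.fderiv2_h hH A hud k, S.fderiv_h hH A hud w, snd_deriv (S.contDiffAt_H hH hud) k] at h2
    simp only [snd_deriv (S.contDiffAt_f _ hud) k] at h2
    rw [S.fderiv_h hH A hud k] at h1
    funext l
    rw [Pi.add_apply, rows_apply]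
    fin_cases l
    · simp only [hc, hr, hgdef, Fin.zero_eta, Matrix.cons_val_zero, Pi.zero_apply]
      rw [add_right_comm]
      exact h0
    · simp only [hc, hr, hgdef, Fin.mk_one, Matrix.cons_val_one, Matrix.cons_val_zero, eK,
        Pi.zero_apply]
      exact h1
    · simp only [hc, hr, hgdef, Fin.reduceFinMk, Matrix.cons_val, eK, eW, Pi.zero_apply, sub_smul,
        Finset.sum_sub_distrib]
      rw [sub_add_sub_comm]
      exact sub_eq_zero.2 h2
  refine (dimH_mono hsub).trans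
    (dimH_affine_bad (S.slots ![(j, none), (j, some (i, false)), (j, some (i, true))]) ?_ ?_ ?_ ?_)
  · rintro q ⟨hu, -⟩
    have hud := S.core_sub j hu
    have hg := S.contDiffAt_H hH hud
    have hq1 : ContDiffAt ℝ 1 (fun q : Q1 i => q.1) q := contDiffAt_fst
    have hKc : ContDiffAt ℝ 1 K q :=
      contDiffAt_const.add ((ext1 i).contDiff.contDiffAt.comp q (contDiff_fst.comp
        (contDiff_snd.comp contDiff_snd)).contDiffAt)
    have hWc : ContDiffAt ℝ 1 Wv q :=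
      (ext1 i).contDiff.contDiffAt.comp q (contDiff_snd.comp
        (contDiff_snd.comp contDiff_snd)).contDiffAt
    have hd1 : ContDiffAt ℝ 1 (fun q : Q1 i => fderiv ℝ g q.1) q :=
      (hg.fderiv_right (m := 1) (by norm_num)).comp q hq1
    have hd2 : ContDiffAt ℝ 1 (fun q : Q1 i => fderiv ℝ (fderiv ℝ g) q.1) q :=
      ((hg.fderiv_right (m := 2) (by norm_num)).fderiv_right (m := 1) (by norm_num)).comp q hq1
    refine contDiffAt_pi.2 fun l => ?_
    fin_cases l
    · exact ((hg.of_le (by norm_num)).comp q hq1).add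
        ((contDiff_fst.comp contDiff_snd).contDiffAt.smul contDiffAt_const)
    · exact hd1.clm_apply hKc
    · exact ((hd2.clm_apply hKc).clm_apply hKc).sub (hd1.clm_apply hWc)
  · rintro q ⟨hu, -⟩
    have hud := S.core_sub j hu
    have hq1 : ContDiffAt ℝ 1 (fun q : Q1 i => q.1) q := contDiffAt_fst
    have hKc : ContDiffAt ℝ 1 K q :=
      contDiffAt_const.add ((ext1 i).contDiff.contDiffAt.comp q (contDiff_fst.comp
        (contDiff_snd.comp contDiff_snd)).contDiffAt)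
    have hWc : ContDiffAt ℝ 1 Wv q :=
      (ext1 i).contDiff.contDiffAt.comp q (contDiff_snd.comp
        (contDiff_snd.comp contDiff_snd)).contDiffAt
    refine S.contDiffAt_rows fun l k => ?_
    have hf := S.contDiffAt_f k hud
    have hd1 : ContDiffAt ℝ 1 (fun q : Q1 i => fderiv ℝ (S.f k j) q.1) q :=
      (hf.fderiv_right (m := 1) (by norm_num)).comp q hq1
    have hd2 : ContDiffAt ℝ 1 (fun q : Q1 i => fderiv ℝ (fderiv ℝ (S.f k j)) q.1) q :=
      ((hf.fderiv_right (m := 2) (by norm_num)).fderiv_right (m := 1) (by norm_num)).comp q hq1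
    fin_cases l
    · exact (hf.of_le (by norm_num)).comp q hq1
    · exact hd1.clm_apply hKc
    · exact ((hd2.clm_apply hKc).clm_apply hKc).sub (hd1.clm_apply hWc)
  · rintro q ⟨hu, -⟩ z hz
    obtain ⟨e0, el⟩ := S.f_core hu
    obtain ⟨e1, e2⟩ := el i
    have hKi : K q i = 1 := by simp [hK, ext1]
    have hWi : Wv q i = 0 := by simp [hW, ext1]
    obtain ⟨a0, b0, c0⟩ := deriv_one e0 (K q)
    obtain ⟨a1, b1, c1⟩ := deriv_coord e1 (K q)
    obtain ⟨a2, b2, c2⟩ := deriv_sq e2 (K q)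
    obtain ⟨-, d0, -⟩ := deriv_one e0 (Wv q)
    obtain ⟨-, d1, -⟩ := deriv_coord e1 (Wv q)
    obtain ⟨-, d2, -⟩ := deriv_sq e2 (Wv q)
    have E0 := congrFun hz 0
    have E1 := congrFun hz 1
    have E2 := congrFun hz 2
    rw [rows_slots] at E0 E1 E2
    simp only [hr, Fin.sum_univ_three, Matrix.cons_val_zero, Matrix.cons_val_one, Matrix.cons_val,
      a0, b0, c0, a1, b1, c1, a2, b2, c2, d0, d1, d2, hKi, hWi, Pi.zero_apply] at E0 E1 E2
    have z2 : z 2 = 0 := by simpa using E2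
    have z1 : z 1 = 0 := by simpa [z2] using E1
    have z0 : z 0 = 0 := by simpa [z1, z2] using E0
    funext m
    fin_cases m
    · exact z0
    · exact z1
    · exact z2
  · have hi := i.pos
    simp only [finrank_prod, finrank_self, finrank_pi, finrank_pi_fintype, card_ne,
      Fintype.card_fin, Finset.sum_const, Finset.card_univ, smul_eq_mul]
    omega

theorem dimH_bad2 (hH : S.Sm H) (j : S.J) (i l : Fin n) :
    dimH (S.Bad2 H a j i l) ≤ ((finrank ℝ (S.J × Tag n → Co n) - 1 : ℕ) : ℝ≥0∞) := by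
  classical
  rcases eq_or_ne i l with rfl | hil
  · have he : S.Bad2 H a j i i = ∅ := by
      refine eq_empty_of_forall_notMem fun A hA => ?_
      obtain ⟨u, -, t, s, k, w, -, h1, h2, -⟩ := hA
      exact one_ne_zero (h2.symm.trans h1)
    simp [he]
  set g : Co n → Co n := fun x => H (S.ψ j x) with hgdef
  set K : Q2 i l → Co n := fun q => Pi.single i 1 + ext1 i q.2.2.1 with hK
  set Wv : Q2 i l → Co n := fun q => Pi.single l 1 + ext2 i l q.2.2.2 with hW
  set r : Fin 3 → S.J × Tag n → Q2 i l → ℝ :=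
    ![fun k q => S.f k j q.1, fun k q => fderiv ℝ (S.f k j) q.1 (K q),
      fun k q => fderiv ℝ (S.f k j) q.1 (Wv q)] with hr
  set c : Q2 i l → (Fin 3 → Co n) := fun q => ![g q.1 + q.2.1.1 • a, fderiv ℝ g q.1 (K q),
    fderiv ℝ g q.1 (Wv q) - q.2.1.2 • a] with hc
  have hsub : S.Bad2 H a j i l ⊆
      {A | ∃ q ∈ S.core j ×ˢ univ, c q + S.rows (fun m k => r m k q) A = 0} := by
    rintro A ⟨u, hu, t, s, k, w, hk, hw, hw', h0, h1, h2⟩
    have hud := S.core_sub j hu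
    refine ⟨(u, (t, s), fun m => k m, fun m => w m), ⟨hu, trivial⟩, ?_⟩
    have eK : K (u, (t, s), fun m => k m, fun m => w m) = k := single_add_ext1 hk
    have eW : Wv (u, (t, s), fun m => k m, fun m => w m) = w := single_add_ext2 hw hw'
    rw [S.fderiv_h hH A hud k] at h1
    rw [S.fderiv_h hH A hud w] at h2
    funext m
    rw [Pi.add_apply, rows_apply]
    fin_cases m
    · simp only [hc, hr, hgdef, Fin.zero_eta, Matrix.cons_val_zero, Pi.zero_apply]
      rw [add_right_comm]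
      exact h0
    · simp only [hc, hr, hgdef, Fin.mk_one, Matrix.cons_val_one, Matrix.cons_val_zero, eK,
        Pi.zero_apply]
      exact h1
    · simp only [hc, hr, hgdef, Fin.reduceFinMk, Matrix.cons_val, eW, Pi.zero_apply]
      rw [sub_add_eq_add_sub]
      exact sub_eq_zero.2 h2
  refine (dimH_mono hsub).trans
    (dimH_affine_bad (S.slots ![(j, none), (j, some (i, false)), (j, some (l, false))]) ?_ ?_ ?_ ?_)
  · rintro q ⟨hu, -⟩
    have hud := S.core_sub j hu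
    have hg := S.contDiffAt_H hH hud
    have hq1 : ContDiffAt ℝ 1 (fun q : Q2 i l => q.1) q := contDiffAt_fst
    have hKc : ContDiffAt ℝ 1 K q :=
      contDiffAt_const.add ((ext1 i).contDiff.contDiffAt.comp q (contDiff_fst.comp
        (contDiff_snd.comp contDiff_snd)).contDiffAt)
    have hWc : ContDiffAt ℝ 1 Wv q :=
      contDiffAt_const.add ((ext2 i l).contDiff.contDiffAt.comp q (contDiff_snd.comp
        (contDiff_snd.comp contDiff_snd)).contDiffAt)
    have hd1 : ContDiffAt ℝ 1 (fun q : Q2 i l => fderiv ℝ g q.1) q :=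
      (hg.fderiv_right (m := 1) (by norm_num)).comp q hq1
    refine contDiffAt_pi.2 fun m => ?_
    fin_cases m
    · exact ((hg.of_le (by norm_num)).comp q hq1).add
        ((contDiff_fst.comp (contDiff_fst.comp contDiff_snd)).contDiffAt.smul contDiffAt_const)
    · exact hd1.clm_apply hKc
    · exact (hd1.clm_apply hWc).sub
        ((contDiff_snd.comp (contDiff_fst.comp contDiff_snd)).contDiffAt.smul contDiffAt_const)
  · rintro q ⟨hu, -⟩
    have hud := S.core_sub j hu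
    have hq1 : ContDiffAt ℝ 1 (fun q : Q2 i l => q.1) q := contDiffAt_fst
    have hKc : ContDiffAt ℝ 1 K q :=
      contDiffAt_const.add ((ext1 i).contDiff.contDiffAt.comp q (contDiff_fst.comp
        (contDiff_snd.comp contDiff_snd)).contDiffAt)
    have hWc : ContDiffAt ℝ 1 Wv q :=
      contDiffAt_const.add ((ext2 i l).contDiff.contDiffAt.comp q (contDiff_snd.comp
        (contDiff_snd.comp contDiff_snd)).contDiffAt)
    refine S.contDiffAt_rows fun m k => ?_
    have hf := S.contDiffAt_f k hud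
    have hd1 : ContDiffAt ℝ 1 (fun q : Q2 i l => fderiv ℝ (S.f k j) q.1) q :=
      (hf.fderiv_right (m := 1) (by norm_num)).comp q hq1
    fin_cases m
    · exact (hf.of_le (by norm_num)).comp q hq1
    · exact hd1.clm_apply hKc
    · exact hd1.clm_apply hWc
  · rintro q ⟨hu, -⟩ z hz
    obtain ⟨e0, el⟩ := S.f_core hu
    obtain ⟨e1, -⟩ := el i
    obtain ⟨e2, -⟩ := el l
    have hKi : K q i = 1 := by simp [hK, ext1]
    have hWi : Wv q i = 0 := by simp [hW, ext2, hil]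
    have hWl : Wv q l = 1 := by simp [hW, ext2]
    obtain ⟨a0, b0, -⟩ := deriv_one e0 (K q)
    obtain ⟨a1, b1, -⟩ := deriv_coord e1 (K q)
    obtain ⟨a2, b2, -⟩ := deriv_coord e2 (K q)
    obtain ⟨-, d0, -⟩ := deriv_one e0 (Wv q)
    obtain ⟨-, d1, -⟩ := deriv_coord e1 (Wv q)
    obtain ⟨-, d2, -⟩ := deriv_coord e2 (Wv q)
    have E0 := congrFun hz 0
    have E1 := congrFun hz 1
    have E2 := congrFun hz 2
    rw [rows_slots] at E0 E1 E2
    simp only [hr, Fin.sum_univ_three, Matrix.cons_val_zero, Matrix.cons_val_one, Matrix.cons_val,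
      a0, b0, a1, b1, a2, b2, d0, d1, d2, hKi, hWi, hWl, Pi.zero_apply] at E0 E1 E2
    have z2 : z 2 = 0 := by simpa using E2
    have z1 : z 1 = 0 := by simpa [z2] using E1
    have z0 : z 0 = 0 := by simpa [z1, z2] using E0
    funext m
    fin_cases m
    · exact z0
    · exact z1
    · exact z2
  · have hi := i.pos
    have h2 : 2 ≤ n := by
      by_contra hlt
      exact hil (Fin.ext (by omega))
    simp only [finrank_prod, finrank_self, finrank_pi, finrank_pi_fintype, card_ne, card_ne2 hil,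
      Fintype.card_fin, Finset.sum_const, Finset.card_univ, smul_eq_mul]
    omega

/-- A root which is not regular is a fold, as no bad set is met. -/
theorem fold_local (hH : S.Sm H) (ha : a ≠ 0) {A : S.J × Tag n → Co n}
    (h1 : ∀ j i, A ∉ S.Bad1 H a j i) (h2 : ∀ j i l, A ∉ S.Bad2 H a j i l) {w : W} {t₀ : ℝ}
    (h0 : H w + S.pert A w + t₀ • a = 0)
    (hns : ¬S.Reg (fun y => H y + S.pert A y + t₀ • a) w) {N : Set W} (hN : N ∈ 𝓝 w) :
    ∃ U ∈ 𝓝 w, U ⊆ N ∧ (∀ y ∈ U, H y + S.pert A y + t₀ • a = 0 → y = w) ∧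
      ∀ᶠ t in 𝓝[≠] t₀, {y ∈ U | H y + S.pert A y + t • a = 0}.Finite ∧
        {y ∈ U | H y + S.pert A y + t • a = 0}.ncard % 2 = 0 % 2 ∧
        ∀ y ∈ U, H y + S.pert A y + t • a = 0 → S.Reg (fun y => H y + S.pert A y + t • a) y := by
  obtain ⟨j, u, hu, rfl⟩ := S.cover w
  have hud := S.core_sub j hu
  set g := S.h H A j with hgdef
  have hg : ContDiffAt ℝ 3 g u := S.contDiffAt_h hH A hud
  have hni : ¬Function.Injective (fderiv ℝ g u) := fun hi =>
    hns ⟨j, u, hud, rfl, by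
      rw [show (fun x => H (S.ψ j x) + S.pert A (S.ψ j x) + t₀ • a) = fun x => g x + t₀ • a from
        rfl, fderiv_add_const]
      exact hi⟩
  obtain ⟨k₀, hk₀, hk₀ne⟩ : ∃ k, fderiv ℝ g u k = 0 ∧ k ≠ 0 := by
    by_contra hcon
    exact hni ((injective_iff_map_eq_zero _).2 fun k hk => by_contra fun hne => hcon ⟨k, hk, hne⟩)
  obtain ⟨i, hi⟩ : ∃ i, k₀ i ≠ 0 := Function.ne_iff.1 hk₀ne
  set k := (k₀ i)⁻¹ • k₀ with hkdef
  have hki : k i = 1 := by simp [hkdef, hi]
  have hk : fderiv ℝ g u k = 0 := by rw [hkdef, map_smul, hk₀, smul_zero]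
  have hkne : k ≠ 0 := fun e => by simp [e] at hki
  have hspecial : ∀ v (s : ℝ), fderiv ℝ g u v = s • a → ∃ c : ℝ, v = c • k := by
    intro v s hv
    by_contra hcon
    set v' := v - v i • k with hv'
    obtain ⟨l, hl⟩ : ∃ l, v' l ≠ 0 :=
      Function.ne_iff.1 (sub_ne_zero.2 fun e => hcon ⟨v i, e⟩)
    refine h2 j i l ⟨u, hu, t₀, (v' l)⁻¹ * s, k, (v' l)⁻¹ • v', hki, ?_, ?_, h0, hk, ?_⟩
    · simp [hv', hki]
    · simp [hl]
    · change fderiv ℝ g u ((v' l)⁻¹ • v') = _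
      rw [map_smul, hv', map_sub, map_smul, hk, smul_zero, sub_zero, hv, smul_smul]
  have hnd : ∀ v, fderiv ℝ g u v ≠ fderiv ℝ (fderiv ℝ g) u k k := fun v hv =>
    h1 j i ⟨u, hu, t₀, k, v - v i • k, hki, by simp [hki], h0, hk, by
      change fderiv ℝ (fun x => fderiv ℝ g x k) u k = fderiv ℝ g u (v - v i • k)
      rw [snd_deriv hg k, ← hv, map_sub, map_smul, hk, smul_zero, sub_zero]⟩
  obtain ⟨U, hU, hUN, hu1, hev⟩ := fold_root (h := g) (a := a) (t₀ := t₀)
    (hg.of_le (by norm_num)) h0 hk hkne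
    (fun v hv => hspecial v 0 (by rw [hv, zero_smul]))
    (fun v hv => by
      obtain ⟨c, rfl⟩ := hspecial v 1 (by rw [hv, one_smul])
      rw [map_smul, hk, smul_zero] at hv
      exact ha hv.symm)
    hnd (N := S.dom j ∩ S.ψ j ⁻¹' N) (inter_mem ((S.dom_open j).mem_nhds hud)
      (((S.ψ_cont j).continuousAt ((S.dom_open j).mem_nhds hud)).preimage_mem_nhds hN))
  have hUd : U ⊆ S.dom j := fun x hx => (hUN hx).1
  refine ⟨S.ψ j '' U, S.ψ_nhds hud hU, image_subset_iff.2 fun x hx => (hUN hx).2, ?_, ?_⟩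
  · rintro _ ⟨y, hy, rfl⟩ hy0
    rw [hu1 y hy hy0]
  filter_upwards [hev] with t ⟨hfin, heven, hreg⟩
  obtain ⟨e1, e2⟩ := S.image_roots hUd (fun y => H y + S.pert A y + t • a)
  refine ⟨e1 ▸ hfin.image _, ?_, ?_⟩
  · rw [e2]
    exact Nat.even_iff.1 heven
  · rintro _ ⟨y, hy, rfl⟩ hy0
    refine ⟨j, y, hUd hy, rfl, ?_⟩
    rw [show (fun x => H (S.ψ j x) + S.pert A (S.ψ j x) + t • a) = fun x => g x + t • a from
      rfl, fderiv_add_const]
    exact hreg y hy hy0

/-- **Parity.** A map with regular roots only has an even number of them. -/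
theorem even_regular_zeros [CompactSpace W] [T2Space W] (hn : 0 < n) (hH : S.Sm H)
    (hreg : ∀ w, H w = 0 → S.Reg H w) : {w | H w = 0}.Finite ∧ Even {w | H w = 0}.ncard := by
  classical
  set G : W × (S.J × Tag n → Co n) → Co n := fun x => H x.1 + S.pert x.2 x.1 with hGdef
  have hGc : Continuous G := (hH.1.comp continuous_fst).add S.continuous_pert
  have hGs : ∀ j, ContDiffOn ℝ 2 (fun x : Co n × (S.J × Tag n → Co n) => G (S.ψ j x.1, x.2))
      (S.dom j ×ˢ univ) := fun j => by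
    refine ContDiffOn.add (((hH.2 j).of_le (WithTop.coe_le_coe.2 le_top)).comp contDiffOn_fst
      fun x hx => hx.1) (ContDiffOn.sum fun k _ => ?_)
    exact (((S.φ_smooth k.1 k.2 j).of_le (WithTop.coe_le_coe.2 le_top)).comp contDiffOn_fst
      fun x hx => hx.1).smul ((contDiff_apply ℝ (Co n) k).comp contDiff_snd).contDiffOn
  have hG0 : ∀ w, G (w, 0) = H w := fun w => by simp [hGdef, pert]
  obtain ⟨hfin, hev⟩ := S.stable hGc hGs (q₀ := 0) fun w hw => by
    rw [hG0] at hw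
    simpa only [hG0] using hreg w hw
  simp only [hG0] at hfin hev
  refine ⟨hfin, ?_⟩
  have hne : Nonempty (Fin n) := ⟨⟨0, hn⟩⟩
  set a : Co n := fun _ => 1 with hadef
  have ha : a ≠ 0 := fun e => one_ne_zero (congrFun e ⟨0, hn⟩)
  rcases isEmpty_or_nonempty W with hW | hW
  · simp [Set.eq_empty_of_isEmpty {w | H w = 0}]
  have hJ : Nonempty S.J := ⟨(S.cover (Classical.arbitrary W)).choose⟩
  set bad : (S.J × Fin n) ⊕ (S.J × Fin n × Fin n) → Set (S.J × Tag n → Co n) :=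
    Sum.elim (fun p => S.Bad1 H a p.1 p.2) (fun p => S.Bad2 H a p.1 p.2.1 p.2.2) with hbad
  obtain ⟨A, hA, hgood⟩ := (dense_avoid (bad := bad) fun p => by
    rcases p with p | p
    · exact S.dimH_bad1 hH p.1 p.2
    · exact S.dimH_bad2 hH p.1 p.2.1 p.2.2).inter_nhds_nonempty hev
  have h1 : ∀ j i, A ∉ S.Bad1 H a j i := fun j i h => hA (mem_iUnion.2 ⟨.inl (j, i), h⟩)
  have h2 : ∀ j i l, A ∉ S.Bad2 H a j i l := fun j i l h =>
    hA (mem_iUnion.2 ⟨.inr (j, i, l), h⟩)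
  obtain ⟨-, hpar, hregA⟩ := hgood
  set G' : W × ℝ → Co n := fun x => H x.1 + S.pert A x.1 + x.2 • a with hG'def
  have hHA : Continuous fun w => H w + S.pert A w :=
    hH.1.add (S.continuous_pert.comp (continuous_id.prodMk continuous_const))
  have hG'c : Continuous G' :=
    (hHA.comp continuous_fst).add (continuous_snd.smul continuous_const)
  have hG's : ∀ j, ContDiffOn ℝ 2 (fun x : Co n × ℝ => G' (S.ψ j x.1, x.2)) (S.dom j ×ˢ univ) :=
    fun j => by
    refine ContDiffOn.add (ContDiffOn.add (((hH.2 j).of_le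
      (WithTop.coe_le_coe.2 le_top)).comp contDiffOn_fst fun x hx => hx.1)
        (ContDiffOn.sum fun k _ => ?_)) (contDiffOn_snd.smul contDiffOn_const)
    exact (((S.φ_smooth k.1 k.2 j).of_le (WithTop.coe_le_coe.2 le_top)).comp contDiffOn_fst
      fun x hx => hx.1).smul contDiffOn_const
  set m : ℝ → ℕ := fun t =>
    {w | G' (w, t) = 0 ∧ S.Reg (fun y => G' (y, t)) w}.ncard % 2 with hm
  have hloc : IsLocallyConstant m := by
    refine (IsLocallyConstant.iff_eventually_eq _).2 fun t₀ => ?_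
    obtain ⟨T, hT, hevT⟩ := roots_glue hG'c (F := 𝓝[≠] t₀) nhdsWithin_le_nhds
      (c := fun w => if S.Reg (fun y => G' (y, t₀)) w then 1 else 0)
      (good := fun y t => S.Reg (fun z => G' (z, t)) y) fun w hw N hN => by
        by_cases hr : S.Reg (fun y => G' (y, t₀)) w
        · obtain ⟨U, hU, hUN, hu1, he⟩ := S.regular_local hG's hw hr hN
          exact ⟨U, hU, hUN, hu1, by simpa only [if_pos hr] using he.filter_mono nhdsWithin_le_nhds⟩
        · simpa only [if_neg hr] using S.fold_local hH ha h1 h2 hw hr hN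
    have hT0 : {w | G' (w, t₀) = 0 ∧ S.Reg (fun y => G' (y, t₀)) w} =
        T.filter fun w => S.Reg (fun y => G' (y, t₀)) w := by
      ext w
      simp [hT]
    rw [← nhdsNE_sup_pure, eventually_sup, eventually_pure]
    refine ⟨hevT.mono fun t ht => ?_, rfl⟩
    have e : {w | G' (w, t) = 0 ∧ S.Reg (fun y => G' (y, t)) w} = {w | G' (w, t) = 0} :=
      Set.ext fun w => ⟨And.left, fun hw => ⟨hw, ht.2.2 w hw⟩⟩
    simp only [hm]
    rw [e, ht.2.1, hT0, ncard_coe_finset, Finset.card_filter]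
  obtain ⟨B, hB⟩ := (isCompact_range hHA).isBounded.exists_norm_le
  set t₁ : ℝ := (B + 1) / ‖a‖ with ht₁
  have hm1 : m t₁ = 0 := by
    have : {w | G' (w, t₁) = 0 ∧ S.Reg (fun y => G' (y, t₁)) w} = ∅ := by
      refine eq_empty_of_forall_notMem fun w hw => ?_
      have hB0 : 0 ≤ B := (norm_nonneg _).trans (hB _ ⟨w, rfl⟩)
      have e : t₁ • a = -(H w + S.pert A w) := eq_neg_of_add_eq_zero_right hw.1
      have := congrArg norm e
      rw [norm_neg, norm_smul, Real.norm_eq_abs, ht₁, abs_div, abs_norm,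
        div_mul_cancel₀ _ (norm_ne_zero_iff.2 ha), abs_of_nonneg (by linarith)] at this
      linarith [hB _ ⟨w, rfl⟩]
    simp [hm, this]
  have hm0 : m 0 = {w | H w = 0}.ncard % 2 := by
    rw [← hpar]
    simp only [hm]
    congr 2
    ext w
    have e : ∀ y, G' (y, 0) = G (y, A) := fun y => by simp [hG'def, hGdef]
    simp only [mem_ofPred_eq, e]
    exact ⟨And.left, fun hw => ⟨hw, hregA w hw⟩⟩
  exact Nat.even_iff.2 (hm0.symm.trans ((hloc.apply_eq_of_preconnectedSpace 0 t₁).trans hm1))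

end Pieces

end Vale.Agent.P205.Global
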