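import Mathlib

/-!
Quaternion algebra for normal frames of planes in four-space: the normal plane of `t₁, t₂` is
`ν (ℝ + ℝ μ)`, and `star ν` sends the plane to pure quaternions anticommuting with `μ`.
-/

noncomputable section

open Quaternion
open scoped ContDiff Quaternion ComplexConjugate

namespace Vale.Agent.P205.Global.Quat

/-- The imaginary part as a point of `ℝ³`. -/
def imV : ℍ[ℝ] →L[ℝ] EuclideanSpace ℝ (Fin 3) :=
  LinearMap.toContinuousLinearMap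
    { toFun := fun q => !₂[q.imI, q.imJ, q.imK]
      map_add' := fun a b => by ext i; fin_cases i <;> simp
      map_smul' := fun c a => by ext i; fin_cases i <;> simp }

@[simp] theorem imV_apply (q : ℍ[ℝ]) : imV q = !₂[q.imI, q.imJ, q.imK] := rfl

theorem imV_eq_zero {q : ℍ[ℝ]} (hq : q.re = 0) (h : imV q = 0) : q = 0 := by
  have e := fun i : Fin 3 => congrArg (fun v : EuclideanSpace ℝ (Fin 3) => v i) h
  exact QuaternionAlgebra.ext hq (by simpa using e 0) (by simpa using e 1) (by simpa using e 2)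

/-- The pure part. -/
def pur (q : ℍ[ℝ]) : ℍ[ℝ] := ⟨0, q.imI, q.imJ, q.imK⟩

@[simp] theorem pur_re (q : ℍ[ℝ]) : (pur q).re = 0 := rfl
@[simp] theorem pur_imI (q : ℍ[ℝ]) : (pur q).imI = q.imI := rfl
@[simp] theorem pur_imJ (q : ℍ[ℝ]) : (pur q).imJ = q.imJ := rfl
@[simp] theorem pur_imK (q : ℍ[ℝ]) : (pur q).imK = q.imK := rfl

theorem pur_eq (q : ℍ[ℝ]) : pur q = q - q.re • (1 : ℍ[ℝ]) := by
  ext <;> simp

theorem contDiff_pur : ContDiff ℝ ∞ pur := by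
  have h : pur = fun q => q - inner ℝ q (1 : ℍ[ℝ]) • (1 : ℍ[ℝ]) := by
    funext q
    simp [pur_eq, Quaternion.inner_def]
  rw [h]
  exact contDiff_id.sub ((contDiff_id.inner ℝ contDiff_const).smul contDiff_const)

theorem inner_eq (a b : ℍ[ℝ]) :
    inner ℝ a b = a.re * b.re + a.imI * b.imI + a.imJ * b.imJ + a.imK * b.imK := by
  simp [Quaternion.inner_def]

theorem inner_mul_left (ν x y : ℍ[ℝ]) : inner ℝ (ν * x) y = inner ℝ x (star ν * y) := by
  simp [inner_eq]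
  ring

theorem inner_star_mul (ν x y : ℍ[ℝ]) :
    inner ℝ (star ν * x) (star ν * y) = ‖ν‖ ^ 2 * inner ℝ x y := by
  rw [← real_inner_self_eq_norm_sq, inner_eq, inner_eq, inner_eq]
  simp
  ring

/-- The copy of the complex numbers spanned by `1` and `μ`. -/
def cq (μ : ℍ[ℝ]) (z : ℂ) : ℍ[ℝ] := z.re • 1 + z.im • μ

theorem cq_zero (μ : ℍ[ℝ]) : cq μ 0 = 0 := by simp [cq]

theorem cq_one (μ : ℍ[ℝ]) : cq μ 1 = 1 := by simp [cq]

theorem cq_add (μ : ℍ[ℝ]) (a b : ℂ) : cq μ (a + b) = cq μ a + cq μ b := by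
  simp [cq, add_smul]; abel

theorem cq_smul (μ : ℍ[ℝ]) (c : ℝ) (a : ℂ) : cq μ (c • a) = c • cq μ a := by
  simp [cq, mul_smul]

theorem sq_pure {μ : ℍ[ℝ]} (hre : μ.re = 0) (hn : ‖μ‖ = 1) : μ * μ = -1 := by
  have h : μ * star μ = (1 : ℍ[ℝ]) := by
    rw [Quaternion.self_mul_star, Quaternion.normSq_eq_norm_mul_self, hn]; simp
  rw [show star μ = -μ from Quaternion.star_eq_neg.2 hre, mul_neg] at h
  exact neg_eq_iff_eq_neg.1 h

theorem cq_mul {μ : ℍ[ℝ]} (h : μ * μ = -1) (a b : ℂ) : cq μ (a * b) = cq μ a * cq μ b := by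
  simp only [cq, Complex.mul_re, Complex.mul_im, add_mul, mul_add, smul_mul_smul_comm, one_mul,
    mul_one, h, sub_smul, add_smul, smul_neg]
  abel

theorem star_cq {μ : ℍ[ℝ]} (hre : μ.re = 0) (a : ℂ) : star (cq μ a) = cq μ (conj a) := by
  simp [cq, Quaternion.star_eq_neg.2 hre]

theorem cq_eq_zero {μ : ℍ[ℝ]} (hre : μ.re = 0) (hμ : μ ≠ 0) {a : ℂ} (h : cq μ a = 0) : a = 0 := by
  have h1 : a.re = 0 := by simpa [cq, hre] using congrArg (fun q : ℍ[ℝ] => q.re) h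
  have h2 : a.im • μ = 0 := by simpa [cq, h1] using h
  exact Complex.ext h1 ((smul_eq_zero.1 h2).resolve_right hμ)

/-- Pure quaternions orthogonal to `μ` move past `ℝ + ℝ μ` by conjugation. -/
theorem mul_cq {μ X : ℍ[ℝ]} (hμ : μ.re = 0) (hX : X.re = 0) (h : inner ℝ μ X = 0) (a : ℂ) :
    X * cq μ a = cq μ (conj a) * X := by
  simp [inner_eq, hμ, hX] at h
  ext <;> simp [cq, hμ, hX] <;> first | ring1 | linear_combination (-2 * a.im) * h

theorem re_cq_mul {μ X : ℍ[ℝ]} (hμ : μ.re = 0) (hX : X.re = 0) (h : inner ℝ μ X = 0) (a : ℂ) :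
    (cq μ a * X).re = 0 ∧ inner ℝ μ (cq μ a * X) = 0 := by
  simp [inner_eq, hμ, hX] at h ⊢
  simp [cq, hμ]
  constructor
  · linear_combination (-a.im) * h
  · linear_combination a.re * h

/-- Conjugation keeps pure quaternions pure. -/
theorem re_conjugate {q X : ℍ[ℝ]} (hX : X.re = 0) : (q * X * star q).re = 0 := by
  simp [hX]
  ring

/-- The normal vector of a pair of vectors, from an auxiliary vector. -/
def nu (e t₁ t₂ : ℍ[ℝ]) : ℍ[ℝ] := t₁ * pur (e * pur (star t₁ * t₂))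

/-- The axis of the normal plane. -/
def axis (e t₁ t₂ : ℍ[ℝ]) : ℍ[ℝ] :=
  ‖pur (star (nu e t₁ t₂) * t₁ * (star (nu e t₁ t₂) * t₂))‖⁻¹ •
    pur (star (nu e t₁ t₂) * t₁ * (star (nu e t₁ t₂) * t₂))

theorem pure_mul {e : ℍ[ℝ]} (he : e.re = 0) (g : ℍ[ℝ]) :
    inner ℝ (pur (e * pur g)) g = 0 := by
  simp [inner_eq, he]
  ring

/-- The products with the conjugate normal vector are pure. -/
theorem re_star_nu {e t₁ t₂ : ℍ[ℝ]} (he : e.re = 0) :
    (star (nu e t₁ t₂) * t₁).re = 0 ∧ (star (nu e t₁ t₂) * t₂).re = 0 := by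
  have h : ∀ t, (star (nu e t₁ t₂) * t).re = inner ℝ (pur (e * pur (star t₁ * t₂))) (star t₁ * t) :=
    fun t => by
      rw [← inner_mul_left, ← nu]
      simp [inner_eq]
  refine ⟨?_, ?_⟩
  · rw [h, show star t₁ * t₁ = ((normSq t₁ : ℝ) : ℍ[ℝ]) from Quaternion.star_mul_self t₁]
    simp [inner_eq]
  · rw [h]
    exact pure_mul he _

theorem axis_ne {e t₁ t₂ : ℍ[ℝ]} (he : e.re = 0) (hli : LinearIndependent ℝ ![t₁, t₂])
    (hν : nu e t₁ t₂ ≠ 0) : pur (star (nu e t₁ t₂) * t₁ * (star (nu e t₁ t₂) * t₂)) ≠ 0 := by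
  obtain ⟨r1, r2⟩ := re_star_nu (t₁ := t₁) (t₂ := t₂) he
  set n := nu e t₁ t₂
  intro h0
  set w₁ := star n * t₁ with hw₁
  set w₂ := star n * t₂ with hw₂
  rw [pur_eq, sub_eq_zero] at h0
  have h1 : ‖w₁‖ ^ 2 • w₂ = (w₁ * w₂).re • star w₁ := by
    have := congrArg (fun q => star w₁ * q) h0
    simp only [← mul_assoc, Quaternion.star_mul_self, mul_smul_comm, mul_one,
      Quaternion.normSq_eq_norm_mul_self, Quaternion.coe_mul_eq_smul] at this
    rw [sq]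
    exact this
  rw [show star w₁ = -w₁ from Quaternion.star_eq_neg.2 r1] at h1
  have hns : star n ≠ 0 := star_ne_zero.2 hν
  have h2 : ‖w₁‖ ^ 2 • t₂ = (-(w₁ * w₂).re) • t₁ := mul_left_cancel₀ hns (by
    rw [mul_smul_comm, mul_smul_comm, ← hw₁, ← hw₂, h1, smul_neg, neg_smul])
  have h3 := (LinearIndependent.pair_iff.1 hli) ((w₁ * w₂).re) (‖w₁‖ ^ 2) (by
    rw [h2, neg_smul, add_neg_cancel])
  have ht : t₁ ≠ 0 := hli.ne_zero 0
  exact mul_ne_zero hns ht (norm_eq_zero.1 (pow_eq_zero_iff two_ne_zero |>.1 h3.2))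

/-- The properties of the axis. -/
theorem axis_spec {e t₁ t₂ : ℍ[ℝ]} (he : e.re = 0) (hli : LinearIndependent ℝ ![t₁, t₂])
    (hν : nu e t₁ t₂ ≠ 0) :
    (axis e t₁ t₂).re = 0 ∧ axis e t₁ t₂ * axis e t₁ t₂ = -1 ∧ axis e t₁ t₂ ≠ 0 ∧
      inner ℝ (axis e t₁ t₂) (star (nu e t₁ t₂) * t₁) = 0 ∧
      inner ℝ (axis e t₁ t₂) (star (nu e t₁ t₂) * t₂) = 0 := by
  obtain ⟨r1, r2⟩ := re_star_nu (t₁ := t₁) (t₂ := t₂) he
  have hne := axis_ne he hli hν
  unfold axis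
  set w₁ := star (nu e t₁ t₂) * t₁
  set w₂ := star (nu e t₁ t₂) * t₂
  refine ⟨by simp, sq_pure (by simp) (norm_smul_inv_norm hne), ?_, ?_, ?_⟩
  · exact smul_ne_zero (inv_ne_zero (norm_ne_zero_iff.2 hne)) hne
  · rw [real_inner_smul_left]
    simp [inner_eq, r1, r2]
    exact Or.inr (by ring)
  · rw [real_inner_smul_left]
    simp [inner_eq, r1, r2]
    exact Or.inr (by ring)

theorem dual {w₁ w₂ d : ℍ[ℝ]} (h1 : w₁.re = 0) (h2 : w₂.re = 0) (hd : d.re = 0) :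
    inner ℝ (pur (w₁ * w₂)) (pur (w₁ * w₂)) • d =
      inner ℝ d (pur (w₁ * w₂)) • pur (w₁ * w₂) +
        inner ℝ d w₁ • pur (w₂ * pur (w₁ * w₂)) + inner ℝ d w₂ • pur (pur (w₁ * w₂) * w₁) := by
  rw [inner_eq, inner_eq, inner_eq, inner_eq]
  ext <;> simp [h1, h2, hd]
  all_goals ring

/-- The coordinate of a normal vector. -/
def coord (ν μ L : ℍ[ℝ]) : ℂ :=
  (‖ν‖ ^ 2)⁻¹ • (⟨inner ℝ (star ν * L) 1, inner ℝ (star ν * L) μ⟩ : ℂ)

/-- Normal vectors are `ν` times `ℝ + ℝ μ`. -/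
theorem eq_mul_coord {e t₁ t₂ L : ℍ[ℝ]} (he : e.re = 0) (hli : LinearIndependent ℝ ![t₁, t₂])
    (hν : nu e t₁ t₂ ≠ 0) (h1 : inner ℝ L t₁ = 0) (h2 : inner ℝ L t₂ = 0) :
    nu e t₁ t₂ * cq (axis e t₁ t₂) (coord (nu e t₁ t₂) (axis e t₁ t₂) L) = L := by
  obtain ⟨r1, r2⟩ := re_star_nu (t₁ := t₁) (t₂ := t₂) he
  obtain ⟨haxre, hax2, -⟩ := axis_spec he hli hν
  have hne := axis_ne he hli hν
  set n := nu e t₁ t₂ with hn
  set X := pur (star n * t₁ * (star n * t₂)) with hX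
  set m := axis e t₁ t₂ with hm
  have hmX : m = ‖X‖⁻¹ • X := rfl
  set r := star n * L with hr
  have i1 : inner ℝ (pur r) (star n * t₁) = 0 := by
    have h : inner ℝ r (star n * t₁) = 0 := by rw [hr, inner_star_mul, h1, mul_zero]
    simpa [inner_eq, r1] using h
  have i2 : inner ℝ (pur r) (star n * t₂) = 0 := by
    have h : inner ℝ r (star n * t₂) = 0 := by rw [hr, inner_star_mul, h2, mul_zero]
    simpa [inner_eq, r2] using h
  have hd := dual r1 r2 (pur_re r)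
  rw [i1, i2, zero_smul, zero_smul, add_zero, add_zero, ← hX] at hd
  have hXX : inner ℝ X X ≠ (0 : ℝ) := fun h => hne (inner_self_eq_zero.1 h)
  have hp : pur r = inner ℝ r m • m := by
    have e1 : inner ℝ (pur r) X = inner ℝ r X := by simp [inner_eq, hX]
    apply smul_right_injective ℍ[ℝ] hXX
    change inner ℝ X X • pur r = inner ℝ X X • inner ℝ r m • m
    rw [hd, e1, hmX, real_inner_smul_right, smul_smul, smul_smul,
      real_inner_self_eq_norm_sq]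
    congr 1
    field_simp
  have hrr : r = cq m ⟨inner ℝ r 1, inner ℝ r m⟩ := by
    have e : r = r.re • (1 : ℍ[ℝ]) + pur r := by rw [pur_eq]; abel
    conv_lhs => rw [e, hp]
    simp [cq, inner_eq]
  rw [coord, cq_smul, ← hr, ← hrr, hr, mul_smul_comm, ← mul_assoc, Quaternion.self_mul_star,
    Quaternion.coe_mul_eq_smul, Quaternion.normSq_eq_norm_mul_self, smul_smul, ← sq,
    inv_mul_cancel₀ (pow_ne_zero 2 (norm_ne_zero_iff.2 hν)), one_smul]

/-- Some auxiliary vector works. -/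
theorem exists_aux {t₁ t₂ : ℍ[ℝ]} (hli : LinearIndependent ℝ ![t₁, t₂]) :
    ∃ e : ℍ[ℝ], e.re = 0 ∧ nu e t₁ t₂ ≠ 0 := by
  have ht : t₁ ≠ 0 := hli.ne_zero 0
  set g := star t₁ * t₂ with hg
  have hgne : ¬(g.imI = 0 ∧ g.imJ = 0 ∧ g.imK = 0) := fun ⟨a, b, c⟩ => by
    have e : g = g.re • (1 : ℍ[ℝ]) := by ext <;> simp [a, b, c]
    have h2 : t₁ * g = g.re • t₁ := by
      conv_lhs => rw [e, mul_smul_comm, mul_one]
    rw [hg, ← mul_assoc, Quaternion.self_mul_star, Quaternion.coe_mul_eq_smul] at h2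
    have h3 := (LinearIndependent.pair_iff.1 hli) (-g.re) (normSq t₁) (by
      rw [h2, neg_smul, neg_add_cancel])
    exact ht (Quaternion.normSq_eq_zero.1 h3.2)
  by_contra hcon
  push Not at hcon
  have h : ∀ e : ℍ[ℝ], e.re = 0 → pur (e * pur g) = 0 := fun e he =>
    (mul_eq_zero.1 (hcon e he)).resolve_left ht
  have key : ∀ (a b c : ℝ) (q : ℍ[ℝ]), q.re = 0 → q.imI = a → q.imJ = b → q.imK = c →
      c * g.imI - a * g.imK = 0 ∧ a * g.imJ - b * g.imI = 0 := fun a b c q h0 ha hb hc => by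
    have a1 := congrArg (fun q : ℍ[ℝ] => q.imJ) (h q h0)
    have a2 := congrArg (fun q : ℍ[ℝ] => q.imK) (h q h0)
    simp [h0, ha, hb, hc] at a1 a2
    exact ⟨by linarith, by linarith⟩
  obtain ⟨a1, a2⟩ := key 1 0 0 ⟨0, 1, 0, 0⟩ rfl rfl rfl rfl
  obtain ⟨-, a3⟩ := key 0 1 0 ⟨0, 0, 1, 0⟩ rfl rfl rfl rfl
  simp at a1 a2 a3
  exact hgne ⟨a3, a2, a1⟩

end Vale.Agent.P205.Global.Quat
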