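import Vale.Agent.P205.Global.Data
import Vale.Agent.P205.Global.OneForm
import Vale.Agent.P205.Global.Quat
import Vale.Agent.P205.Global.Disc
import Vale.Agent.P205.Iter.Atlas

/-!
Coordinate discs of a surface immersed in four-space with a smooth frame `ν (ℝ + ℝ μ)` of the
normal planes, in which a normal field becomes a function with values in `ℂ`.
-/

noncomputable section

open Set Filter Metric Function
open scoped Topology ContDiff Manifold Quaternion ComplexConjugate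

namespace Vale.Agent.P205.Global

variable {M : Type} [TopologicalSpace M] [ChartedSpace Plane M]

/-- A coordinate disc with the data of a normal frame. -/
structure Patch (F : M → ℍ[ℝ]) where
  /-- The radius. -/
  r : ℝ
  /-- The parametrisation. -/
  ψ : ℂ → M
  /-- The coordinate. -/
  q : M → ℂ
  /-- The domain. -/
  V : Set M
  /-- The auxiliary vector. -/
  e : ℍ[ℝ]
  V_open : IsOpen V
  ψ_smooth : ContMDiffOn 𝓘(ℝ, ℂ) 𝓘(ℝ, Plane) ∞ ψ (ball 0 r)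
  ψ_mem : MapsTo ψ (ball 0 r) V
  q_mem : MapsTo q V (ball 0 r)
  q_smooth : ContMDiffOn 𝓘(ℝ, Plane) 𝓘(ℝ, ℂ) ∞ q V
  q_ψ : ∀ z ∈ ball (0 : ℂ) r, q (ψ z) = z
  ψ_q : ∀ p ∈ V, ψ (q p) = p
  e_re : e.re = 0
  li : ∀ z ∈ ball (0 : ℂ) r, LinearIndependent ℝ
    ![fderiv ℝ (fun x => F (ψ x)) z 1, fderiv ℝ (fun x => F (ψ x)) z Complex.I]
  ν_ne : ∀ z ∈ ball (0 : ℂ) r,
    Quat.nu e (fderiv ℝ (fun x => F (ψ x)) z 1) (fderiv ℝ (fun x => F (ψ x)) z Complex.I) ≠ 0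

/-- The one-form `Im (conj L dF)`. -/
def sigma (F L : M → ℍ[ℝ]) (p : M) (v : TangentSpace 𝓘(ℝ, Plane) p) :
    EuclideanSpace ℝ (Fin 3) :=
  Quat.imV (star (L p) * dQ F p v)

/-- Conjugation is smooth. -/
theorem starQ_contDiff : ContDiff ℝ ∞ (star : ℍ[ℝ] → ℍ[ℝ]) :=
  (LinearMap.toContinuousLinearMap
    ({ toFun := star, map_add' := star_add, map_smul' := fun c a => by ext <;> simp } :
      ℍ[ℝ] →ₗ[ℝ] ℍ[ℝ])).contDiff

namespace Patch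

variable {F : M → ℍ[ℝ]} (P : Patch F)

/-- The first coordinate vector. -/
def t₁ (z : ℂ) : ℍ[ℝ] := fderiv ℝ (fun x => F (P.ψ x)) z 1

/-- The second coordinate vector. -/
def t₂ (z : ℂ) : ℍ[ℝ] := fderiv ℝ (fun x => F (P.ψ x)) z Complex.I

/-- The normal vector. -/
def ν (z : ℂ) : ℍ[ℝ] := Quat.nu P.e (P.t₁ z) (P.t₂ z)

/-- The axis of the normal planes. -/
def μ (z : ℂ) : ℍ[ℝ] := Quat.axis P.e (P.t₁ z) (P.t₂ z)

/-- The coordinate of a normal field. -/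
def S (L : M → ℍ[ℝ]) (z : ℂ) : ℂ := Quat.coord (P.ν z) (P.μ z) (L (P.ψ z))

theorem smooth_comp {W : Type} [NormedAddCommGroup W] [NormedSpace ℝ W] {G : M → W}
    (hG : ContMDiff 𝓘(ℝ, Plane) 𝓘(ℝ, W) ∞ G) : ContDiffOn ℝ ∞ (fun z => G (P.ψ z)) (ball 0 P.r) :=
  (hG.comp_contMDiffOn P.ψ_smooth).contDiffOn

theorem μ_spec {z : ℂ} (hz : z ∈ ball (0 : ℂ) P.r) :
    (P.μ z).re = 0 ∧ P.μ z * P.μ z = -1 ∧ P.μ z ≠ 0 ∧
      inner ℝ (P.μ z) (star (P.ν z) * P.t₁ z) = 0 ∧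
      inner ℝ (P.μ z) (star (P.ν z) * P.t₂ z) = 0 :=
  Quat.axis_spec P.e_re (P.li z hz) (P.ν_ne z hz)

theorem smooth_t (hF : ContMDiff 𝓘(ℝ, Plane) 𝓘(ℝ, ℍ[ℝ]) ∞ F) :
    ContDiffOn ℝ ∞ P.t₁ (ball 0 P.r) ∧ ContDiffOn ℝ ∞ P.t₂ (ball 0 P.r) := by
  have h := (P.smooth_comp hF).fderiv_of_isOpen (m := ∞) isOpen_ball (by simp)
  exact ⟨h.clm_apply contDiffOn_const, h.clm_apply contDiffOn_const⟩

theorem smooth_ν (hF : ContMDiff 𝓘(ℝ, Plane) 𝓘(ℝ, ℍ[ℝ]) ∞ F) :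
    ContDiffOn ℝ ∞ P.ν (ball 0 P.r) := by
  obtain ⟨h1, h2⟩ := P.smooth_t hF
  have hs : ContDiff ℝ ∞ (star : ℍ[ℝ] → ℍ[ℝ]) := starQ_contDiff
  exact h1.mul (Quat.contDiff_pur.comp_contDiffOn
    (contDiffOn_const.mul (Quat.contDiff_pur.comp_contDiffOn ((hs.comp_contDiffOn h1).mul h2))))

theorem smooth_μ (hF : ContMDiff 𝓘(ℝ, Plane) 𝓘(ℝ, ℍ[ℝ]) ∞ F) :
    ContDiffOn ℝ ∞ P.μ (ball 0 P.r) := by
  obtain ⟨h1, h2⟩ := P.smooth_t hF
  have hs : ContDiff ℝ ∞ (star : ℍ[ℝ] → ℍ[ℝ]) := starQ_contDiff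
  have hn := hs.comp_contDiffOn (P.smooth_ν hF)
  have hX : ContDiffOn ℝ ∞ (fun z => Quat.pur (star (P.ν z) * P.t₁ z * (star (P.ν z) * P.t₂ z)))
      (ball 0 P.r) := Quat.contDiff_pur.comp_contDiffOn ((hn.mul h1).mul (hn.mul h2))
  exact ((hX.norm ℝ fun z hz => Quat.axis_ne P.e_re (P.li z hz) (P.ν_ne z hz)).inv fun z hz =>
    norm_ne_zero_iff.2 (Quat.axis_ne P.e_re (P.li z hz) (P.ν_ne z hz))).smul hX

theorem smooth_cq {s : ℂ → ℂ} (hF : ContMDiff 𝓘(ℝ, Plane) 𝓘(ℝ, ℍ[ℝ]) ∞ F)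
    (hs : ContDiffOn ℝ ∞ s (ball 0 P.r)) :
    ContDiffOn ℝ ∞ (fun z => Quat.cq (P.μ z) (s z)) (ball 0 P.r) :=
  ((Complex.reCLM.contDiff.comp_contDiffOn hs).smul contDiffOn_const).add
    ((Complex.imCLM.contDiff.comp_contDiffOn hs).smul (P.smooth_μ hF))

theorem smooth_S {L : M → ℍ[ℝ]} (hF : ContMDiff 𝓘(ℝ, Plane) 𝓘(ℝ, ℍ[ℝ]) ∞ F)
    (hL : ContMDiff 𝓘(ℝ, Plane) 𝓘(ℝ, ℍ[ℝ]) ∞ L) : ContDiffOn ℝ ∞ (P.S L) (ball 0 P.r) := by
  have hs : ContDiff ℝ ∞ (star : ℍ[ℝ] → ℍ[ℝ]) := starQ_contDiff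
  have hr := (hs.comp_contDiffOn (P.smooth_ν hF)).mul (P.smooth_comp hL)
  have h : ContDiffOn ℝ ∞ (fun z => (‖P.ν z‖ ^ 2)⁻¹ •
      (inner ℝ (star (P.ν z) * L (P.ψ z)) (1 : ℍ[ℝ]) • (1 : ℂ) +
        inner ℝ (star (P.ν z) * L (P.ψ z)) (P.μ z) • Complex.I)) (ball 0 P.r) :=
    (((P.smooth_ν hF).norm_sq ℝ).inv fun z hz =>
      pow_ne_zero 2 (norm_ne_zero_iff.2 (P.ν_ne z hz))).smul
      (((hr.inner ℝ contDiffOn_const).smul contDiffOn_const).add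
        ((hr.inner ℝ (P.smooth_μ hF)).smul contDiffOn_const))
  refine h.congr fun z _ => ?_
  rw [S, Quat.coord]
  congr 1
  simp [Complex.ext_iff]

/-- The differential of the parametrisation, read in coordinates. -/
theorem deriv_chart {G : M → ℍ[ℝ]} (hG : ContMDiff 𝓘(ℝ, Plane) 𝓘(ℝ, ℍ[ℝ]) ∞ G) {p : M}
    (hp : p ∈ P.V) (v : TangentSpace 𝓘(ℝ, Plane) p) :
    dQ G p v = fderiv ℝ (fun x => G (P.ψ x)) (P.q p)
      (mfderiv 𝓘(ℝ, Plane) 𝓘(ℝ, ℂ) P.q p v) := by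
  have hz := P.q_mem hp
  have hg : MDifferentiableAt 𝓘(ℝ, ℂ) 𝓘(ℝ, ℍ[ℝ]) (fun x => G (P.ψ x)) (P.q p) :=
    (((P.smooth_comp hG).contDiffAt (isOpen_ball.mem_nhds hz)).differentiableAt
      (by simp)).mdifferentiableAt
  have hq : MDifferentiableAt 𝓘(ℝ, Plane) 𝓘(ℝ, ℂ) P.q p :=
    (P.q_smooth.contMDiffAt (P.V_open.mem_nhds hp)).mdifferentiableAt (by simp)
  have he : G =ᶠ[𝓝 p] (fun x => G (P.ψ x)) ∘ P.q :=
    eventually_of_mem (P.V_open.mem_nhds hp) fun y hy => congrArg G (P.ψ_q y hy).symm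
  have h := he.mfderiv_eq (I := 𝓘(ℝ, Plane)) (I' := 𝓘(ℝ, ℍ[ℝ]))
  rw [mfderiv_comp p hg hq, mfderiv_eq_fderiv] at h
  exact DFunLike.congr_fun h v

theorem deriv_inj {p : M} (hp : p ∈ P.V) :
    Injective (mfderiv 𝓘(ℝ, Plane) 𝓘(ℝ, ℂ) P.q p) := by
  have hψ : MDifferentiableAt 𝓘(ℝ, ℂ) 𝓘(ℝ, Plane) P.ψ (P.q p) :=
    (P.ψ_smooth.contMDiffAt (isOpen_ball.mem_nhds (P.q_mem hp))).mdifferentiableAt (by simp)
  have hq : MDifferentiableAt 𝓘(ℝ, Plane) 𝓘(ℝ, ℂ) P.q p :=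
    (P.q_smooth.contMDiffAt (P.V_open.mem_nhds hp)).mdifferentiableAt (by simp)
  have he : P.ψ ∘ P.q =ᶠ[𝓝 p] id := eventually_of_mem (P.V_open.mem_nhds hp) fun y hy => P.ψ_q y hy
  have h := he.mfderiv_eq (I := 𝓘(ℝ, Plane)) (I' := 𝓘(ℝ, Plane))
  rw [mfderiv_comp p hψ hq, mfderiv_id] at h
  intro a b hab
  have h2 := congrArg (mfderiv 𝓘(ℝ, ℂ) 𝓘(ℝ, Plane) P.ψ (P.q p)) hab
  have ea := DFunLike.congr_fun h a
  have eb := DFunLike.congr_fun h b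
  exact ea.symm.trans (h2.trans eb)

theorem deriv_surj {p : M} (hp : p ∈ P.V) :
    Surjective (mfderiv 𝓘(ℝ, Plane) 𝓘(ℝ, ℂ) P.q p) :=
  (LinearMap.injective_iff_surjective_of_finrank_eq_finrank
    (f := ((show Plane →L[ℝ] ℂ from mfderiv 𝓘(ℝ, Plane) 𝓘(ℝ, ℂ) P.q p) : Plane →ₗ[ℝ] ℂ))
    (by simp [Complex.finrank_real_complex])).1 (P.deriv_inj hp)

theorem normal_coord {L : M → ℍ[ℝ]} (hF : ContMDiff 𝓘(ℝ, Plane) 𝓘(ℝ, ℍ[ℝ]) ∞ F)
    (hn : ∀ p v, inner ℝ (L p) (dQ F p v) = 0) {z : ℂ} (hz : z ∈ ball (0 : ℂ) P.r) :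
    P.ν z * Quat.cq (P.μ z) (P.S L z) = L (P.ψ z) := by
  have key : ∀ w, inner ℝ (L (P.ψ z)) (fderiv ℝ (fun x => F (P.ψ x)) z w) = 0 := fun w => by
    obtain ⟨v, hv⟩ := P.deriv_surj (P.ψ_mem hz) w
    have := hn (P.ψ z) v
    rwa [P.deriv_chart hF (P.ψ_mem hz), hv, P.q_ψ z hz] at this
  exact Quat.eq_mul_coord P.e_re (P.li z hz) (P.ν_ne z hz) (key _) (key _)

theorem coord_mul {z : ℂ} (hz : z ∈ ball (0 : ℂ) P.r) (s : ℂ) :
    Quat.coord (P.ν z) (P.μ z) (P.ν z * Quat.cq (P.μ z) s) = s := by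
  obtain ⟨hre, hsq, -⟩ := P.μ_spec hz
  have hν : ‖P.ν z‖ ^ 2 ≠ 0 := pow_ne_zero 2 (norm_ne_zero_iff.2 (P.ν_ne z hz))
  have hμ : inner ℝ (P.μ z) (P.μ z) = (1 : ℝ) := by
    have := congrArg (fun x : ℍ[ℝ] => x.re) hsq
    simp [hre] at this
    rw [Quat.inner_eq, hre]
    linarith
  have h : star (P.ν z) * (P.ν z * Quat.cq (P.μ z) s) = ‖P.ν z‖ ^ 2 • Quat.cq (P.μ z) s := by
    rw [← mul_assoc, Quaternion.star_mul_self, Quaternion.coe_mul_eq_smul,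
      Quaternion.normSq_eq_norm_mul_self, sq]
  have h1 : inner ℝ (P.μ z) (1 : ℍ[ℝ]) = 0 := by simp [Quat.inner_eq, hre]
  rw [Quat.coord, h, Quat.cq]
  simp only [inner_add_left, real_inner_smul_left, real_inner_comm (P.μ z) (1 : ℍ[ℝ]), h1, hμ]
  have hν' : ‖P.ν z‖ ≠ 0 := norm_ne_zero_iff.2 (P.ν_ne z hz)
  apply Complex.ext <;> simp [pow_two] <;> field_simp

theorem coord_eq_zero {z : ℂ} (hz : z ∈ ball (0 : ℂ) P.r) {s : ℂ} :
    P.ν z * Quat.cq (P.μ z) s = 0 ↔ s = 0 := by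
  obtain ⟨hre, -, hne, -⟩ := P.μ_spec hz
  refine ⟨fun h => Quat.cq_eq_zero hre hne ((mul_eq_zero.1 h).resolve_left (P.ν_ne z hz)), ?_⟩
  rintro rfl
  rw [Quat.cq_zero, mul_zero]

open Classical in
/-- A function of the coordinate carried to the surface. -/
def gl {W : Type} [Zero W] (f : ℂ → W) (p : M) : W := if p ∈ P.V then f (P.q p) else 0

theorem gl_of_mem {W : Type} [Zero W] (f : ℂ → W) {p : M} (hp : p ∈ P.V) : P.gl f p = f (P.q p) :=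
  if_pos hp

theorem closed_image [T2Space M] {c : ℂ} {ρ : ℝ} (h : ‖c‖ + ρ < P.r) :
    IsClosed (P.ψ '' closedBall c ρ) :=
  ((isCompact_closedBall c ρ).image_of_continuousOn (P.ψ_smooth.continuousOn.mono
    (closedBall_subset_ball' (by rw [dist_zero_right]; linarith)))).isClosed

theorem gl_smooth [T2Space M] {W : Type} [NormedAddCommGroup W] [NormedSpace ℝ W] {f : ℂ → W}
    {c : ℂ} {ρ : ℝ} (h : ‖c‖ + ρ < P.r) (hf : ContDiffOn ℝ ∞ f (ball 0 P.r))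
    (h0 : ∀ z ∈ ball (0 : ℂ) P.r, z ∉ closedBall c ρ → f z = 0) :
    ContMDiff 𝓘(ℝ, Plane) 𝓘(ℝ, W) ∞ (P.gl f) := by
  intro p
  by_cases hp : p ∈ P.V
  · exact ((hf.contMDiffOn.contMDiffAt (isOpen_ball.mem_nhds (P.q_mem hp))).comp p
      (P.q_smooth.contMDiffAt (P.V_open.mem_nhds hp))).congr_of_eventuallyEq
        (eventually_of_mem (P.V_open.mem_nhds hp) fun y hy => P.gl_of_mem f hy)
  · have hpK : p ∉ P.ψ '' closedBall c ρ := by
      rintro ⟨z, hz, rfl⟩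
      exact hp (P.ψ_mem (closedBall_subset_ball' (by rw [dist_zero_right]; linarith) hz))
    refine (contMDiffAt_const (c := (0 : W))).congr_of_eventuallyEq
      (eventually_of_mem ((P.closed_image h).isOpen_compl.mem_nhds hpK) fun y hy => ?_)
    by_cases hyV : y ∈ P.V
    · rw [P.gl_of_mem f hyV]
      exact h0 _ (P.q_mem hyV) fun hz => hy ⟨_, hz, P.ψ_q y hyV⟩
    · exact if_neg hyV

open Classical in
/-- The one-form with the given coordinate expression. -/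
def form {W : Type} [NormedAddCommGroup W] [NormedSpace ℝ W] (A : ℂ → (ℂ →L[ℝ] W)) (p : M)
    (v : TangentSpace 𝓘(ℝ, Plane) p) : W :=
  if p ∈ P.V then A (P.q p) (show ℂ from mfderiv 𝓘(ℝ, Plane) 𝓘(ℝ, ℂ) P.q p v) else 0

theorem isOneForm_form [T2Space M] {W : Type} [NormedAddCommGroup W] [NormedSpace ℝ W]
    {A : ℂ → (ℂ →L[ℝ] W)} {c : ℂ} {ρ : ℝ} (hρ : 0 < ρ) (h : ‖c‖ + ρ < P.r)
    (hA : ContDiffOn ℝ ∞ A (ball 0 P.r))
    (h0 : ∀ z ∈ ball (0 : ℂ) P.r, z ∉ closedBall c ρ → A z = 0) : IsOneForm (P.form A) := by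
  set ρ₁ := (2 * ρ + (P.r - ‖c‖)) / 3
  set ρ₂ := (ρ + 2 * (P.r - ‖c‖)) / 3
  let η : ContDiffBump c := ⟨ρ₁, ρ₂, by simp only [ρ₁]; linarith [norm_nonneg c],
    by simp only [ρ₁, ρ₂]; linarith⟩
  have hρ₂ : ‖c‖ + ρ₂ < P.r := by simp only [ρ₂]; linarith
  have hm : ∀ l : ℂ →L[ℝ] ℝ,
      ContMDiff 𝓘(ℝ, Plane) 𝓘(ℝ) ∞ (P.gl fun z => η z * l z) := fun l =>
    P.gl_smooth hρ₂ (η.contDiff.mul l.contDiff).contDiffOn fun z _ hz => by
      have : η z = 0 := η.zero_of_le_dist (le_of_lt (not_le.1 hz))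
      simp [this]
  have ha : ∀ w : ℂ, ContMDiff 𝓘(ℝ, Plane) 𝓘(ℝ, W) ∞ (P.gl fun z => A z w) := fun w =>
    P.gl_smooth h (hA.clm_apply contDiffOn_const) fun z hz hzc => by simp [h0 z hz hzc]
  obtain ⟨n, a, m, h1, h2, h3⟩ := (IsOneForm.single (ha 1) (hm Complex.reCLM)).add
    (IsOneForm.single (ha Complex.I) (hm Complex.imCLM))
  refine ⟨n, a, m, h1, h2, fun p v => ?_⟩
  rw [← h3 p v]
  by_cases hp : p ∈ P.V
  · simp only [form, P.gl_of_mem _ hp, if_pos hp]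
    by_cases hz : P.q p ∈ closedBall c ρ
    · have hd : ∀ l : ℂ →L[ℝ] ℝ,
          (show ℝ from mfderiv 𝓘(ℝ, Plane) 𝓘(ℝ) (P.gl fun z => η z * l z) p v) =
            l (show ℂ from mfderiv 𝓘(ℝ, Plane) 𝓘(ℝ, ℂ) P.q p v) := fun l => by
        have hev : (P.gl fun z => η z * l z) =ᶠ[𝓝 p] l ∘ P.q := by
          have h1 : ∀ᶠ y in 𝓝 p, P.q y ∈ ball c ρ₁ :=
            ((P.q_smooth.continuousOn.continuousAt (P.V_open.mem_nhds hp))).preimage_mem_nhds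
              (isOpen_ball.mem_nhds (mem_ball.2 (lt_of_le_of_lt (mem_closedBall.1 hz)
                (by simp only [ρ₁]; linarith [norm_nonneg c]))))
          filter_upwards [h1, P.V_open.mem_nhds hp] with y hy hyV
          rw [P.gl_of_mem _ hyV, η.one_of_mem_closedBall (ball_subset_closedBall hy), one_mul]
          rfl
        rw [hev.mfderiv_eq, mfderiv_comp p l.hasMFDerivAt.mdifferentiableAt
          ((P.q_smooth.contMDiffAt (P.V_open.mem_nhds hp)).mdifferentiableAt (by simp)),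
          l.hasMFDerivAt.mfderiv]
        rfl
      dsimp only at hd ⊢
      rw [hd, hd]
      set w : ℂ := (show ℂ from mfderiv 𝓘(ℝ, Plane) 𝓘(ℝ, ℂ) P.q p v)
      show A (P.q p) w = w.re • A (P.q p) 1 + w.im • A (P.q p) Complex.I
      conv_lhs => rw [show w = w.re • (1 : ℂ) + w.im • Complex.I by simp]
      rw [map_add, map_smul, map_smul]
    · rw [h0 _ (P.q_mem hp) hz]
      exact ((congrArg₂ (fun a b : W => a + b) (smul_zero (A := W) _) (smul_zero (A := W) _)).trans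
        (add_zero (0 : W))).symm
  · simp only [form, gl, if_neg hp]
    exact ((congrArg₂ (fun a b : W => a + b) (smul_zero (A := W) _) (smul_zero (A := W) _)).trans
      (add_zero (0 : W))).symm

theorem sigma_eq {L : M → ℍ[ℝ]} (hF : ContMDiff 𝓘(ℝ, Plane) 𝓘(ℝ, ℍ[ℝ]) ∞ F)
    (hn : ∀ p v, inner ℝ (L p) (dQ F p v) = 0) {p : M} (hp : p ∈ P.V)
    (v : TangentSpace 𝓘(ℝ, Plane) p) :
    sigma F L p v = Quat.imV (Quat.cq (P.μ (P.q p)) (conj (P.S L (P.q p))) *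
      (star (P.ν (P.q p)) * fderiv ℝ (fun x => F (P.ψ x)) (P.q p)
        (show ℂ from mfderiv 𝓘(ℝ, Plane) 𝓘(ℝ, ℂ) P.q p v))) := by
  have hz := P.q_mem hp
  have hL := P.normal_coord hF hn hz
  rw [P.ψ_q p hp] at hL
  rw [sigma, P.deriv_chart hF hp, ← hL, star_mul, Quat.star_cq (P.μ_spec hz).1, mul_assoc]

theorem fderiv_at_zero {L : M → ℍ[ℝ]} (hF : ContMDiff 𝓘(ℝ, Plane) 𝓘(ℝ, ℍ[ℝ]) ∞ F)
    (hL : ContMDiff 𝓘(ℝ, Plane) 𝓘(ℝ, ℍ[ℝ]) ∞ L) (hn : ∀ p v, inner ℝ (L p) (dQ F p v) = 0)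
    {z : ℂ} (hz : z ∈ ball (0 : ℂ) P.r) (h0 : P.S L z = 0) (w : ℂ) :
    fderiv ℝ (fun x => L (P.ψ x)) z w = P.ν z * Quat.cq (P.μ z) (fderiv ℝ (P.S L) z w) := by
  have hm := isOpen_ball.mem_nhds hz
  have hS := ((P.smooth_S hF hL).contDiffAt hm).differentiableAt (by simp) |>.hasFDerivAt
  have hν := ((P.smooth_ν hF).contDiffAt hm).differentiableAt (by simp) |>.hasFDerivAt
  have hμ := ((P.smooth_μ hF).contDiffAt hm).differentiableAt (by simp) |>.hasFDerivAt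
  have hre : HasFDerivAt (fun x => (P.S L x).re) (Complex.reCLM.comp (fderiv ℝ (P.S L) z)) z :=
    Complex.reCLM.hasFDerivAt.comp z hS
  have him : HasFDerivAt (fun x => (P.S L x).im) (Complex.imCLM.comp (fderiv ℝ (P.S L) z)) z :=
    Complex.imCLM.hasFDerivAt.comp z hS
  have hprod : HasFDerivAt (fun x => P.ν x * Quat.cq (P.μ x) (P.S L x)) _ z :=
    hν.mul' ((hre.smul_const (1 : ℍ[ℝ])).add (him.smul hμ))
  have hev : (fun x => L (P.ψ x)) =ᶠ[𝓝 z] fun x => P.ν x * Quat.cq (P.μ x) (P.S L x) :=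
    eventually_of_mem hm fun x hx => (P.normal_coord hF hn hx).symm
  rw [hev.fderiv_eq, hprod.fderiv]
  simp [h0, Quat.cq, mul_add]

theorem cross_ne_iff (T : ℂ →L[ℝ] ℂ) : Disc.cross T ≠ 0 ↔ Injective T := by
  have e : ∀ w, T w = w.re • T 1 + w.im • T Complex.I := fun w => by
    rw [← map_smul, ← map_smul, ← map_add]
    simp
  constructor
  · intro h
    refine (injective_iff_map_eq_zero _).2 fun w hw => ?_
    rw [e] at hw
    have a := congrArg (fun x => (conj (T 1) * x).im) hw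
    have b := congrArg (fun x => (conj (T Complex.I) * x).im) hw
    simp [Disc.cross, Complex.mul_im] at a b h
    refine Complex.ext ?_ ?_
    · exact (mul_eq_zero.1 (by linear_combination (-1 : ℝ) * b : w.re * _ = 0)).resolve_right h
    · exact (mul_eq_zero.1 (by linear_combination a : w.im * _ = 0)).resolve_right h
  · intro h hc
    have h1 : T 1 ≠ 0 := fun h1 => one_ne_zero (h (h1.trans (map_zero T).symm))
    set c := (conj (T 1) * T Complex.I).re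
    have hk : conj (T 1) * T Complex.I = (c : ℂ) := Complex.ext rfl (by simpa [Disc.cross] using hc)
    have : T ((Complex.normSq (T 1) : ℝ) • Complex.I - c • (1 : ℂ)) = 0 := by
      rw [map_sub, map_smul, map_smul, Complex.real_smul, Complex.real_smul, ← hk,
        Complex.normSq_eq_conj_mul_self]
      ring
    have h2 := congrArg Complex.im (h (this.trans (map_zero T).symm))
    simp at h2
    exact h1 h2

/-- Regular zeros are those with a regular coordinate function. -/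
theorem regular_iff {L : M → ℍ[ℝ]} (hF : ContMDiff 𝓘(ℝ, Plane) 𝓘(ℝ, ℍ[ℝ]) ∞ F)
    (hL : ContMDiff 𝓘(ℝ, Plane) 𝓘(ℝ, ℍ[ℝ]) ∞ L) (hn : ∀ p v, inner ℝ (L p) (dQ F p v) = 0)
    {p : M} (hp : p ∈ P.V) (h0 : L p = 0) :
    Injective (dQ L p) ↔ Disc.cross (fderiv ℝ (P.S L) (P.q p)) ≠ 0 := by
  have hz := P.q_mem hp
  have hS0 : P.S L (P.q p) = 0 := by simp [S, P.ψ_q p hp, h0, Quat.coord]; exact Or.inr (Complex.ext rfl rfl)
  rw [cross_ne_iff]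
  set D : TangentSpace 𝓘(ℝ, Plane) p → ℂ := fun v => mfderiv 𝓘(ℝ, Plane) 𝓘(ℝ, ℂ) P.q p v
  have e : ∀ v, dQ L p v = P.ν (P.q p) * Quat.cq (P.μ (P.q p)) (fderiv ℝ (P.S L) (P.q p) (D v)) :=
    fun v => (P.deriv_chart hL hp v).trans (P.fderiv_at_zero hF hL hn hz hS0 _)
  constructor
  · intro hi a b hab
    obtain ⟨x, rfl⟩ := P.deriv_surj hp a
    obtain ⟨y, rfl⟩ := P.deriv_surj hp b
    refine congrArg D (hi ?_)
    rw [e, e]
    exact congrArg (fun s => P.ν (P.q p) * Quat.cq (P.μ (P.q p)) s) hab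
  · intro hi a b hab
    refine P.deriv_inj hp (hi ?_)
    rw [e, e] at hab
    have := congrArg (Quat.coord (P.ν (P.q p)) (P.μ (P.q p))) hab
    rwa [P.coord_mul hz, P.coord_mul hz] at this

end Patch

/-- Every point has arbitrarily small patches centred at it. -/
theorem exists_patch [IsManifold 𝓘(ℝ, Plane) ∞ M] {F : M → ℍ[ℝ]}
    (hF : ContMDiff 𝓘(ℝ, Plane) 𝓘(ℝ, ℍ[ℝ]) ∞ F) (hi : ∀ p, Injective (dQ F p)) (p : M) {N : Set M}
    (hN : N ∈ 𝓝 p) : ∃ P : Patch F, 0 < P.r ∧ p ∈ P.V ∧ P.q p = 0 ∧ P.V ⊆ N := by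
  obtain ⟨ψ, q, U, hU, hpU, hq0, hψs, hψU, hqU, hqs, hqψ, hψq⟩ :=
    Iter.exists_ball_chart (E := ℂ) (I := 𝓘(ℝ, Plane)) (M := M)
      Complex.orthonormalBasisOneI.repr.toContinuousLinearEquiv p
  set f : ℂ → ℍ[ℝ] := fun x => F (ψ x)
  have hf : ContDiffOn ℝ ∞ f (ball 0 3) := (hF.comp_contMDiffOn hψs).contDiffOn
  have hinj : ∀ z ∈ ball (0 : ℂ) 3, Injective (fderiv ℝ f z) := fun z hz => by
    have hψd : MDifferentiableAt 𝓘(ℝ, ℂ) 𝓘(ℝ, Plane) ψ z :=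
      (hψs.contMDiffAt (isOpen_ball.mem_nhds hz)).mdifferentiableAt (by simp)
    have hqd : MDifferentiableAt 𝓘(ℝ, Plane) 𝓘(ℝ, ℂ) q (ψ z) :=
      (hqs.contMDiffAt (hU.mem_nhds (hψU hz))).mdifferentiableAt (by simp)
    have he : q ∘ ψ =ᶠ[𝓝 z] id := eventually_of_mem (isOpen_ball.mem_nhds hz) hqψ
    have h1 := he.mfderiv_eq (I := 𝓘(ℝ, ℂ)) (I' := 𝓘(ℝ, ℂ))
    rw [mfderiv_comp z hqd hψd, mfderiv_id] at h1
    have h2 := mfderiv_comp z ((hF.contMDiffAt (x := ψ z)).mdifferentiableAt (by simp)) hψd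
    rw [mfderiv_eq_fderiv] at h2
    intro a b hab
    have h3 := hi (ψ z) ((DFunLike.congr_fun h2 a).symm.trans (hab.trans (DFunLike.congr_fun h2 b)))
    exact (DFunLike.congr_fun h1 a).symm.trans
      ((congrArg (mfderiv 𝓘(ℝ, Plane) 𝓘(ℝ, ℂ) q (ψ z)) h3).trans (DFunLike.congr_fun h1 b))
  have hli : ∀ z ∈ ball (0 : ℂ) 3,
      LinearIndependent ℝ ![fderiv ℝ f z 1, fderiv ℝ f z Complex.I] := fun z hz => by
    refine LinearIndependent.pair_iff.2 fun a b hab => ?_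
    rw [← map_smul, ← map_smul, ← map_add] at hab
    have h := hinj z hz (hab.trans (map_zero _).symm)
    exact ⟨by simpa using congrArg Complex.re h, by simpa using congrArg Complex.im h⟩
  have h00 : (0 : ℂ) ∈ ball (0 : ℂ) 3 := mem_ball_self (by norm_num)
  obtain ⟨e, he, hne⟩ := Quat.exists_aux (hli 0 h00)
  have hc : ContinuousAt
      (fun z => Quat.nu e (fderiv ℝ f z 1) (fderiv ℝ f z Complex.I)) 0 := by
    have hd := (hf.continuousOn_fderiv_of_isOpen isOpen_ball (by simp)).continuousAt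
      (isOpen_ball.mem_nhds h00)
    have h1 := hd.clm_apply (continuousAt_const (y := (1 : ℂ)))
    have h2 := hd.clm_apply (continuousAt_const (y := Complex.I))
    exact h1.mul (Quat.contDiff_pur.continuous.continuousAt.comp (continuousAt_const.mul
      (Quat.contDiff_pur.continuous.continuousAt.comp (h1.star.mul h2))))
  have hψc : ψ ⁻¹' N ∈ 𝓝 (0 : ℂ) :=
    (hψs.continuousOn.continuousAt (isOpen_ball.mem_nhds h00)).preimage_mem_nhds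
      (by rwa [show ψ 0 = p by rw [← hq0]; exact hψq p hpU])
  obtain ⟨r, hr, hrb⟩ := Metric.mem_nhds_iff.1
    (inter_mem (inter_mem (hc.eventually_ne hne) hψc) (ball_mem_nhds (0 : ℂ) three_pos))
  have h3 : ball (0 : ℂ) r ⊆ ball 0 3 := fun z hz => (hrb hz).2
  refine ⟨⟨r, ψ, q, U ∩ q ⁻¹' ball 0 r, e, ?_, hψs.mono h3, fun z hz => ?_, fun y hy => hy.2,
    hqs.mono inter_subset_left, fun z hz => hqψ z (h3 hz), fun y hy => hψq y hy.1, he,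
    fun z hz => hli z (h3 hz), fun z hz => (hrb hz).1.1⟩, hr, ⟨hpU, ?_⟩, hq0, ?_⟩
  · exact hqs.continuousOn.isOpen_inter_preimage hU isOpen_ball
  · exact ⟨hψU (h3 hz), by rw [mem_preimage, hqψ z (h3 hz)]; exact hz⟩
  · rw [mem_preimage, hq0]; exact mem_ball_self hr
  · rintro y ⟨hy, hyr⟩
    rw [← hψq y hy]
    exact (hrb hyr).1.2

end Vale.Agent.P205.Global
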